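import Vale.Agent.P022K.G2.SpecG
import Vale.Agent.P022E.GW.Defs

/-!
# P022K, block G2: the arithmetic rows and the output (any prime `p`, any number field)
-/

set_option linter.all false

noncomputable section

namespace Vale.Agent.P022K.G2

open NumberField Module IsDedekindDomain
open Vale.Agent.P022 Vale.Agent.P022.C
open Vale.Agent.P027M.S (Inert)
open Vale.Agent.P022D.W (dec)
open Vale.Agent.P022E.GW (Ov Fb)
open scoped Pointwise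

/-! ### roots of unity, Kummer characters, places -/

section

variable (p : ℕ) [Fact p.Prime]

theorem ex_zt : ∃ ζ : Qb, IsPrimitiveRoot ζ p :=
  haveI : NeZero p := ⟨(Fact.out : p.Prime).ne_zero⟩
  HasEnoughRootsOfUnity.exists_primitiveRoot Qb p

/-- the chosen primitive root of unity -/
def zt : Qb := Classical.choose (ex_zt p)

theorem zt_prim : IsPrimitiveRoot (zt p) p := Classical.choose_spec (ex_zt p)

/-- the cyclotomic character modulo `p` -/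
def om0 : GQ →* (ZMod p)ˣ :=
  haveI : NeZero p := ⟨(Fact.out : p.Prime).ne_zero⟩
  (zt_prim p).autToPow ℚ

/-- the same, with values in `ZMod p` -/
def oz (g : GQ) : ZMod p := om0 p g

/-- the same, with values in `k` -/
def om (k : Type) [Field k] [CharP k p] (g : GQ) : k := ZMod.castHom (dvd_refl p) k (oz p g)

/-- the group of `ℚ(ζ_p)` -/
def Gz : Subgroup GQ := (om0 p).ker

/-- the chosen root -/
def rt (b : Qb) : Qb :=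
  Classical.choose (IsAlgClosed.exists_pow_nat_eq b (Fact.out : p.Prime).pos)

theorem rt_pow (b : Qb) : rt p b ^ p = b :=
  Classical.choose_spec (IsAlgClosed.exists_pow_nat_eq b (Fact.out : p.Prime).pos)

open Classical in
/-- the Kummer character -/
def ka (b : Qb) (g : GQ) : ZMod p :=
  if h : ∃ j : ZMod p, g (rt p b) = zt p ^ j.val * rt p b then Classical.choose h else 0

/-- the trivial representation on the prime field -/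
abbrev tp : GQ → End (ZMod p) (ZMod p) := tr GQ (ZMod p)

end

/-- the places of the algebraic closure (and the other ideals) -/
def Plc : Type := Ideal (𝓞 Qb) ⊕ InfinitePlace Qb

instance : MulAction GQ Plc := inferInstanceAs (MulAction GQ (Ideal (𝓞 Qb) ⊕ InfinitePlace Qb))

/-- a finite place -/
def fp (P : Ideal (𝓞 Qb)) : Plc := Sum.inl P

/-- an infinite place -/
def ip (w : InfinitePlace Qb) : Plc := Sum.inr w

/-- the places above `T`; `0` stands for infinity -/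
def Ab (T : Set ℕ) : Set Plc :=
  {x | (∃ l ∈ T, ∃ P, Ov l P ∧ x = fp P) ∨ (0 ∈ T ∧ ∃ w, x = ip w)}

/-- the inertia elements outside `T` -/
def In (T : Set ℕ) : Set GQ := {g | ∃ l ∉ T, ∃ P, Ov l P ∧ Inert P g}

/-- the decomposition group -/
abbrev St (x : Plc) : Subgroup GQ := MulAction.stabilizer GQ x

theorem mem_smul {P : Ideal (𝓞 Qb)} {g : GQ} {x : 𝓞 Qb} : x ∈ g • P ↔ g⁻¹ • x ∈ P :=
  Ideal.mem_pointwise_smul_iff_inv_smul_mem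

theorem smul_fp (g : GQ) (P : Ideal (𝓞 Qb)) : g • fp P = fp (g • P) := rfl

theorem smul_ip (g : GQ) (w : InfinitePlace Qb) : g • ip w = ip (g • w) := rfl

theorem st_fp (P : Ideal (𝓞 Qb)) : St (fp P) = dec P := by
  ext g
  rw [MulAction.mem_stabilizer_iff, smul_fp, ← (dec P).inv_mem_iff]
  exact ⟨fun h x => by rw [← mem_smul, Sum.inl.inj h], fun h =>
    congrArg fp (Ideal.ext fun x => mem_smul.trans (h x))⟩

theorem st_ip (w : InfinitePlace Qb) : St (ip w) = MulAction.stabilizer GQ w := by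
  ext g
  rw [MulAction.mem_stabilizer_iff, smul_ip, MulAction.mem_stabilizer_iff]
  exact ⟨fun h => Sum.inr.inj h, fun h => congrArg ip h⟩

/-- `T` is a big set of primes for the field of `H` -/
def Bg (H : Subgroup GQ) (T : Finset ℕ) : Prop :=
  P022E.GW.Bg H T ∧ ∀ l ∈ T, l = 0 ∨ l.Prime

/-- a tame place of degree one of the field of `H`, with a Frobenius element -/
structure Tm (p : ℕ) (H : Subgroup GQ) (l : ℕ) (P : Ideal (𝓞 Qb)) (φ : GQ) : Prop where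
  ov : Ov l P
  ne : l ≠ p
  fb : Fb l P φ
  le : dec P ≤ H

/-! ### Kummer theory and symbols, for any subgroup which fixes the roots of unity -/

/-- Kummer theory -/
def KUM (p : ℕ) [Fact p.Prime] : Prop := ∀ (A : Subgroup GQ), A ≤ Gz p →
  (∀ χ : GQ → ZMod p, Ch A χ → ∃ b : Qb, b ≠ 0 ∧ (∀ g ∈ A, g b = b) ∧ ∀ g ∈ A, χ g = ka p b g) ∧
  ∀ b : Qb, b ≠ 0 → (∀ g ∈ A, g b = b) → Ch A (ka p b) ∧
    ((∀ g ∈ A, ka p b g = 0) ↔ ∃ y : Qb, (∀ g ∈ A, g y = y) ∧ y ^ p = b)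

/-- a symbol vanishes if and only if the element is a norm -/
def NRM (p : ℕ) [Fact p.Prime] : Prop := ∀ (A : Subgroup GQ) (η : GQ → ZMod p) (σ : GQ) (b : Qb),
  A ≤ Gz p → Ch A η → σ ∈ A → η σ = 1 → b ≠ 0 → (∀ g ∈ A, g b = b) →
  (cup η (ka p b) ∈ B2 ∅ A (tp p) ↔
    ∃ y : Qb, (∀ g ∈ A, η g = 0 → g y = y) ∧ ∏ i ∈ Finset.range p, (σ ^ i) y = b)

/-- a class killed by a cyclic extension of degree `p` is a symbol -/
def GYS (p : ℕ) [Fact p.Prime] : Prop := ∀ (A A' : Subgroup GQ) (η : GQ → ZMod p)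
  (z : GQ → GQ → ZMod p), A ≤ Gz p → Ch A η → (∀ g, g ∈ A' ↔ g ∈ A ∧ η g = 0) →
  z ∈ Z2 ∅ A (tp p) → z ∈ B2 ∅ A' (tp p) →
  ∃ b : Qb, b ≠ 0 ∧ (∀ g ∈ A, g b = b) ∧ z - cup η (ka p b) ∈ B2 ∅ A (tp p)

/-! ### local rows -/

/-- an element of the decomposition field is global up to a `p`-th power -/
def EXT (p : ℕ) [Fact p.Prime] : Prop := ∀ (K : Type) [Field K] [NumberField K] (j : K →+* Qb)
  (x : Plc) (b : Qb), GK j ≤ Gz p → x ∈ Ab Set.univ → b ≠ 0 → (∀ g ∈ GK j ⊓ St x, g b = b) →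
  ∃ a : K, a ≠ 0 ∧ ∀ g ∈ GK j ⊓ St x, ka p (j a) g = ka p b g

/-- tame inertia -/
def TAM (p : ℕ) [Fact p.Prime] : Prop := ∀ (l : ℕ) (P : Ideal (𝓞 Qb)), Ov l P → l ≠ p →
  (∀ g, Inert P g → g ∈ Gz p) ∧ (∃ τ, Inert P τ ∧ ka p l τ = 1) ∧
  ∀ (k : Type) [Field k] [CharP k p] (N : Type) [AddCommGroup N] [Module k N] (f : GQ → N),
    (∀ g h, Inert P g → Inert P h → f (g * h) = f g + f h) →
    (∃ W, Lv ∅ W ∧ ∀ w ∈ W, Inert P w → f w = 0) →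
    ∃ n : N, ∀ g, Inert P g → f g = ZMod.castHom (dvd_refl p) k (ka p l g) • n

/-- unramified characters -/
def UCH (p : ℕ) [Fact p.Prime] : Prop := ∀ (H : Subgroup GQ) (l : ℕ) (P : Ideal (𝓞 Qb)),
  IsOpen (H : Set GQ) → Ov l P → ∃ u : GQ → ZMod p, Ch (H ⊓ dec P) u ∧
    (∀ g ∈ H, Inert P g → u g = 0) ∧ ∃ σ ∈ H ⊓ dec P, u σ = 1

/-- unramified cocycles -/
def UNR (p : ℕ) [Fact p.Prime] : Prop := ∀ (k : Type) [Field k] [CharP k p] (H : Subgroup GQ)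
  (l : ℕ) (P : Ideal (𝓞 Qb)) (z : GQ → GQ → k), IsOpen (H : Set GQ) → Ov l P →
  z ∈ Z2 ∅ (H ⊓ dec P) (tr GQ k) → (∀ g ∈ H ⊓ dec P, ∀ h ∈ H ⊓ dec P, ∀ i ∈ H, Inert P i →
    z (g * i) h = z g h ∧ z g (h * i) = z g h) → z ∈ B2 ∅ (H ⊓ dec P) (tr GQ k)

/-- unramified cocycles with values in the roots of unity -/
def UNT (p : ℕ) [Fact p.Prime] : Prop := ∀ (k : Type) [Field k] [CharP k p] (Γ : Subgroup GQ)
  (l : ℕ) (P : Ideal (𝓞 Qb)) (z : GQ → GQ → k), IsOpen (Γ : Set GQ) → Ov l P →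
  z ∈ Z2 ∅ (Γ ⊓ dec P) (ch (om p k)) → (∀ g ∈ Γ ⊓ dec P, ∀ h ∈ Γ ⊓ dec P, ∀ i ∈ Γ, Inert P i →
    z (g * i) h = z g h ∧ z g (h * i) = z g h) → z ∈ B2 ∅ (Γ ⊓ dec P) (ch (om p k))

/-- the local norm index is at most `p` -/
def NIL (p : ℕ) [Fact p.Prime] : Prop := ∀ (H : Subgroup GQ) (l : ℕ) (P : Ideal (𝓞 Qb))
  (η β γ : GQ → ZMod p), IsOpen (H : Set GQ) → H ≤ Gz p → Ov l P → Ch (H ⊓ dec P) η →
  Ch (H ⊓ dec P) β → Ch (H ⊓ dec P) γ → cup η β ∉ B2 ∅ (H ⊓ dec P) (tp p) →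
  ∃ a : ZMod p, cup η γ - a • cup η β ∈ B2 ∅ (H ⊓ dec P) (tp p)

/-- the unramified symbol -/
def UNS (p : ℕ) [Fact p.Prime] : Prop := ∀ (K : Type) [Field K] [NumberField K] (j : K →+* Qb)
  (l : ℕ) (P : Ideal (𝓞 Qb)) (v : HeightOneSpectrum (𝓞 K)) (u : GQ → ZMod p) (a : K),
  GK j ≤ Gz p → Ov l P → below j P = v.asIdeal → Ch (GK j ⊓ dec P) u →
  (∀ g ∈ GK j, Inert P g → u g = 0) → (∃ σ ∈ GK j ⊓ dec P, u σ ≠ 0) → a ≠ 0 →
  (cup u (ka p (j a)) ∈ B2 ∅ (GK j ⊓ dec P) (tp p) ↔ (p : ℤ) ∣ ordv v a)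

/-- every local class is an unramified symbol -/
def DIM1 (p : ℕ) [Fact p.Prime] : Prop := ∀ (H : Subgroup GQ) (l : ℕ) (P : Ideal (𝓞 Qb))
  (u : GQ → ZMod p) (z : GQ → GQ → ZMod p), IsOpen (H : Set GQ) → H ≤ Gz p → Ov l P →
  Ch (H ⊓ dec P) u → (∀ g ∈ H, Inert P g → u g = 0) → (∃ σ ∈ H ⊓ dec P, u σ ≠ 0) →
  z ∈ Z2 ∅ (H ⊓ dec P) (tp p) →
  ∃ β : GQ → ZMod p, Ch (H ⊓ dec P) β ∧ z - cup u β ∈ B2 ∅ (H ⊓ dec P) (tp p)

/-- the local second cohomology of a character -/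
def DIMT (p : ℕ) [Fact p.Prime] : Prop := ∀ (k : Type) [Field k] [Finite k] [CharP k p]
  (Γ : Subgroup GQ) (l : ℕ) (P : Ideal (𝓞 Qb)) (θ : GQ → k), IsOpen (Γ : Set GQ) → Ov l P →
  Rp ∅ Γ (ch θ) → h2 ∅ (Γ ⊓ dec P) (ch θ) ≤ 1 ∧
    ((∃ g ∈ Γ ⊓ dec P, θ g ≠ om p k g) → h2 ∅ (Γ ⊓ dec P) (ch θ) = 0)

open Classical in
/-- the local count for projective modules -/
def LPC (p : ℕ) [Fact p.Prime] : Prop := ∀ (k : Type) [Field k] [CharP k p] (N : Type)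
  [AddCommGroup N] [Module k N] (Γ U : Subgroup GQ) (l : ℕ) (P : Ideal (𝓞 Qb))
  (ρ : GQ → End k N), IsOpen (Γ : Set GQ) → IsOpen (U : Set GQ) → U ≤ Gz p → Ov l P →
  Pd ∅ (Γ ⊓ dec P) U ρ (om p k) →
  rk (Z1 ∅ (Γ ⊓ dec P) ρ) = rk (Hm (Γ ⊓ dec P) ρ (om p k)) +
    (1 + (if l = p then Γ.relIndex (dec P) else 0 : ℕ)) * Module.rank k N

/-- the count at infinity, for all modules -/
def INF (p : ℕ) [Fact p.Prime] : Prop := ∀ (k : Type) [Field k] [CharP k p] (N : Type)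
  [AddCommGroup N] [Module k N] (Γ : Subgroup GQ) (w : InfinitePlace Qb) (ρ : GQ → End k N),
  Module.Finite k N → Rp ∅ (Γ ⊓ St (ip w)) ρ →
  rk (Z1 ∅ (Γ ⊓ St (ip w)) ρ) + (Γ.relIndex (St (ip w)) : ℕ) * Module.rank k N =
    rk (Hm (Γ ⊓ St (ip w)) ρ (om p k)) + Module.rank k N

open Classical in
/-- the sum of the local degrees -/
def DEG : Prop := ∀ (Γ : Subgroup GQ) (T : Set ℕ) (ι : Type) [Fintype ι] (x : ι → Plc) (l : ℕ),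
  IsOpen (Γ : Set GQ) → Reps Γ (Ab T) x → l ∈ T → (l = 0 ∨ l.Prime) →
  ∑ i, (if x i ∈ Ab {l} then Γ.relIndex (St (x i)) else 0) = Γ.index

/-- existence of representatives -/
def PLC : Prop := ∀ (Γ : Subgroup GQ) (T : Finset ℕ), IsOpen (Γ : Set GQ) →
  ∃ (ι : Type) (_ : Fintype ι) (x : ι → Plc), Reps Γ (Ab T) x

/-! ### global rows -/

/-- the local global principle -/
def HASSE (p : ℕ) [Fact p.Prime] : Prop := ∀ (H : Subgroup GQ) (z : GQ → GQ → ZMod p),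
  IsOpen (H : Set GQ) → H ≤ Gz p → z ∈ Z2 ∅ H (tp p) →
  (∀ x ∈ Ab Set.univ, z ∈ B2 ∅ (H ⊓ St x) (tp p)) → z ∈ B2 ∅ H (tp p)

/-- removal of the ramification outside a big set -/
def FIX (p : ℕ) [Fact p.Prime] : Prop := ∀ (H : Subgroup GQ) (T : Finset ℕ) (w : GQ → ZMod p),
  Bg H T → H ≤ Gz p → p ∈ T → In T ⊆ H → (∃ W, Lv ∅ W ∧ ∀ σ ∈ H, σ ∈ W → w σ = 0) →
  (∀ l ∉ T, ∀ P : Ideal (𝓞 Qb), Ov l P → ∀ i, Inert P i →
    (∀ i', Inert P i' → w (i * i') = w i + w i') ∧ ∀ g ∈ H, w (g * i * g⁻¹) = w i) →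
  ∃ b : GQ → ZMod p, Ch H b ∧ ∀ i ∈ In T, b i = w i

/-- no locally trivial classes of degree two -/
def SHA (p : ℕ) [Fact p.Prime] : Prop := ∀ (H : Subgroup GQ) (T : Finset ℕ)
  (z : GQ → GQ → ZMod p), Bg H T → H ≤ Gz p → 0 ∈ T → p ∈ T → Le (In T) ⊤ H →
  z ∈ Z2 (In T) H (tp p) → (∀ x ∈ Ab T, z ∈ B2 ∅ (H ⊓ St x) (tp p)) → z ∈ B2 (In T) H (tp p)

/-- no locally trivial characters -/
def SHU (p : ℕ) [Fact p.Prime] : Prop := ∀ (H : Subgroup GQ) (T : Finset ℕ) (χ : GQ → ZMod p),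
  Bg H T → 0 ∈ T → Ch H χ → (∀ g ∈ H, g ∈ In T → χ g = 0) →
  (∀ x ∈ Ab T, ∀ g ∈ H ⊓ St x, χ g = 0) → ∀ g ∈ H, χ g = 0

/-- the global count for projective modules -/
def GPC (p : ℕ) [Fact p.Prime] : Prop := ∀ (k : Type) [Field k] [CharP k p] (N : Type)
  [AddCommGroup N] [Module k N] (Γ U : Subgroup GQ) (T : Finset ℕ) (ι : Type) [Fintype ι]
  (x : ι → Plc) (ρ : GQ → End k N), U ≤ Γ → U ≤ Gz p → Bg U T → 0 ∈ T → p ∈ T →
  Le (In T) ⊤ U → Reps Γ (Ab T) x → Pd (In T) Γ U ρ (om p k) →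
  rk (Z1 (In T) Γ ρ) + rk (Hm Γ ρ (om p k)) =
    ∑ i, rk (Hm (Dv Γ x i) ρ (om p k)) + Module.rank k N

/-- reciprocity for a class which is trivial outside finitely many tame places of degree one -/
def ONE (p : ℕ) [Fact p.Prime] : Prop := ∀ (k : Type) [Field k] [Finite k] [CharP k p]
  (Γ : Subgroup GQ) (z : GQ → GQ → k) (κ : Type) [Fintype κ] (l : κ → ℕ)
  (P : κ → Ideal (𝓞 Qb)) (φ : κ → GQ) (u ψ : κ → GQ → k) (s : κ → k), IsOpen (Γ : Set GQ) →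
  z ∈ Z2 ∅ Γ (ch (om p k)) → (∀ i, Tm p (Γ ⊓ Gz p) (l i) (P i) (φ i)) →
  (∀ i j, ∀ g ∈ Γ, P j = g • P i → i = j) →
  (∀ i, Ch (dec (P i)) (u i) ∧ Ch (dec (P i)) (ψ i) ∧ (∀ g, Inert (P i) g → u i g = 0 ∧
    ψ i g = ZMod.castHom (dvd_refl p) k (ka p (l i) g) * s i) ∧
    z - cup (u i) (ψ i) ∈ B2 ∅ (dec (P i)) (tr GQ k)) →
  (∀ x ∈ Ab Set.univ, (∀ i, ∀ g ∈ Γ, x ≠ g • fp (P i)) → z ∈ B2 ∅ (Γ ⊓ St x) (ch (om p k))) →
  ∑ i, u i (φ i) * s i = 0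

/-! ### the output -/

section

variable {k : Type} [Field k] {N : Type} [AddCommGroup N] [Module k N]

/-- relative tangent vectors which may ramify at the places `P j` -/
def TQ {ι κ : Type} (T : Set ℕ) (Γ : Subgroup GQ) (D : ι → Subgroup GQ) (l : κ → ℕ)
    (P : κ → Ideal (𝓞 Qb)) (ρ : GQ → End k N) : Submodule k ((GQ → N) × (ι → N)) where
  carrier := {x | x ∈ Tn (In (T ∪ Set.range l)) Γ D ρ ∧ ∀ l' ∉ T, ∀ P', Ov l' P' →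
    (∀ j, ∀ g ∈ Γ, P' ≠ g • P j) → ∀ g, Inert P' g → x.1 g = 0}
  add_mem' {a b} ha hb := ⟨add_mem ha.1 hb.1, fun l' h P' o n g i => by
    rw [Prod.fst_add, Pi.add_apply, ha.2 l' h P' o n g i, hb.2 l' h P' o n g i, add_zero]⟩
  zero_mem' := ⟨zero_mem _, fun _ _ _ _ _ _ _ => rfl⟩
  smul_mem' r a ha := ⟨Submodule.smul_mem _ r ha.1, fun l' h P' o n g i => by
    rw [Prod.smul_fst, Pi.smul_apply, ha.2 l' h P' o n g i, smul_zero]⟩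

/-- the cocycles which are killed by the elements `φ j` -/
def Yq {κ : Type} (I : Set GQ) (Γ : Subgroup GQ) (φ : κ → GQ) (σ : GQ → End k N) :
    Submodule k (GQ → N) where
  carrier := {y | y ∈ Z1 I Γ σ ∧ ∀ j, y (φ j) ∈ LinearMap.range (σ (φ j) - 1)}
  add_mem' {a b} ha hb := ⟨add_mem ha.1 hb.1, fun j => add_mem (ha.2 j) (hb.2 j)⟩
  zero_mem' := ⟨zero_mem _, fun _ => zero_mem _⟩
  smul_mem' r a ha := ⟨Submodule.smul_mem _ r ha.1, fun j => Submodule.smul_mem _ r (ha.2 j)⟩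

/-- the auxiliary places -/
structure Aq {κ : Type} (p : ℕ) [Fact p.Prime] (T : Finset ℕ) (Γ : Subgroup GQ) (l : κ → ℕ)
    (P : κ → Ideal (𝓞 Qb)) (φ : κ → GQ) : Prop where
  tm : ∀ j, Tm p (Γ ⊓ Gz p) (l j) (P j) (φ j)
  out : ∀ j, l j ∉ T
  un : ∀ i j, ∀ g ∈ Γ, P j = g • P i → i = j

/-- the set `T` is large for `U ≤ Γ` -/
structure Lg (p : ℕ) [Fact p.Prime] (T : Finset ℕ) (Γ U : Subgroup GQ) : Prop where
  h0 : 0 ∈ T
  hp : p ∈ T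
  le : U ≤ Γ
  uz : U ≤ Gz p
  nz : Nz Γ U
  lv : Le (In T) ⊤ U
  bg : Bg U T
  rich : ∀ g ∈ Γ, ∃ l ∈ T, ∃ P φ, Tm p Γ l P φ ∧ (∀ i, Inert P i → i ∈ U) ∧ g⁻¹ * φ ∈ U

/-- the module is projective, or triangular on the normaliser of a Sylow subgroup -/
structure Ok (p : ℕ) [Fact p.Prime] [CharP k p] (T : Finset ℕ) (Γ U : Subgroup GQ)
    (ρ : GQ → End k N) : Prop where
  fin : Module.Finite k N
  rp : Rp (In T) Γ ρ
  lg : Lg p T Γ U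
  tri : ∀ u ∈ U, ρ u = 1
  alt : Prj Γ U ρ ∨ ∃ B H, Chn p Γ B H U ∧ H ≤ Gz p ∧ Bg H T ∧ Tri B H (om p k) N ρ

/-- no classes of the finite group which are trivial on all cyclic subgroups -/
def Cyc1 (Γ U : Subgroup GQ) (ρ : GQ → End k N) : Prop :=
  ∀ c ∈ Z1 ∅ Γ ρ, (∀ u ∈ U, c u = 0) → (∀ g ∈ Γ, c g ∈ LinearMap.range (ρ g - 1)) → c ∈ B1 Γ ρ

end

/-- existence of large sets -/
def LG (p : ℕ) [Fact p.Prime] : Prop := ∀ (Γ U H : Subgroup GQ) (T₀ : Finset ℕ), U ≤ Γ →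
  U ≤ Gz p → Nz Γ U → IsOpen (U : Set GQ) → IsOpen (H : Set GQ) →
  (∀ l ∈ T₀, l = 0 ∨ l.Prime) → ∃ T : Finset ℕ, T₀ ⊆ T ∧ (∀ l ∈ T, l ∉ T₀ → l = 0 ∨ l.Prime) ∧ Lg p T Γ U ∧ Bg H T

/-- the cone, projective modules -/
def CHI0 (p : ℕ) [Fact p.Prime] : Prop := ∀ (k : Type) [Field k] [Finite k] [CharP k p] (N : Type)
  [AddCommGroup N] [Module k N] (Γ U : Subgroup GQ) (T : Finset ℕ) (ι : Type) [Fintype ι]
  (x : ι → Plc) (ρ : GQ → End k N), U ≤ Γ → U ≤ Gz p → Bg U T → 0 ∈ T → p ∈ T →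
  Le (In T) ⊤ U → Reps Γ (Ab T) x → Pd (In T) Γ U ρ (om p k) →
  sh (In T) Γ (Dv Γ x) ρ = 0 ∧ rk (Z1 (In T) Γ ρ) < Cardinal.aleph0 ∧
    (∀ i, rk (Z1 ∅ (Dv Γ x i) ρ) < Cardinal.aleph0) ∧
    ∑ i, rk (Z1 ∅ (Dv Γ x i) ρ) =
      ∑ i, rk (Hm (Dv Γ x i) ρ (om p k)) + Fintype.card ι * Module.rank k N ∧
    hc (In T) Γ (Dv Γ x) ρ + Module.rank k N =
      rk (Tn (In T) Γ (Dv Γ x) ρ) + rk (Hm Γ ρ (om p k))

/-- **relations minus generators** -/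
def CHI (p : ℕ) [Fact p.Prime] : Prop := ∀ (k : Type) [Field k] [Finite k] [CharP k p] (N : Type)
  [AddCommGroup N] [Module k N] (Γ U : Subgroup GQ) (T : Finset ℕ) (ι : Type) [Fintype ι]
  (x : ι → Plc) (ρ : GQ → End k N), Ok p T Γ U ρ → Reps Γ (Ab T) x →
  rk (Z1 (In T) Γ ρ) < Cardinal.aleph0 ∧ (∀ i, rk (Z1 ∅ (Dv Γ x i) ρ) < Cardinal.aleph0) ∧
    hc (In T) Γ (Dv Γ x) ρ + Module.rank k N ≤
      rk (Tn (In T) Γ (Dv Γ x) ρ) + rk (Hm Γ ρ (om p k))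

/-- the local lower bound -/
def LLB (p : ℕ) [Fact p.Prime] : Prop := ∀ (k : Type) [Field k] [Finite k] [CharP k p] (N : Type)
  [AddCommGroup N] [Module k N] (Γ U : Subgroup GQ) (T : Finset ℕ) (ι : Type) [Fintype ι]
  (x : ι → Plc) (ρ : GQ → End k N), Ok p T Γ U ρ → Reps Γ (Ab T) x →
  ∑ i, rk (Hm (Dv Γ x i) ρ (om p k)) + Fintype.card ι * Module.rank k N ≤
    ∑ i, rk (Z1 ∅ (Dv Γ x i) ρ)

/-- **the lower bound** -/
def LB (p : ℕ) [Fact p.Prime] : Prop := ∀ (k : Type) [Field k] [Finite k] [CharP k p] (N : Type)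
  [AddCommGroup N] [Module k N] (Γ U : Subgroup GQ) (T : Finset ℕ) (ι : Type) [Fintype ι]
  (x : ι → Plc) (ρ : GQ → End k N), Ok p T Γ U ρ → Reps Γ (Ab T) x →
  ∑ i, rk (Hm (Dv Γ x i) ρ (om p k)) + Module.rank k N ≤
    rk (Z1 (In T) Γ ρ) + rk (Hm Γ ρ (om p k))

/-- **reciprocity** -/
def REC (p : ℕ) [Fact p.Prime] : Prop := ∀ (k : Type) [Field k] [Finite k] [CharP k p]
  (N M : Type) [AddCommGroup N] [Module k N] [AddCommGroup M] [Module k M] (Γ : Subgroup GQ)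
  (T : Finset ℕ) (ι κ : Type) [Fintype κ] (x : ι → Plc) (l : κ → ℕ) (P : κ → Ideal (𝓞 Qb))
  (φ : κ → GQ) (ρ : GQ → End k N) (σ : GQ → End k M) (β : N →ₗ[k] Dual k M)
  (c : (GQ → N) × (ι → N)) (n : κ → N) (y : GQ → M), Le (In T) ⊤ Γ → 0 ∈ T → p ∈ T →
  Rp (In T) Γ ρ → Rp (In T) Γ σ → (∀ g ∈ Γ, ∀ a m, β (ρ g a) (σ g m) = om p k g * β a m) →
  Reps Γ (Ab T) x → Aq p T Γ l P φ → c ∈ TQ T Γ (Dv Γ x) l P ρ →
  (∀ j g, Inert (P j) g → c.1 g = ZMod.castHom (dvd_refl p) k (ka p (l j) g) • n j) →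
  y ∈ Z1 (In T) Γ σ → ∑ j, β (n j) (y (φ j)) = 0

/-- no locally trivial classes of degree one -/
def SH1 (p : ℕ) [Fact p.Prime] : Prop := ∀ (k : Type) [Field k] [Finite k] [CharP k p] (N : Type)
  [AddCommGroup N] [Module k N] (Γ U : Subgroup GQ) (T : Finset ℕ) (ι : Type) (x : ι → Plc)
  (ρ : GQ → End k N) (c : GQ → N), Rp (In T) Γ ρ → Lg p T Γ U → (∀ u ∈ U, ρ u = 1) →
  Cyc1 Γ U ρ → Reps Γ (Ab T) x → c ∈ Z1 (In T) Γ ρ → (∀ i, c ∈ B1 (Dv Γ x i) ρ) → c ∈ B1 Γ ρ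

/-- **the bound for the relative tangent space**, large set -/
def TWL (p : ℕ) [Fact p.Prime] : Prop := ∀ (k : Type) [Field k] [Finite k] [CharP k p]
  (N M : Type) [AddCommGroup N] [Module k N] [AddCommGroup M] [Module k M] (Γ U : Subgroup GQ)
  (T : Finset ℕ) (ι κ : Type) [Fintype ι] [Fintype κ] (x : ι → Plc) (l : κ → ℕ)
  (P : κ → Ideal (𝓞 Qb)) (φ : κ → GQ) (ρ : GQ → End k N) (σ : GQ → End k M)
  (β : N →ₗ[k] Dual k M), Ok p T Γ U σ → Rp (In T) Γ ρ → (∀ u ∈ U, ρ u = 1) → Cyc1 Γ U ρ →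
  Pf Γ ρ σ (om p k) β → Reps Γ (Ab T) x → Aq p T Γ l P φ →
  rk (TQ T Γ (Dv Γ x) l P ρ) ≤
    ∑ j, rk (LinearMap.ker (ρ (φ j) - 1)) + rk (Yq (In T) Γ φ σ)

/-- enlarging the set of places -/
def ENL : Prop := ∀ (k : Type) [Field k] (N : Type) [AddCommGroup N] [Module k N]
  (Γ : Subgroup GQ) (T T' : Finset ℕ) (ι ι' κ : Type) [Fintype ι] [Fintype ι'] (x : ι → Plc)
  (x' : ι' → Plc) (l : κ → ℕ) (P : κ → Ideal (𝓞 Qb)) (ρ : GQ → End k N), Module.Finite k N →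
  T ⊆ T' → (0 ∈ T' → 0 ∈ T) → (∀ j, l j ∉ T') → Le (In T) ⊤ Γ → Rp (In T) Γ ρ →
  Reps Γ (Ab T) x → Reps Γ (Ab T') x' → rk (TQ T' Γ (Dv Γ x') l P ρ) < Cardinal.aleph0 →
  rk (TQ T Γ (Dv Γ x) l P ρ) ≤ rk (TQ T' Γ (Dv Γ x') l P ρ)

end Vale.Agent.P022K.G2
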