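import Vale.Agent.P022K.G2.Kum
import Vale.Agent.P022K.CH.Tame
import Vale.Agent.P022E.GW.Unr
import Vale.Agent.P022.H916.Fld
import Vale.Agent.P022.H269.Unrv

/-!
# P022K, block G2: tame inertia (row `TAM`; helper69)
-/

set_option linter.all false

noncomputable section

namespace Vale.Agent.P022K.G2

open NumberField Module IsDedekindDomain
open Vale.Agent.P022 Vale.Agent.P022.C Vale.Agent.P022.H443 Vale.Agent.P022.H916
open Vale.Agent.P027M.S (Inert)
open Vale.Agent.P022D.W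
open Vale.Agent.P022E.GW (Ov Fb)

variable {p : ℕ} [Fact p.Prime] {l : ℕ} {P : Ideal (𝓞 Qb)}

theorem p_notMem (h : Ov l P) (hl : l ≠ p) : (p : 𝓞 Qb) ∉ P := fun m => by
  obtain ⟨a, b, e⟩ : IsCoprime (l : 𝓞 Qb) (p : 𝓞 Qb) :=
    Nat.Coprime.cast ((Nat.coprime_primes h.1 Fact.out).2 hl)
  exact h.2.1.ne_top ((Ideal.eq_top_iff_one _).2
    (e ▸ P.add_mem (P.mul_mem_left _ h.2.2) (P.mul_mem_left _ m)))

/-- inertia at a prime different from `p` fixes the roots of unity -/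
theorem inert_gz (h : Ov l P) (hl : l ≠ p) {g : GQ} (hg : Inert P g) : g ∈ Gz p := by
  let ζ : 𝓞 Qb := ⟨zt p, (zt_prim p).isIntegral (Fact.out : p.Prime).pos⟩
  have e : ζ ^ p = 1 := RingOfIntegers.ext zt_pow
  exact mem_Gz'.2 (congrArg Subtype.val (P022E.GW.Unr.root_inj h.2.1 (p_notMem h hl)
    (by rw [← smul_pow', e, smul_one]) e (hg ζ)))

theorem below_ne {K : Type} [Field K] [NumberField K] (j : K →+* Qb) (h : Ov l P) :
    below j P ≠ ⊥ := fun h0 => by
  have : (l : 𝓞 K) ∈ below j P := by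
    show RingOfIntegers.mapRingHom j (l : 𝓞 K) ∈ P
    rw [map_natCast]; exact h.2.2
  rw [h0, Ideal.mem_bot] at this
  exact h.1.ne_zero (by exact_mod_cast this)

/-- the place below `P` -/
def blw {K : Type} [Field K] [NumberField K] (j : K →+* Qb) (h : Ov l P) :
    HeightOneSpectrum (𝓞 K) :=
  ⟨below j P, haveI := h.2.1; Ideal.IsPrime.comap _, below_ne j h⟩

/-- an unramified Kummer character comes from an element of order divisible by `p` -/
theorem dvd_ordv {K : Type} [Field K] [NumberField K] (j : K →+* Qb) (h : Ov l P)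
    {v : HeightOneSpectrum (𝓞 K)} (hv : below j P = v.asIdeal) {a : K} (ha : a ≠ 0)
    (hI : ∀ g ∈ GK j, Inert P g → g ∈ Gz p ∧ ka p (j a) g = 0) : (p : ℤ) ∣ ordv v a := by
  have a0 : j a ≠ 0 := (map_ne_zero j).2 ha
  let U : Subgroup GQ := GK j ⊓ Gz p ⊓ MulAction.stabilizer GQ (rt p (j a))
  have hU : IsOpen (U : Set GQ) := ((isOpen_GK j).inter Gz_open).inter (stab_open _)
  have hn : ∀ g ∈ GK j, ∀ u ∈ U, g * u * g⁻¹ ∈ U := fun g hg u hu => by
    have m1 := mul_mem (mul_mem hg hu.1.1) (inv_mem hg)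
    have m2 := Gz_normal.conj_mem u hu.1.2 g
    refine ⟨⟨m1, m2⟩, (ka_eq_zero a0 (rt_pow p _) m2 (m1 a)).1 ?_⟩
    have := ka_conj a0 g hu.1.2 (hu.1.1 a)
    rw [hg a, (ka_eq_zero a0 (rt_pow p _) hu.1.2 (hu.1.1 a)).2 hu.2, mul_zero] at this
    exact this
  obtain ⟨M, _, _, _, _, jM, ρ, D, hM, hker⟩ :=
    exists_fld j U hU (inf_le_left.trans inf_le_left) hn
  obtain ⟨y, hy⟩ : ∃ y, jM y = rt p (j a) := fixed jM fun g => (hM ▸ g.2 : g.1 ∈ U).2
  have key := H269.UNRV K M v (blw jM h) ((D.below_comap P).trans hv)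
    (fun g hg => D.inertia_eq_bot h.2.1 (fun g hg => (hker g).2 ⟨⟨g.2, (hI g g.2 hg).1⟩,
      (ka_eq_zero a0 (rt_pow p _) (hI g g.2 hg).1 (g.2 a)).1 (hI g g.2 hg).2⟩) hg) a
  have e : algebraMap K M a = y ^ p := jM.injective (by rw [D.comp, map_pow, hy, rt_pow])
  rw [← key, e]
  unfold ordv
  rw [map_pow, WithZero.log_pow]
  exact ⟨-WithZero.log ((blw jM h).valuation M y), by simp⟩

/-- the Kummer character of an integer prime to `P` is unramified at `P` -/
theorem ka_int (h : Ov l P) (hl : l ≠ p) {x : 𝓞 Qb} (hx : x ∉ P) {g : GQ} (hg : Inert P g)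
    (e : g x = x) : ka p (x : Qb) g = 0 := by
  have hp : p.Prime := Fact.out
  let y : 𝓞 Qb := ⟨rt p x, IsIntegral.of_pow hp.pos (by rw [rt_pow]; exact x.isIntegral_coe)⟩
  let ζ : 𝓞 Qb := ⟨zt p, (zt_prim p).isIntegral hp.pos⟩
  have hy : y ∉ P := fun m => hx (by
    rw [← show y ^ p = x from RingOfIntegers.ext (rt_pow p x)]
    exact Ideal.pow_mem_of_mem P m p hp.pos)
  have e1 : g • y - y = (ζ ^ (ka p (x : Qb) g).val - 1) * y := by
    rw [sub_mul, one_mul]
    exact congrArg (· - y) (RingOfIntegers.ext (ka_spec e))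
  have e2 := P022E.GW.Unr.root_inj h.2.1 (p_notMem h hl)
    (RingOfIntegers.ext (pw_pow (ka p (x : Qb) g))) (one_pow p)
    ((h.2.1.mem_or_mem (e1 ▸ hg y)).resolve_right hy)
  refine pw_inj ?_
  rw [ZMod.val_zero, pow_zero]
  exact congrArg Subtype.val e2

/-- the Kummer character of an element of order divisible by `p` is unramified -/
theorem ka_of_dvd {K : Type} [Field K] [NumberField K] (j : K →+* Qb) (h : Ov l P) (hl : l ≠ p)
    {v : HeightOneSpectrum (𝓞 K)} (hv : below j P = v.asIdeal) {a : K} (ha : a ≠ 0)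
    (hd : (p : ℤ) ∣ ordv v a) {g : GQ} (hK : g ∈ GK j) (hg : Inert P g) : ka p (j a) g = 0 := by
  obtain ⟨π, hπ⟩ := v.valuation_exists_uniformizer K
  obtain ⟨m, hm⟩ := hd
  have π0 : π ≠ 0 := fun e => by
    rw [e, map_zero] at hπ
    exact WithZero.exp_ne_zero hπ.symm
  have hu : v.valuation K (a / (π ^ m) ^ p) = 1 := by
    rw [map_div₀, map_pow, map_zpow₀, hπ,
      ← WithZero.exp_log ((Valuation.ne_zero_iff (v.valuation K)).2 ha), neg_eq_iff_eq_neg.1 hm,
      ← WithZero.exp_zsmul, ← WithZero.exp_nsmul, ← WithZero.exp_sub]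
    simp
  obtain ⟨n, d, e⟩ := v.exists_primeCompl_mul_eq_of_integer _ hu.le
  have hd : d.1 ∉ v.asIdeal := d.2
  have hn : n ∉ v.asIdeal := by
    rw [← v.valuation_eq_one_iff_notMem (K := K)] at hd ⊢
    rw [← e, map_mul, hu, hd, one_mul]
  have key : ∀ x : 𝓞 K, x ∉ v.asIdeal → j x ≠ 0 ∧ ka p (j x) g = 0 := fun x hx =>
    ⟨(map_ne_zero j).2 fun c => hx (by
      rw [show x = 0 from RingOfIntegers.ext c]; exact zero_mem _),
    ka_int h hl (x := RingOfIntegers.mapRingHom j x) (by rw [← hv] at hx; exact hx) hg (hK x)⟩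
  have z := inert_gz h hl hg
  have q0 : j (π ^ m) ≠ 0 := (map_ne_zero j).2 (zpow_ne_zero _ π0)
  have e1 : j a = j n / j d.1 * j (π ^ m) ^ p := by
    rw [← map_div₀, ← map_pow, ← map_mul, show (n : K) = _ from e.symm,
      mul_div_cancel_right₀ _ ((map_ne_zero j).1 (key d hd).1),
      div_mul_cancel₀ _ (pow_ne_zero _ (zpow_ne_zero _ π0))]
  rw [e1, ka_mul (div_ne_zero (key n hn).1 (key d hd).1) (pow_ne_zero _ q0) z
    (by rw [map_div₀, hK, hK]) (by rw [map_pow, hK]), ka_div (key n hn).1 (key d hd).1 z (hK _)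
    (hK _), (key n hn).2, (key d hd).2, ka_pp q0 z (hK _)]
  simp

theorem ordv_rat (h : Ov l P) : ordv (blw (algebraMap ℚ Qb) h) (l : ℚ) = 1 := by
  have l0 : (l : 𝓞 ℚ) ≠ 0 := by exact_mod_cast h.1.ne_zero
  have q : (Ideal.span {(l : 𝓞 ℚ)}).IsPrime := Ideal.isPrime_of_irreducible_absNorm (by
    rw [Ideal.absNorm_span_natCast, RingOfIntegers.rank, Module.finrank_self, pow_one]
    exact h.1.prime.irreducible)
  set v := blw (algebraMap ℚ Qb) h
  have hv : v.asIdeal = Ideal.span {(l : 𝓞 ℚ)} := by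
    refine ((q.isMaximal (by rwa [Ne, Ideal.span_singleton_eq_bot])).eq_of_le v.isPrime.ne_top
      ?_).symm
    rw [Ideal.span_singleton_le_iff_mem]
    show RingOfIntegers.mapRingHom (algebraMap ℚ Qb) (l : 𝓞 ℚ) ∈ P
    rw [map_natCast]; exact h.2.2
  have e := v.intValuation_singleton l0 hv
  rw [← v.valuation_of_algebraMap (K := ℚ)] at e
  rw [ordv, show (l : ℚ) = ((l : 𝓞 ℚ) : ℚ) by simp, e, WithZero.log_exp, neg_neg]

/-- an element of inertia which multiplies the roots of `l` by the chosen root of unity -/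
theorem ex_tau (h : Ov l P) (hl : l ≠ p) : ∃ τ, Inert P τ ∧ ka p l τ = 1 := by
  have l0 : (l : Qb) ≠ 0 := by exact_mod_cast h.1.ne_zero
  obtain ⟨τ, t1, t2⟩ : ∃ τ, Inert P τ ∧ ka p l τ ≠ 0 := by
    by_contra! c
    have := dvd_ordv (p := p) (algebraMap ℚ Qb) h (v := blw _ h) rfl (a := l)
      (by exact_mod_cast h.1.ne_zero) fun g _ hg => ⟨inert_gz h hl hg, by
        rw [map_natCast]; exact c g hg⟩
    rw [ordv_rat] at this
    exact (Fact.out : p.Prime).ne_one (by exact_mod_cast Int.eq_one_of_dvd_one (by simp) this)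
  have hc : Ch (inP P) (ka p (l : Qb)) :=
    ka_ch (fun g hg => inert_gz h hl hg) l0 fun g _ => map_natCast g l
  exact ⟨τ ^ (ka p l τ)⁻¹.val, (inP P).pow_mem t1 _, by
    rw [hc.pow t1, ZMod.natCast_zmod_val, inv_mul_cancel₀ t2]⟩

theorem add_cyc {A : Type} [AddCommGroup A] (hA : ∀ a : A, l • a = 0 → a = 0) {F : GQ → A}
    (hF : ∀ g h, Inert P g → Inert P h → F (g * h) = F g + F h) {V : Subgroup GQ}
    (hV : ∀ w ∈ V, Inert P w → F w = 0) {τ g : GQ} (hτ : τ ∈ inP P) (hg : g ∈ inP P) {n : ℕ}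
    (h : CH.Loc.WMod l V ((τ ^ n)⁻¹ * g)) : F g = n • F τ := by
  have pw : ∀ s ∈ inP P, ∀ m : ℕ, F (s ^ m) = m • F s := fun s hs m => by
    induction m with
    | zero => rw [pow_zero, zero_smul]; exact hV 1 V.one_mem (inP P).one_mem
    | succ m ih => rw [pow_succ, hF _ _ ((inP P).pow_mem hs m) hs, ih, succ_nsmul]
  have hr := mul_mem (inv_mem ((inP P).pow_mem hτ n)) hg
  obtain ⟨m, hm⟩ := h
  have h1 := hV _ hm ((inP P).pow_mem hr _)
  rw [pw _ hr] at h1
  have h2 : ∀ (m : ℕ) (a : A), l ^ m • a = 0 → a = 0 := fun m => by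
    induction m with
    | zero => intro a e; simpa using e
    | succ m ih => intro a e; exact ih a (hA _ (by rwa [← mul_smul, ← pow_succ']))
  have h3 := hF _ _ ((inP P).pow_mem hτ n) hr
  rwa [mul_inv_cancel_left, h2 _ _ h1, add_zero, pw _ hτ] at h3

/-- **tame inertia** -/
theorem tam (p : ℕ) [Fact p.Prime] : TAM p := fun l P h hl => by
  refine ⟨fun g hg => inert_gz h hl hg, ex_tau h hl, fun k _ _ N _ _ f hf ⟨W, hW, eW⟩ => ?_⟩
  have l0 : (l : Qb) ≠ 0 := by exact_mod_cast h.1.ne_zero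
  have nd : ¬ p ∣ l := fun d => hl ((Nat.prime_dvd_prime_iff_eq Fact.out h.1).1 d).symm
  obtain ⟨W', hW', eW'⟩ := ka_lv (p := p) l0
  have hV := hW.inf hW'
  haveI := hV.nrm
  obtain ⟨τ, hτ, e⟩ := CH.Loc.cyc_level (W ⊓ W') hV.opn h
  have e1 : ∀ g, Inert P g → ∃ n : ℕ, f g = n • f τ ∧ ka p l g = n • ka p l τ := fun g hg => by
    obtain ⟨n, hn⟩ := e g hg
    refine ⟨n, add_cyc (V := W ⊓ W') (fun a z => ?_) hf (fun w m => eW w m.1) hτ hg hn,
      add_cyc (V := W ⊓ W') (fun a z => ?_) (fun g j a _ => ka_add l0 (inert_gz h hl a)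
        (map_natCast g l) (map_natCast j l)) (fun w m _ => (eW' w m.2).2) hτ hg hn⟩
    · rw [← Nat.cast_smul_eq_nsmul k] at z
      exact (smul_eq_zero.1 z).resolve_left fun c => nd ((CharP.cast_eq_zero_iff k p l).1 c)
    · rw [nsmul_eq_mul] at z
      exact (mul_eq_zero.1 z).resolve_left fun c => nd ((ZMod.natCast_eq_zero_iff l p).1 c)
  have t0 : ka p l τ ≠ 0 := fun c => by
    obtain ⟨s, s1, s2⟩ := ex_tau h hl
    obtain ⟨n, -, e2⟩ := e1 s s1
    rw [s2, c, smul_zero] at e2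
    exact one_ne_zero e2
  refine ⟨ZMod.castHom (dvd_refl p) k (ka p l τ)⁻¹ • f τ, fun g hg => ?_⟩
  obtain ⟨n, e2, e3⟩ := e1 g hg
  rw [e2, e3, smul_smul, ← map_mul, nsmul_eq_mul, mul_assoc, mul_inv_cancel₀ t0, mul_one,
    map_natCast, Nat.cast_smul_eq_nsmul]

end Vale.Agent.P022K.G2
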