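import Vale.Agent.P022K.G2.Bas

/-!
# P022K, block G2: transversals, transfer, conjugation, relative projectivity
-/

set_option linter.all false

noncomputable section

namespace Vale.Agent.P022K.G2

open Module

section tv

variable {G : Type} [Group G] {Γ U A : Subgroup G} {R : Finset G}

/-- the representative of a coset -/
theorem Tv.rep (h : Tv Γ U R) : ∃ t : G → G, (∀ y ∈ Γ, t y ∈ R ∧ (t y)⁻¹ * y ∈ U) ∧
    (∀ y ∈ Γ, ∀ u ∈ Γ, u ∈ U → t (y * u) = t y) ∧ ∀ r ∈ R, t r = r := by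
  classical
  choose! t h1 h2 using h.ex
  refine ⟨t, fun y hy => ⟨h1 y hy, h2 y hy⟩, fun y hy u hu m => ?_, fun r hr => ?_⟩
  · refine h.un _ (h1 _ (mul_mem hy hu)) _ (h1 y hy) ?_
    have := U.mul_mem (U.mul_mem (h2 _ (mul_mem hy hu)) (inv_mem m)) (inv_mem (h2 y hy))
    simpa [mul_assoc] using this
  · exact h.un _ (h1 r (h.mem r hr)) _ hr (h2 r (h.mem r hr))

/-- sums over an indexed transversal -/
theorem Tv.sum_of {M ι : Type} [AddCommMonoid M] (h : Tv Γ U R) (s : Finset ι) (f : ι → G)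
    (mem : ∀ i ∈ s, f i ∈ Γ) (ex : ∀ g ∈ Γ, ∃ i ∈ s, (f i)⁻¹ * g ∈ U)
    (un : ∀ i ∈ s, ∀ j ∈ s, (f i)⁻¹ * f j ∈ U → i = j) (F : G → M)
    (hF : ∀ y ∈ Γ, ∀ u ∈ Γ, u ∈ U → F (y * u) = F y) : ∑ i ∈ s, F (f i) = ∑ r ∈ R, F r := by
  obtain ⟨t, t1, t2, t3⟩ := h.rep
  refine Finset.sum_bij (fun i _ => t (f i)) (fun i hi => (t1 _ (mem i hi)).1)
    (fun i hi j hj e => un i hi j hj ?_) (fun r hr => ?_) fun i hi => ?_
  · have := U.mul_mem (inv_mem (t1 _ (mem i hi)).2) (t1 _ (mem j hj)).2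
    rw [show t (f i) = t (f j) from e] at this
    simpa [mul_assoc] using this
  · obtain ⟨i, hi, m⟩ := ex r (h.mem r hr)
    refine ⟨i, hi, ?_⟩
    rw [← t2 _ (mem i hi) _ (mul_mem (inv_mem (mem i hi)) (h.mem r hr)) m, mul_inv_cancel_left,
      t3 r hr]
  · have a := h.mem _ (t1 _ (mem i hi)).1
    rw [← hF _ a _ (mul_mem (inv_mem a) (mem i hi)) (t1 _ (mem i hi)).2, mul_inv_cancel_left]

/-- left translation -/
theorem Tv.sum_mul {M : Type} [AddCommMonoid M] (h : Tv Γ U R) {g : G} (hg : g ∈ Γ) (F : G → M)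
    (hF : ∀ y ∈ Γ, ∀ u ∈ Γ, u ∈ U → F (y * u) = F y) : ∑ r ∈ R, F (g * r) = ∑ r ∈ R, F r :=
  h.sum_of R (g * ·) (fun r hr => mul_mem hg (h.mem r hr))
    (fun y hy => (h.ex _ (mul_mem (inv_mem hg) hy)).imp fun r hr =>
      ⟨hr.1, by simpa [mul_assoc] using hr.2⟩)
    (fun r hr r' hr' m => h.un r hr r' hr' (by simpa [mul_assoc] using m)) F hF

/-- right translation, normal subgroup -/
theorem Tv.sum_mul' {M : Type} [AddCommMonoid M] (h : Tv Γ U R) (n : Nz Γ U) {g : G} (hg : g ∈ Γ)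
    (F : G → M) (hF : ∀ y ∈ Γ, ∀ u ∈ Γ, u ∈ U → F (y * u) = F y) :
    ∑ r ∈ R, F (r * g) = ∑ r ∈ R, F r :=
  h.sum_of R (· * g) (fun r hr => mul_mem (h.mem r hr) hg)
    (fun y hy => (h.ex _ (mul_mem hy (inv_mem hg))).imp fun r hr =>
      ⟨hr.1, by simpa [mul_assoc] using n.conj' hg hr.2⟩)
    (fun r hr r' hr' m => h.un r hr r' hr' (by simpa [mul_assoc] using n g hg _ m)) F hF

/-- inversion, normal subgroup -/
theorem Tv.sum_inv {M : Type} [AddCommMonoid M] (h : Tv Γ U R) (n : Nz Γ U)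
    (F : G → M) (hF : ∀ y ∈ Γ, ∀ u ∈ Γ, u ∈ U → F (y * u) = F y) :
    ∑ r ∈ R, F r⁻¹ = ∑ r ∈ R, F r :=
  h.sum_of R (·⁻¹) (fun r hr => inv_mem (h.mem r hr))
    (fun y hy => (h.ex _ (inv_mem hy)).imp fun r hr => ⟨hr.1, by
      simpa [mul_assoc] using n.conj' hy (inv_mem hr.2)⟩)
    (fun r hr r' hr' m => h.un r hr r' hr' (by
      simpa [mul_assoc] using n.conj' (h.mem r hr) (inv_mem m))) F hF

open Classical in
theorem tv_image {ι : Type} (s : Finset ι) (f : ι → G) (mem : ∀ i ∈ s, f i ∈ Γ)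
    (ex : ∀ g ∈ Γ, ∃ i ∈ s, (f i)⁻¹ * g ∈ U)
    (un : ∀ i ∈ s, ∀ j ∈ s, (f i)⁻¹ * f j ∈ U → i = j) : Tv Γ U (s.image f) := by
  refine ⟨fun r hr => ?_, fun g hg => ?_, fun r hr r' hr' m => ?_⟩
  · obtain ⟨i, hi, rfl⟩ := Finset.mem_image.1 hr
    exact mem i hi
  · obtain ⟨i, hi, m⟩ := ex g hg
    exact ⟨_, Finset.mem_image_of_mem f hi, m⟩
  · obtain ⟨i, hi, rfl⟩ := Finset.mem_image.1 hr
    obtain ⟨j, hj, rfl⟩ := Finset.mem_image.1 hr'
    rw [un i hi j hj m]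

theorem Tv.card (h : Tv Γ U R) : R.card = U.relIndex Γ := by
  rw [← Nat.card_eq_finsetCard, Subgroup.relIndex, Subgroup.index]
  refine Nat.card_congr (Equiv.ofBijective
    (fun r => ((⟨r.1, h.mem r.1 r.2⟩ : Γ) : Γ ⧸ U.subgroupOf Γ)) ⟨fun r r' e => ?_, fun q => ?_⟩)
  · exact Subtype.ext (h.un _ r.2 _ r'.2 ((QuotientGroup.eq (s := U.subgroupOf Γ)).1 e))
  · obtain ⟨g, rfl⟩ := QuotientGroup.mk_surjective q
    obtain ⟨r, hr, m⟩ := h.ex g g.2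
    exact ⟨⟨r, hr⟩, QuotientGroup.eq.2 m⟩

theorem ex_tv (h : U.relIndex Γ ≠ 0) : ∃ R, Tv Γ U R := by
  haveI : Finite (Γ ⧸ U.subgroupOf Γ) := Nat.finite_of_card_ne_zero h
  haveI := Fintype.ofFinite (Γ ⧸ U.subgroupOf Γ)
  refine ⟨_, tv_image Finset.univ (fun q : Γ ⧸ U.subgroupOf Γ => (q.out : G)) (fun q _ => q.out.2)
    (fun g hg => ⟨(⟨g, hg⟩ : Γ), Finset.mem_univ _, ?_⟩) fun q _ q' _ m => ?_⟩
  · exact (QuotientGroup.eq (s := U.subgroupOf Γ)).1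
      (QuotientGroup.out_eq' ((⟨g, hg⟩ : Γ) : Γ ⧸ U.subgroupOf Γ))
  · rw [← q.out_eq, ← q'.out_eq]
    exact QuotientGroup.eq.2 m

theorem Tv.ne (h : Tv Γ U R) : U.relIndex Γ ≠ 0 := by
  rw [← h.card]
  obtain ⟨r, hr, -⟩ := h.ex 1 (one_mem _)
  exact Finset.card_ne_zero_of_mem hr

end tv

variable {G : Type} [Group G] [TopologicalSpace G] {k : Type} [Field k] {N : Type}
  [AddCommGroup N] [Module k N] {I : Set G} {Γ U A : Subgroup G} {ρ : G → End k N}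

theorem Lv.cj {W : Subgroup G} (h : Lv I W) {w : G} (m : w ∈ W) (g : G) : g⁻¹ * w * g ∈ W := by
  simpa using h.nrm.conj_mem w m g⁻¹

omit [TopologicalSpace G] in
theorem cj_mem {g w : G} (hg : g ∈ Γ) (hw : w ∈ Γ) : g⁻¹ * w * g ∈ Γ :=
  mul_mem (mul_mem (inv_mem hg) hw) hg

/-- the family of operators of a projective module -/
theorem Prj.fam (r : Rp I Γ ρ) (h : Prj Γ U ρ) : ∃ (R : Finset G) (P : G → End k N), Tv Γ U R ∧
    (∀ y ∈ Γ, ∀ u ∈ Γ, u ∈ U → P (y * u) = P y) ∧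
    (∀ g ∈ Γ, ∀ y ∈ Γ, ∀ n, ρ g (P y n) = P (g * y) (ρ g n)) ∧
    ∀ g ∈ Γ, ∀ n, ∑ s ∈ R, P (g * s) n = n := by
  obtain ⟨R, φ, t, c, e⟩ := h
  have a : ∀ y ∈ Γ, ∀ u ∈ Γ, u ∈ U → ρ (y * u) * φ * ρ (y * u)⁻¹ = ρ y * φ * ρ y⁻¹ := by
    intro y hy u hu m
    rw [mul_inv_rev, r.mul y hy u hu, r.mul _ (inv_mem hu) _ (inv_mem hy), mul_assoc (ρ y),
      ← c u hu m, ← mul_assoc, ← mul_assoc, mul_assoc _ (ρ u), ← r.mul u hu _ (inv_mem hu),
      mul_inv_cancel, r.one, mul_one]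
  refine ⟨R, fun y => ρ y * φ * ρ y⁻¹, t, a, fun g hg y hy n => ?_, fun g hg n => ?_⟩
  · simp only [End.mul_apply, mul_inv_rev]
    rw [r.mul' hg hy, r.mul' (inv_mem hy) (inv_mem hg), r.inv' hg]
  · rw [← LinearMap.sum_apply, t.sum_mul hg (fun y => ρ y * φ * ρ y⁻¹) a, e]; rfl

/-- the criterion, for an indexed transversal -/
theorem prj_of {ι : Type} (s : Finset ι) (f : ι → G) (mem : ∀ i ∈ s, f i ∈ Γ)
    (ex : ∀ g ∈ Γ, ∃ i ∈ s, (f i)⁻¹ * g ∈ U)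
    (un : ∀ i ∈ s, ∀ j ∈ s, (f i)⁻¹ * f j ∈ U → i = j) (φ : End k N)
    (c : ∀ u ∈ Γ, u ∈ U → φ * ρ u = ρ u * φ) (e : ∑ i ∈ s, ρ (f i) * φ * ρ (f i)⁻¹ = 1) :
    Prj Γ U ρ := by
  classical
  refine ⟨_, φ, tv_image s f mem ex un, c, ?_⟩
  rw [Finset.sum_image fun i hi j hj e => un i hi j hj (by rw [e, inv_mul_cancel]; exact one_mem _)]
  exact e

theorem tr1 : TR1 := by
  intro G _ _ k _ N _ _ I Γ U ρ c r h hc ⟨n, hn⟩
  obtain ⟨R, P, t, p1, p2, p3⟩ := h.fam r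
  let e : G → N := fun g => c g - d0 ρ n g
  have e1 : ∀ g ∈ Γ, ∀ y ∈ Γ, e (g * y) = e g + ρ g (e y) := fun g hg y hy => by
    simp only [e, d0_apply, hc.1 g hg y hy, r.mul' hg hy, map_sub]; abel
  have e2 : ∀ y ∈ Γ, ∀ u ∈ Γ, u ∈ U → e (y * u) = e y := fun y hy u hu m => by
    rw [e1 y hy u hu, show e u = 0 from sub_eq_zero.2 (hn u ⟨hu, m⟩), map_zero, add_zero]
  refine ⟨n - ∑ s ∈ R, P s (e s), fun g hg => ?_⟩
  have : ρ g (∑ s ∈ R, P s (e s)) = ∑ s ∈ R, P s (e s) - e g := by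
    rw [map_sum, ← t.sum_mul hg (fun y => P y (e y)) fun y hy u hu m => by
      rw [p1 y hy u hu m, e2 y hy u hu m], ← p3 g hg (e g), ← Finset.sum_sub_distrib]
    refine Finset.sum_congr rfl fun s hs => ?_
    rw [p2 g hg s (t.mem s hs), ← map_sub, e1 g hg s (t.mem s hs), add_sub_cancel_left]
  rw [d0_apply, map_sub, this]
  simp only [e, d0_apply]; abel

theorem tr2 : TR2 := by
  intro G _ _ k _ N _ _ I Γ U ρ z r h ⟨W₁, l1, w1⟩ hz ⟨c, ⟨W₂, l2, w2⟩, hc⟩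
  obtain ⟨R, P, t, p1, p2, p3⟩ := h.fam r
  obtain ⟨τ, t1, t2, -⟩ := t.rep
  obtain ⟨W₃, l3, w3⟩ := hz.2
  obtain ⟨W₄, l4, w4⟩ := r.lv
  let a : G → N := fun y => ρ (τ y) (c ((τ y)⁻¹ * y)) - z (τ y) ((τ y)⁻¹ * y)
  have a1 : ∀ y ∈ Γ, ∀ u ∈ Γ, u ∈ U → a (y * u) = a y + ρ y (c u) - z y u := by
    intro y hy u hu m
    have m1 := t.mem _ (t1 y hy).1
    have m2 := mul_mem (inv_mem m1) hy
    have k1 := hz.1 _ m1 _ m2 u hu
    have k2 := congrArg (ρ (τ y)) (hc _ ⟨m2, (t1 y hy).2⟩ u ⟨hu, m⟩)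
    rw [d1_apply, map_add, map_sub, ← r.mul' m1 m2] at k2
    rw [mul_inv_cancel_left] at k1 k2
    simp only [a, t2 y hy u hu m, ← mul_assoc]
    linear_combination (norm := abel) k2 - k1
  let e : G → G → N := fun g x => z g x - ρ g (a x) + a (g * x)
  have e1 : ∀ g ∈ Γ, ∀ x ∈ Γ, ∀ u ∈ Γ, u ∈ U → e g (x * u) = e g x := by
    intro g hg x hx u hu m
    have k1 := hz.1 g hg x hx u hu
    simp only [e, ← mul_assoc, a1 x hx u hu m, a1 _ (mul_mem hg hx) u hu m, map_add, map_sub,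
      r.mul' hg hx]
    linear_combination (norm := abel) k1
  refine ⟨fun g => ∑ s ∈ R, P (g * s) (e g s), ⟨W₁ ⊓ W₂ ⊓ (W₃ ⊓ W₄), (l1.inf l2).inf (l3.inf l4),
    fun g hg w hw m => Finset.sum_congr rfl fun s hs => ?_⟩, fun g hg y hy => ?_⟩
  · have ms := t.mem s hs
    have m1 := cj_mem ms hw
    have m2 := w1 _ m1 (l1.cj m.1.1 s)
    have q : g * w * s = g * s * (s⁻¹ * w * s) := by group
    have k1 := a1 _ (mul_mem hg ms) 1 (one_mem _) (one_mem _)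
    have k2 := w2 1 (one_mem _) _ ⟨m1, m2⟩ (l2.cj m.1.2 s)
    have k3 := (w3 _ (mul_mem hg ms) 1 (one_mem _) _ m1 (l3.cj m.2.1 s)).2
    rw [one_mul] at k2 k3
    rw [mul_one] at k1
    simp only [e]
    rw [q, p1 _ (mul_mem hg ms) _ m1 m2, a1 _ (mul_mem hg ms) _ m1 m2, k2, k3, ← k1,
      (w3 g hg s ms w hw m.2.1).1, r.mul' hg hw, w4 w hw m.2.2]
    rfl
  · rw [d1_apply, ← t.sum_mul hy (fun x => P (g * x) (e g x)) fun x hx u hu m => by
      rw [← mul_assoc, p1 _ (mul_mem hg hx) u hu m, e1 g hg x hx u hu m], map_sum,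
      ← Finset.sum_sub_distrib, ← Finset.sum_add_distrib, ← p3 _ (mul_mem hg hy) (z g y)]
    refine Finset.sum_congr rfl fun s hs => ?_
    have ms := t.mem s hs
    rw [p2 g hg _ (mul_mem hy ms), ← mul_assoc, ← map_sub, ← map_add]
    congr 1
    have k1 := hz.1 g hg y hy s ms
    simp only [e, map_add, map_sub, r.mul' hg hy, mul_assoc]
    linear_combination (norm := abel) -k1

theorem trc : TRC := by
  intro G _ _ k _ A U R z a b t ⟨W₁, l1, w1⟩ hz ha hb ⟨c, ⟨W₂, l2, w2⟩, hc⟩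
  obtain ⟨τ, t1, t2, t3⟩ := t.rep
  obtain ⟨W₃, l3, w3⟩ := hz.2
  obtain ⟨W₄, l4, w4⟩ := hb.2
  obtain ⟨W₅, l5, w5⟩ := ha.c1
  let β : G → k := fun y => b ((τ y)⁻¹ * y)
  have b1 : ∀ y ∈ A, ∀ u ∈ A, u ∈ U → β (y * u) = β y + b u := fun y hy u hu m => by
    simp only [β, t2 y hy u hu m, ← mul_assoc]
    exact hb.1 _ ⟨A.mul_mem (A.inv_mem (t.mem _ (t1 y hy).1)) hy, (t1 y hy).2⟩ u ⟨hu, m⟩
  have b0 : ∀ r ∈ R, β r = 0 := fun r hr => by simp only [β, t3 r hr, inv_mul_cancel, hb.one]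
  let α : G → k := fun y => c ((τ y)⁻¹ * y) - z (τ y) ((τ y)⁻¹ * y) + a (τ y) * β y
  have a1 : ∀ y ∈ A, ∀ u ∈ A, u ∈ U → α (y * u) = α y + c u - z y u + a y * b u := by
    intro y hy u hu m
    have m1 := t.mem _ (t1 y hy).1
    have m2 := mul_mem (inv_mem m1) hy
    have k1 := hz.1 _ m1 _ m2 u hu
    have k2 := hc _ ⟨m2, (t1 y hy).2⟩ u ⟨hu, m⟩
    have k3 := ha.1 _ m1 _ m2
    simp only [d1_apply, tr_apply, Pi.sub_apply, cup] at k1 k2
    rw [mul_inv_cancel_left] at k1 k3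
    simp only [α, t2 y hy u hu m, b1 y hy u hu m, ← mul_assoc]
    rw [k3]
    linear_combination k2 - k1
  let e : G → G → k := fun g x => z g x - a g * β x - α x + α (g * x)
  have e1 : ∀ g ∈ A, ∀ x ∈ A, ∀ u ∈ A, u ∈ U → e g (x * u) = e g x := by
    intro g hg x hx u hu m
    have k1 := hz.1 g hg x hx u hu
    simp only [tr_apply] at k1
    simp only [e, ← mul_assoc, a1 x hx u hu m, a1 _ (mul_mem hg hx) u hu m, b1 x hx u hu m,
      ha.1 g hg x hx]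
    linear_combination k1
  refine ⟨fun g => ∑ s ∈ R, (β (g * s) - β s), ⟨fun g hg y hy => ?_, W₁ ⊓ W₄, l1.inf l4,
    fun w hw m => Finset.sum_eq_zero fun s hs => ?_⟩, ⟨fun g => ∑ s ∈ R, e g s,
      ⟨W₁ ⊓ W₂ ⊓ (W₃ ⊓ W₄) ⊓ W₅, ((l1.inf l2).inf (l3.inf l4)).inf l5,
        fun g hg w hw m => Finset.sum_congr rfl fun s hs => ?_⟩, fun g hg y hy => ?_⟩,
    fun g hg s hs => Finset.sum_congr rfl fun r hr => ?_⟩
  · beta_reduce
    rw [← t.sum_mul hy (fun x => β (g * x) - β x) fun x hx u hu m => by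
      rw [← mul_assoc, b1 _ (mul_mem hg hx) u hu m, b1 x hx u hu m]; ring,
      ← Finset.sum_add_distrib]
    exact Finset.sum_congr rfl fun s _ => by rw [mul_assoc]; ring
  · have ms := t.mem s hs
    have m1 := cj_mem ms hw
    have m2 := w1 _ m1 (l1.cj m.1 s)
    rw [show w * s = s * (s⁻¹ * w * s) by group, b1 s ms _ m1 m2, w4 _ ⟨m1, m2⟩ (l4.cj m.2 s)]
    ring
  · have ms := t.mem s hs
    have m1 := cj_mem ms hw
    have m2 := w1 _ m1 (l1.cj m.1.1.1 s)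
    have q : g * w * s = g * s * (s⁻¹ * w * s) := by group
    have k1 := a1 _ (mul_mem hg ms) 1 (one_mem _) (one_mem _)
    have k2 := w2 1 (one_mem _) _ ⟨m1, m2⟩ (l2.cj m.1.1.2 s)
    have k3 := (w3 _ (mul_mem hg ms) 1 (one_mem _) _ m1 (l3.cj m.1.2.1 s)).2
    rw [one_mul] at k2 k3
    rw [mul_one, hb.one] at k1
    simp only [e]
    rw [q, a1 _ (mul_mem hg ms) _ m1 m2, k2, k3, w4 _ ⟨m1, m2⟩ (l4.cj m.1.2.2 s), ← k1,
      (w3 g hg s ms w hw m.1.2.1).1, w5 g hg w hw m.2]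
  · rw [d1_apply, tr_apply, ← t.sum_mul hy (e g) fun x hx u hu m => e1 g hg x hx u hu m,
      ← Finset.sum_sub_distrib, ← Finset.sum_add_distrib]
    simp only [Pi.sub_apply, Pi.smul_apply, cup, smul_eq_mul]
    rw [← nsmul_eq_mul, ← Finset.sum_const, Finset.mul_sum, ← Finset.sum_sub_distrib]
    refine Finset.sum_congr rfl fun s hs => ?_
    have k1 := hz.1 g hg y hy s (t.mem s hs)
    simp only [tr_apply] at k1
    simp only [e, ha.1 g hg y hy, mul_assoc]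
    linear_combination -k1
  · have m0 := t.mem _ (hs r hr).1
    have := b1 _ m0 _ (mul_mem (inv_mem m0) (mul_mem hg (t.mem r hr))) (hs r hr).2
    rw [mul_inv_cancel_left] at this
    rw [this, b0 r hr, b0 _ (hs r hr).1]; ring

theorem cj0 : CJ0 := by
  intro G _ _ k _ N _ _ I Γ ρ z g r hz hg
  obtain ⟨W, l, w⟩ := hz.2
  have cm : ∀ x ∈ Γ, g * x * g⁻¹ ∈ Γ := fun x hx => mul_mem (mul_mem hg hx) (inv_mem hg)
  refine ⟨fun y => ρ g⁻¹ (z g y - z (g * y * g⁻¹) g), ⟨W, l, fun y hy v hv m => ?_⟩,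
    fun x hx y hy => ?_⟩
  · beta_reduce
    rw [(w g hg y hy v hv m).2, show g * (y * v) * g⁻¹ = g * y * g⁻¹ * (g * v * g⁻¹) by group,
      (w _ (cm y hy) g hg _ (cm v hv) (l.nrm.conj_mem v m g)).1]
  · have k1 := hz.1 _ (cm x hx) _ (cm y hy) g hg
    have k2 := hz.1 _ (cm x hx) g hg y hy
    have k3 := hz.1 g hg x hx y hy
    rw [show g * x * g⁻¹ * (g * y * g⁻¹) = g * (x * y) * g⁻¹ by group, inv_mul_cancel_right] at k1
    rw [inv_mul_cancel_right] at k2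
    have k4 : ∀ n, ρ x (ρ g⁻¹ n) = ρ g⁻¹ (ρ (g * x * g⁻¹) n) := fun n => by
      rw [← r.mul' hx (inv_mem hg), ← r.mul' (inv_mem hg) (cm x hx)]
      congr 2; group
    rw [d1_apply, k4, Pi.sub_apply, Pi.sub_apply, ← r.inv' hg (z x y), ← map_sub, ← map_sub,
      ← map_add, map_sub (ρ (g * x * g⁻¹))]
    congr 1
    linear_combination (norm := abel) k3 + k1 - k2

theorem cj2 : CJ2 := by
  intro G _ _ k _ N _ _ I Γ A A' ρ z g r hz hg le e hA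
  have h1 := B2.mono (cj0 G k N I Γ ρ z g r hz hg) (Set.empty_subset _) le
  obtain ⟨c, ⟨W, l, w⟩, hc⟩ := sub_mem hA h1
  have m : ∀ x ∈ A', g⁻¹ * x * g ∈ A := fun x hx => (e _).2 (by simpa [mul_assoc] using hx)
  refine ⟨fun x => ρ g (c (g⁻¹ * x * g)), ⟨W, l, fun x hx v hv n => ?_⟩, fun x hx y hy => ?_⟩
  · beta_reduce
    rw [show g⁻¹ * (x * v) * g = g⁻¹ * x * g * (g⁻¹ * v * g) by group,
      w _ (m x hx) _ (m v hv) (l.cj n g)]
  · have k1 := congrArg (ρ g) (hc _ (m x hx) _ (m y hy))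
    have mx : x ∈ Γ := by
      simpa [mul_assoc] using mul_mem (mul_mem hg (le (m x hx))) (inv_mem hg)
    simp only [sub_sub_cancel, d1_apply, map_add, map_sub] at k1
    rw [r.inv hg, ← r.mul' hg (le (m x hx)),
      show g⁻¹ * x * g * (g⁻¹ * y * g) = g⁻¹ * (x * y) * g by group,
      show g * (g⁻¹ * x * g) * g⁻¹ = x by group, show g * (g⁻¹ * y * g) * g⁻¹ = y by group,
      show g * (g⁻¹ * x * g) = x * g by group, r.mul' mx hg] at k1
    exact k1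

theorem pr0 : PR0 := by
  intro G _ _ k _ N _ _ I Γ U ρ r h
  obtain ⟨R, t⟩ := ex_tv (Γ := Γ) (U := U) fun e => h (by rw [e, Nat.cast_zero])
  refine ⟨R, ((U.relIndex Γ : ℕ) : k)⁻¹ • 1, t, fun u _ _ => by simp, ?_⟩
  rw [Finset.sum_congr rfl (g := fun _ => ((U.relIndex Γ : ℕ) : k)⁻¹ • (1 : End k N))
    fun s hs => by
      rw [mul_smul_comm, mul_one, smul_mul_assoc, ← r.mul s (t.mem s hs) _ (inv_mem (t.mem s hs)),
        mul_inv_cancel, r.one],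
    Finset.sum_const, t.card, ← Nat.cast_smul_eq_nsmul k, smul_smul, mul_inv_cancel₀ h, one_smul]

theorem prt : PRT := by
  intro G _ _ k _ N _ _ I Γ H U ρ r uh hg ⟨R, φ, t, c, e⟩ ⟨S, ψ, s, d, f⟩
  refine prj_of (R ×ˢ S) (fun x => x.1 * x.2) (fun x hx => ?_) (fun g m => ?_)
    (fun x hx y hy m => ?_) (φ * ψ) (fun u hu m => ?_) ?_
  · rw [Finset.mem_product] at hx
    exact mul_mem (t.mem _ hx.1) (hg (s.mem _ hx.2))
  · obtain ⟨a, ha, m1⟩ := t.ex g m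
    obtain ⟨b, hb, m2⟩ := s.ex _ m1
    exact ⟨(a, b), Finset.mem_product.2 ⟨ha, hb⟩, by simpa [mul_assoc] using m2⟩
  · rw [Finset.mem_product] at hx hy
    have e1 : x.1 = y.1 := t.un _ hx.1 _ hy.1 (by
      simpa [mul_assoc] using mul_mem (mul_mem (s.mem _ hx.2) (uh m)) (inv_mem (s.mem _ hy.2)))
    exact Prod.ext e1 (s.un _ hx.2 _ hy.2 (by rw [e1] at m; simpa [mul_assoc] using m))
  · rw [mul_assoc, d u (uh m) m, ← mul_assoc, c u hu (uh m), mul_assoc]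
  · rw [Finset.sum_product, ← e]
    refine Finset.sum_congr rfl fun a ha => ?_
    rw [← mul_one (ρ a * φ), ← f, Finset.mul_sum, Finset.sum_mul]
    refine Finset.sum_congr rfl fun b hb => ?_
    have mb := hg (s.mem b hb)
    rw [mul_inv_rev, r.mul a (t.mem a ha) b mb, r.mul _ (inv_mem mb) _ (inv_mem (t.mem a ha))]
    simp only [mul_assoc]
    rw [← mul_assoc (ρ b) φ, ← c b mb (s.mem b hb), mul_assoc]

theorem prr : PRR := by
  intro G _ _ k _ N _ _ I Γ U A ρ r h n tri le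
  obtain ⟨R, P, t, p1, p2, p3⟩ := h.fam r
  let B : Subgroup G :=
    { carrier := {g | ∃ a ∈ A, a⁻¹ * g ∈ U}
      mul_mem' := fun {x y} ⟨a, ha, m⟩ ⟨b, hb, m'⟩ => ⟨a * b, mul_mem ha hb, by
        simpa [mul_assoc] using mul_mem (n.conj' (le hb) m) m'⟩
      one_mem' := ⟨1, one_mem _, by simp⟩
      inv_mem' := fun {x} ⟨a, ha, m⟩ => ⟨a⁻¹, inv_mem ha, by
        simpa [mul_assoc] using n a (le ha) _ (inv_mem m)⟩ }
  have ub : U ≤ B := fun u m => ⟨1, one_mem _, by simpa using m⟩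
  obtain ⟨S, s⟩ := ex_tv (Γ := Γ) (U := B) fun e =>
    t.ne (Subgroup.relIndex_eq_zero_of_le_left ub e)
  obtain ⟨Q, q⟩ := ex_tv (Γ := A) (U := U) fun e =>
    t.ne (Subgroup.relIndex_eq_zero_of_le_right le e)
  refine ⟨Q, ∑ x ∈ S, P x⁻¹, q, fun u hu m => by rw [tri u (le hu) m, mul_one, one_mul], ?_⟩
  ext v
  have p4 := p3 1 (one_mem _) v
  simp only [one_mul] at p4
  refine Eq.trans ?_ p4
  rw [← t.sum_of (Q ×ˢ S) (fun x => x.1 * x.2⁻¹) (fun x hx => ?_) (fun g hg => ?_)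
    (fun x hx y hy m => ?_) (fun y => P y v) fun y hy u hu m => by rw [p1 y hy u hu m],
    Finset.sum_product, LinearMap.sum_apply]
  · refine Finset.sum_congr rfl fun a ha => ?_
    have ma := le (q.mem a ha)
    rw [End.mul_apply, End.mul_apply, LinearMap.sum_apply, map_sum]
    exact Finset.sum_congr rfl fun x hx => by rw [p2 a ma _ (inv_mem (s.mem x hx)), r.inv ma]
  · rw [Finset.mem_product] at hx
    exact mul_mem (le (q.mem _ hx.1)) (inv_mem (s.mem _ hx.2))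
  · obtain ⟨x, hx, m⟩ := s.ex _ (inv_mem hg)
    obtain ⟨a, ha, m1⟩ := inv_mem m
    obtain ⟨b, hb, m2⟩ := q.ex a ha
    refine ⟨(b, x), Finset.mem_product.2 ⟨hb, hx⟩, ?_⟩
    simpa [mul_assoc] using n x (s.mem x hx) _ (mul_mem m2 m1)
  · rw [Finset.mem_product] at hx hy
    have m1 := n.conj' (s.mem _ hx.2) m
    have e1 : y.2 = x.2 := s.un _ hy.2 _ hx.2
      ⟨y.1⁻¹ * x.1, mul_mem (inv_mem (q.mem _ hy.1)) (q.mem _ hx.1), by simpa [mul_assoc] using m1⟩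
    exact Prod.ext (q.un _ hx.1 _ hy.1 (by rw [e1] at m1; simpa [mul_assoc] using m1)) e1.symm

end Vale.Agent.P022K.G2
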