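import Vale.Agent.P022K.G2.Hb
import Vale.Agent.P022K.G2.Tr
import Vale.Agent.P022E.GW.Fix

/-!
# P022K, block G2: global rows (`GYS`, `HASSE`, `FIX`, `SHU` for the prime two, `SHA`; helper42)
-/

set_option linter.all false

noncomputable section

namespace Vale.Agent.P022K.G2

open NumberField Module
open Vale.Agent.P022 Vale.Agent.P022.C
open Vale.Agent.P027M.S (Inert)
open Vale.Agent.P022D.W (dec)
open Vale.Agent.P022E.GW (Ov Fb)
open scoped Pointwise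

namespace Hb

/-- the sequence of Gysin -/
theorem gys0 {G : Type} [Group G] [TopologicalSpace G] {A A' : Subgroup G} {η : G → ZMod 2}
    {z : G → G → ZMod 2} (he : Ch A η) (h : ∀ g, g ∈ A' ↔ g ∈ A ∧ η g = 0)
    (hz : z ∈ Z2 ∅ A (tr G (ZMod 2))) (hb : z ∈ B2 ∅ A' (tr G (ZMod 2))) :
    ∃ β, Ch A β ∧ z - cup η β ∈ B2 ∅ A (tr G (ZMod 2)) := by
  by_cases e0 : ∀ g ∈ A, η g = 0
  · exact ⟨η, he, B2.congr (B2.mono hb subset_rfl fun g hg => (h g).2 ⟨hg, e0 g hg⟩)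
      (fun g hg j _ => by simp [cup, e0 g hg]) fun _ _ => rfl⟩
  push Not at e0
  obtain ⟨s, hs, s1⟩ := e0
  have two : ∀ a : ZMod 2, a ≠ 0 → a = 1 := by decide
  have s2 := two _ s1
  obtain ⟨c, ⟨W₂, l2, w2⟩, hc⟩ := hb
  obtain ⟨W₁, l1, w1⟩ := he.2
  obtain ⟨W₃, l3, w3⟩ := hz.2
  let τ : G → G := fun y => if η y = 0 then 1 else s
  have t1 : ∀ y ∈ A, τ y ∈ A ∧ (τ y)⁻¹ * y ∈ A' := fun y hy => by
    simp only [τ]
    split_ifs with e
    · exact ⟨one_mem _, (h _).2 (by simpa using ⟨hy, e⟩)⟩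
    · exact ⟨hs, (h _).2 ⟨mul_mem (inv_mem hs) hy, by
        rw [he.1 _ (inv_mem hs) y hy, he.inv hs, s2, two _ e, neg_add_cancel]⟩⟩
  let a : G → ZMod 2 := fun y => c ((τ y)⁻¹ * y) - z (τ y) ((τ y)⁻¹ * y)
  have a1 : ∀ y ∈ A, ∀ u ∈ A', a (y * u) = a y + c u - z y u := fun y hy u hu => by
    have k1 := hz.1 _ (t1 y hy).1 _ ((h _).1 (t1 y hy).2).1 u ((h u).1 hu).1
    have k2 := hc _ (t1 y hy).2 u hu
    have t2 : τ (y * u) = τ y := by
      simp only [τ, he.1 y hy u ((h u).1 hu).1, ((h u).1 hu).2, add_zero]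
    simp only [d1_apply, tr_apply] at k1 k2
    rw [mul_inv_cancel_left] at k1
    simp only [a, t2, ← mul_assoc]
    linear_combination k2 - k1
  let e : G → G → ZMod 2 := fun g x => z g x - a x + a (g * x)
  have e1 : ∀ g ∈ A, ∀ x ∈ A, ∀ u ∈ A', e g (x * u) = e g x := fun g hg x hx u hu => by
    have k1 := hz.1 g hg x hx u ((h u).1 hu).1
    simp only [tr_apply] at k1
    simp only [e, ← mul_assoc, a1 x hx u hu, a1 _ (mul_mem hg hx) u hu]
    linear_combination k1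
  have e2 : ∀ g ∈ A, ∀ x ∈ A, e g x = e g 1 + η x * (e g s - e g 1) := fun g hg x hx => by
    have := e1 g hg _ (t1 x hx).1 _ (t1 x hx).2
    rw [mul_inv_cancel_left] at this
    rw [this]
    simp only [τ]
    split_ifs with e
    · rw [e]; ring
    · rw [two _ e]; ring
  have e3 : ∀ g ∈ A, ∀ y ∈ A, ∀ x ∈ A, z g y = e y x - e (g * y) x + e g (y * x) :=
    fun g hg y hy x hx => by
      have k1 := hz.1 g hg y hy x hx
      simp only [tr_apply] at k1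
      simp only [e, mul_assoc]
      linear_combination -k1
  have e4 : ∀ g ∈ A, ∀ w ∈ A, w ∈ W₁ ⊓ (W₂ ⊓ W₃) → ∀ x ∈ A, e (g * w) x = e g x :=
    fun g hg w hw m x hx => by
      have m1 := cj_mem hx hw
      have m2 := (h _).2 ⟨m1, w1 _ m1 (l1.cj m.1 x)⟩
      have k1 := a1 _ (mul_mem hg hx) 1 (one_mem _)
      have k2 := w2 1 (one_mem _) _ m2 (l2.cj m.2.1 x)
      have k3 := (w3 _ (mul_mem hg hx) 1 (one_mem _) _ m1 (l3.cj m.2.2 x)).2
      rw [one_mul] at k2 k3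
      rw [mul_one] at k1
      simp only [e]
      rw [show g * w * x = g * x * (x⁻¹ * w * x) by group, a1 _ (mul_mem hg hx) _ m2, k2, k3, ← k1,
        (w3 g hg x hx w hw m.2.2).1]
  have ad : ∀ g ∈ A, ∀ y ∈ A, e (g * y) s - e (g * y) 1 = e g s - e g 1 + (e y s - e y 1) :=
    fun g hg y hy => by
      have k1 := e3 g hg y hy 1 (one_mem _)
      have k2 := e3 g hg y hy s hs
      rw [e2 g hg _ (mul_mem hy hs), he.1 y hy s hs, s2] at k2
      rw [mul_one, e2 g hg y hy] at k1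
      linear_combination k2 - k1
  have cb : Ch A fun g => e g s - e g 1 := ⟨ad, _, l1.inf (l2.inf l3), fun w hw m => by
    have := ad 1 (one_mem _) w hw
    rw [e4 1 (one_mem _) w hw m s hs, e4 1 (one_mem _) w hw m 1 (one_mem _)] at this
    exact left_eq_add.1 this⟩
  refine ⟨-fun g => e g s - e g 1, cb.neg, B2.congr (add_mem (cup_skew he cb)
    ⟨fun g => e g 1, ⟨_, l1.inf (l2.inf l3), fun g hg w hw m => e4 g hg w hw m 1 (one_mem _)⟩,
      fun _ _ _ _ => rfl⟩) (fun g hg y hy => ?_) fun _ _ => rfl⟩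
  have k1 := e3 g hg y hy 1 (one_mem _)
  rw [mul_one, e2 g hg y hy] at k1
  simp only [Pi.sub_apply, Pi.add_apply, Pi.neg_apply, cup, d1_apply, tr_apply]
  linear_combination k1

theorem bg_open {H : Subgroup GQ} {T : Finset ℕ} (h : Bg H T) : IsOpen (H : Set GQ) := by
  obtain ⟨⟨L, _, _, j, rfl, -⟩, -⟩ := h
  exact H916.isOpen_GK j

end Hb

open Hb

theorem gys : GYS 2 := fun A A' η z hA he h hz hb => by
  obtain ⟨β, b1, b2⟩ := gys0 he h hz hb
  obtain ⟨b, b0, b3, b4⟩ := (kum 2 A hA).1 β b1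
  exact ⟨b, b0, b3, B2.congr b2 (fun g _ j hj => by simp only [Pi.sub_apply, cup, b4 j hj])
    fun _ _ => rfl⟩

theorem hasse (h : P022E.GW.HASSE) : HASSE 2 := fun H z o _ hz hl =>
  (cb_iff (H.isClosed_of_isOpen o)).1 (h _ H z o (Z2.lib hz) fun l D hD => by
    obtain ⟨x, hx, e⟩ := isDec_iff.1 hD
    rw [SetLike.coe_injective e]
    exact B2.cb (hl x (Ab_mono (Set.subset_univ _) hx)))

theorem fix : FIX 2 := fun H T w bg _ h2 le ⟨W, hW, e⟩ h => by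
  obtain ⟨b, b1, b2⟩ := P022E.GW.fix2 _ H T w bg.1 h2 bg.2 ⟨W, hW.opn, fun s m => e s m.1 m.2⟩
    fun l hl P ov i _ hi => ⟨fun i' _ => (h l hl P ov i hi).1 i', (h l hl P ov i hi).2⟩
  exact ⟨b, (ch_iff (H.isClosed_of_isOpen (bg_open bg))).1 b1, fun i ⟨l, hl, P, ov, hi⟩ =>
    b2 l hl P ov i (le ⟨l, hl, P, ov, hi⟩) hi⟩

theorem shu (h : ∀ (L : Type) [Field L] [NumberField L] (j : L →+* Qb) (T : Finset ℕ),
    P022D.Sel.Big L T → ∀ φ : GQ → ZMod 2, P022D.Sel.Adm (GK j) 1 1 T ∅ φ → φ = 0) : SHU 2 := by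
  rintro _ T χ ⟨⟨L, _, _, j, rfl, hB⟩, pr⟩ h0 ⟨ad, W, hW, w⟩ hI hD g hg
  have z : ∀ g, (g ∈ GK j → χ g = 0) → (GK j : Set GQ).indicator χ g = 0 := fun g =>
    Set.indicator_apply_eq_zero.2
  have d : ∀ l ∈ T, ∀ P, Ov l P → ∀ g ∈ dec P, (GK j : Set GQ).indicator χ g = 0 :=
    fun l hl P ov g m => z g fun e => hD _ (mem_ab_fp.2 ⟨l, hl, ov⟩) g ⟨e, by rwa [st_fp]⟩
  rw [← Set.indicator_of_mem (s := (GK j : Set GQ)) hg χ]
  refine congrFun (h L j T hB _ ⟨fun a ha b hb => ?_, fun g hg => Set.indicator_of_notMem hg _,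
    ⟨W, hW.opn, fun s m => z s fun e => w s e m⟩, fun l hl _ P p1 p2 g hg => ?_,
    fun l hl l0 P p1 p2 g hg => d l hl P ⟨(pr l hl).resolve_left l0, p1, p2⟩ g hg,
    fun c ⟨φ, hc⟩ => z c fun e => hD (ip (.mk φ)) (mem_ab_ip.2 h0) c
      ⟨e, (st_conj hc).ge (Or.inr rfl)⟩, fun s _ => by simp⟩) g
  · rw [Set.indicator_of_mem (mul_mem ha hb), Set.indicator_of_mem ha, Set.indicator_of_mem hb,
      ad a ha b hb]
  · by_cases m : l ∈ T
    exacts [d l m P ⟨hl, p1, p2⟩ g (P022D.W.inP_le_dec hg),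
      z g fun e => hI g e ⟨l, m, P, ⟨hl, p1, p2⟩, hg⟩]

theorem sha (p : ℕ) [Fact p.Prime] (hH : HASSE p) (hU : UNR p) (hF : FIX p) : SHA p := by
  intro H T z bg hz h0 hp lv z2 hl
  have o := le_open lv
  obtain ⟨W, hW, w⟩ := z2.2
  obtain ⟨c, ⟨V, hV, v⟩, hc⟩ := hH H z o hz (Z2.mono z2 (Set.empty_subset _) le_rfl) fun x hx => by
    by_cases m : x ∈ Ab T
    · exact hl x m
    rcases hx with ⟨q, -, Q, ov, rfl⟩ | ⟨-, w, rfl⟩
    · rw [st_fp]
      exact hU _ H q Q z o ov (Z2.mono z2 (Set.empty_subset _) inf_le_left) fun g hg h hh i hi a =>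
        w g hg.1 h hh.1 i hi (hW.sub ⟨q, fun a => m (mem_ab_fp.2 ⟨q, a, ov⟩), Q, ov, a⟩)
    · exact absurd (mem_ab_ip.2 h0) m
  have one := one_mem H
  have c1 : ∀ g ∈ H, ∀ i ∈ H, i ∈ W → c (g * i) = c g + c i - c 1 ∧ c (i * g) = c g + c i - c 1 :=
    fun g hg i hi m => by
      have k1 := (w g hg 1 one i hi m).2
      have k2 := (w 1 one g hg i hi m).1
      rw [one_mul, hc g hg i hi, hc g hg 1 one] at k1
      rw [one_mul, hc i hi g hg, hc 1 one g hg] at k2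
      simp only [d1_apply, tr_apply, mul_one, one_mul] at k1 k2
      exact ⟨by linear_combination -k1, by linear_combination -k2⟩
  obtain ⟨b, b1, b2⟩ := hF H T (fun g => c g - c 1) bg hz hp (le_in lv)
    ⟨V, hV, fun s hs m => by rw [← one_mul s, v 1 one s hs m, sub_self]⟩
    fun l hl P ov i hi => ⟨fun i' hi' => by
      have m : i' ∈ In T := ⟨l, hl, P, ov, hi'⟩
      rw [(c1 i (le_in lv ⟨l, hl, P, ov, hi⟩) i' (le_in lv m) (hW.sub m)).1]; ring,
    fun g hg => by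
      have m : i ∈ In T := ⟨l, hl, P, ov, hi⟩
      have k1 := (c1 g hg _ (le_in lv (in_conj m g)) (hW.sub (in_conj m g))).2
      rw [inv_mul_cancel_right, (c1 g hg i (le_in lv m) (hW.sub m)).1] at k1
      linear_combination -k1⟩
  let Z : Subgroup GQ :=
    { carrier := {u | u ∈ H ∧ ∀ g ∈ H, (c - b) (g * u) = (c - b) g}
      mul_mem' := fun {x y} hx hy => ⟨mul_mem hx.1 hy.1, fun g hg => by
        rw [← mul_assoc, hy.2 _ (mul_mem hg hx.1), hx.2 g hg]⟩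
      one_mem' := ⟨one, fun g _ => by rw [mul_one]⟩
      inv_mem' := fun {x} hx => ⟨inv_mem hx.1, fun g hg => by
        rw [← hx.2 _ (mul_mem hg (inv_mem hx.1)), inv_mul_cancel_right]⟩ }
  obtain ⟨U, hU, u⟩ := b1.c1
  refine ⟨c - b, ⟨Z.normalCore, lv_core (Subgroup.isOpen_mono (H₁ := H ⊓ (V ⊓ U))
    (fun x m => ⟨m.1, fun g hg => ?_⟩) (o.inter (hV.opn.inter hU.opn)))
    fun i m => ⟨le_in lv m, fun g hg => ?_⟩, fun g hg x _ m => (Z.normalCore_le m).2 g hg⟩,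
    fun g hg h hh => ?_⟩
  · rw [Pi.sub_apply, Pi.sub_apply, v g hg x m.1 m.2.1, u g hg x m.1 m.2.2]
  · rw [Pi.sub_apply, Pi.sub_apply, (c1 g hg i (le_in lv m) (hW.sub m)).1,
      b1.1 g hg i (le_in lv m), b2 i m]; ring
  · rw [hc g hg h hh]
    simp only [d1_apply, tr_apply, Pi.sub_apply, b1.1 g hg h hh]; ring

end Vale.Agent.P022K.G2
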