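import Vale.Agent.P022K.G2.Hb

/-!
# P022K, block G2: reciprocity (rows `ONE` for the prime two, `REC`; helper42)
-/

set_option linter.all false

noncomputable section

namespace Vale.Agent.P022K.G2

open NumberField Module
open Vale.Agent.P022 Vale.Agent.P022.C
open Vale.Agent.P027M.S (Inert)
open Vale.Agent.P022D.W (dec)
open Vale.Agent.P022E.GW (Ov Fb)
open scoped Pointwise

namespace Hb

variable {k : Type} [Field k]

/-- an unramified character is determined by its value at a Frobenius element -/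
theorem unr_zero {l : ℕ} {P : Ideal (𝓞 Qb)} (h : Ov l P) {φ : GQ} (hφ : Fb l P φ) {a : GQ → k}
    (ha : Ch (dec P) a) (hI : ∀ g, Inert P g → a g = 0) (h0 : a φ = 0) {g : GQ}
    (hg : g ∈ dec P) : a g = 0 := by
  obtain ⟨W, hW, e⟩ := ha.2
  obtain ⟨n, s, v, hs, hv, rfl⟩ := P022D.W.dec_gen h.1 h.2.1 h.2.2 hφ hg W hW.opn
  have m := P022D.W.phi_mem h.1 h.2.1 hφ
  have mk := (dec P).pow_mem m n
  have ms := P022D.W.inP_le_dec hs
  have mv : v ∈ dec P :=
    ((dec P).mul_mem_cancel_right mk).1 (((dec P).mul_mem_cancel_right ms).1 hg)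
  rw [ha.1 _ (mul_mem mv mk) _ ms, ha.1 _ mv _ mk, ha.pow m, h0, hI s hs, e v mv hv]
  simp

variable {N M : Type} [AddCommGroup N] [Module k N] [AddCommGroup M] [Module k M] {I : Set GQ}
  {Γ A : Subgroup GQ} {ρ : GQ → End k N} {σ : GQ → End k M} {c : GQ → N} {y : GQ → M}
  {ω : GQ → k}

/-- the cup product -/
def cz (β : N →ₗ[k] Dual k M) (σ : GQ → End k M) (c : GQ → N) (y : GQ → M) (g h : GQ) : k :=
  β (c g) (σ g (y h))

variable {β : N →ₗ[k] Dual k M}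

theorem cz_z2 (s : Rp ∅ Γ σ) (e : ∀ g ∈ Γ, ∀ a m, β (ρ g a) (σ g m) = ω g * β a m)
    (hc : c ∈ Z1 ∅ Γ ρ) (hy : y ∈ Z1 ∅ Γ σ) : cz β σ c y ∈ Z2 ∅ Γ (ch ω) := by
  refine ⟨fun g hg h hh j hj => ?_, ?_⟩
  · simp only [cz, ch_apply]
    rw [← e g hg, hc.1 g hg h hh, hy.1 h hh j hj, s.mul' hg hh]
    simp only [map_add, LinearMap.add_apply]; ring
  · obtain ⟨W, hW, e1⟩ := Z1.c1 hc
    obtain ⟨V, hV, e2⟩ := Z1.c1 hy
    obtain ⟨U, hU, e3⟩ := s.lv
    exact ⟨W ⊓ (V ⊓ U), hW.inf (hV.inf hU), fun g hg h hh w hw m => by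
      simp only [cz]
      rw [e1 g hg w hw m.1, e2 h hh w hw m.2.1, s.mul g hg w hw, e3 w hw m.2.2, mul_one]
      exact ⟨rfl, rfl⟩⟩

theorem cz_b2 (e : ∀ g ∈ Γ, ∀ a m, β (ρ g a) (σ g m) = ω g * β a m) (hy : y ∈ Z1 ∅ Γ σ)
    (le : A ≤ Γ) (hc : c ∈ B1 A ρ) : cz β σ c y ∈ B2 ∅ A (ch ω) := by
  obtain ⟨n, hn⟩ := hc
  refine ⟨fun h => β n (y h), (C1.mono (Z1.c1 hy) subset_rfl le).imp fun W hW =>
    ⟨hW.1, fun g hg w hw m => by beta_reduce; rw [hW.2 g hg w hw m]⟩, fun g hg h hh => ?_⟩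
  rw [d1_apply, ch_apply, cz, hn g hg, d0_apply, hy.1 g (le hg) h (le hh), ← e g (le hg)]
  simp only [map_add, map_sub, LinearMap.sub_apply]; ring

variable {p : ℕ} [Fact p.Prime] [CharP k p] {T : Set ℕ} {l : ℕ} {P : Ideal (𝓞 Qb)} {φ : GQ}

theorem ka_dec (t : Tm p (Γ ⊓ Gz p) l P φ) :
    Ch (dec P) fun g => ZMod.castHom (dvd_refl p) k (ka p l g) :=
  (ka_ch (t.le.trans inf_le_right) (Nat.cast_ne_zero.2 t.ov.1.ne_zero)
    fun g _ => map_natCast g l).map (ZMod.castHom (dvd_refl p) k).toAddMonoidHom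

/-- the value at a generator of tame inertia is fixed by the decomposition group -/
theorem fix_n (hT : TAM p) (t : Tm p (Γ ⊓ Gz p) l P φ) (o : l ∉ T) (r : Rp (In T) Γ ρ)
    (hc : c ∈ Z1 I Γ ρ) {n : N}
    (h : ∀ g, Inert P g → c g = ZMod.castHom (dvd_refl p) k (ka p l g) • n) {g : GQ}
    (hg : g ∈ dec P) : ρ g n = n := by
  obtain ⟨-, ⟨τ, t1, t2⟩, -⟩ := hT l P t.ov t.ne
  have d := P022D.W.inP_le_dec t1
  have i : Inert P (g * τ * g⁻¹) := P022D.W.conj_inP hg t1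
  have a := ka_ch (t.le.trans inf_le_right) (Nat.cast_ne_zero.2 t.ov.1.ne_zero)
    fun g _ => map_natCast g l
  have e := cj r hc (t.le hg).1 (t.le d).1
  rw [rp_in r ⟨l, o, P, t.ov, i⟩ (t.le (P022D.W.inP_le_dec i)).1, h _ i, h _ t1,
    a.1 _ (mul_mem hg d) _ (inv_mem hg), a.1 _ hg _ d, a.inv hg, t2] at e
  simpa using e.symm

end Hb

open Hb

theorem one (h1 : P022E.GW.ONE) (hU : UCH 2) (hT : TAM 2) : ONE 2 := by
  intro k _ _ _ Γ z κ _ l P φ u ψ s o hz tm un h hl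
  rw [ch_om_two] at hz hl
  let ca := ZMod.castHom (dvd_refl 2) k
  choose τ t1 t2 using fun i => (hT _ _ (tm i).ov (tm i).ne).2.1
  have key : ∀ i, ∃ v : GQ → k, Ch (dec (P i)) v ∧ (∀ g, Inert (P i) g → v g = 0) ∧
      v (φ i) = 1 := fun i => by
    obtain ⟨v, v1, v2, a, ha, v3⟩ := hU ⊤ _ _ isOpen_univ (tm i).ov
    rw [top_inf_eq] at v1 ha
    have : v (φ i) ≠ 0 := fun e => zero_ne_one
      ((unr_zero (tm i).ov (tm i).fb v1 (fun g => v2 g trivial) e ha).symm.trans v3)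
    refine ⟨_, v1.map ca.toAddMonoidHom, fun g hg => by rw [v2 g trivial hg, map_zero], ?_⟩
    rw [show v (φ i) = 1 by revert this; generalize v (φ i) = b; revert b; decide]
    exact map_one ca
  choose v v1 v2 v3 using key
  have := h1 k Γ z κ l P τ φ v (fun i => u i (φ i) • ψ i) o (Z2.lib hz)
    (fun i => ⟨(tm i).ov, (tm i).ne, ⟨t1 i, fun w hw => by
      rw [ka_law hw (le_gz_two ⊤ trivial) (map_natCast _ _), t2, zt_two]; simp [ZMod.val_one]⟩,
      (tm i).fb, (tm i).le.trans inf_le_left⟩)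
    (fun i j g hg e => un i j g hg (Ideal.ext fun x => by rw [mem_smul, e, smul_inv_smul]))
    (fun i => ⟨(v1 i).lib, ((h i).2.1.smul _).lib, v2 i, v3 i, B2.cb (B2.congr (h i).2.2.2
      (fun g hg j _ => ?_) fun _ _ => rfl)⟩) (fun D hD => ?_) fun q Q ov n => ?_
  · refine (Finset.sum_congr rfl fun i _ => ?_).trans this
    rw [Pi.smul_apply, ((h i).2.2.1 _ (t1 i)).2, t2, map_one, one_mul, smul_eq_mul]
  · have := unr_zero (tm i).ov (tm i).fb ((h i).1.sub ((v1 i).smul (u i (φ i))))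
      (fun g hg => by simp [((h i).2.2.1 g hg).1, v2 i g hg]) (by simp [v3]) hg
    simp only [Pi.sub_apply, Pi.smul_apply, smul_eq_mul, cup, P022D.L2c.cup] at this ⊢
    rw [sub_eq_zero.1 this]; ring
  · obtain ⟨x, hx, e⟩ := isDec_iff.1 hD
    rw [SetLike.coe_injective e]
    refine B2.cb (hl x (Ab_mono (Set.subset_univ _) hx) fun i g _ e => ?_)
    obtain ⟨_, rfl, o⟩ := mem_ab_fp.1 (smul_fp g (P i) ▸ e ▸ hx)
    exact o.1.ne_zero rfl
  · rw [← st_fp]
    refine B2.cb (hl _ (mem_ab_fp.2 ⟨q, trivial, ov⟩) fun i g hg e => n i g hg fun x => ?_)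
    rw [show Q = g • P i from Sum.inl.inj e, mem_smul, inv_smul_smul]

theorem rec' (p : ℕ) [Fact p.Prime] (h1 : ONE p) (hU : UNT p) (hT : TAM p) : REC p := by
  intro k _ _ _ N M _ _ _ _ Γ T ι κ _ x l P φ ρ σ β c n y lv h0 hp r s e hx aq hc hn hy
  have o := le_open lv
  have E : ∀ I : Set GQ, ∅ ⊆ I := Set.empty_subset
  obtain ⟨⟨c1, c2⟩, c3⟩ := hc
  have z2 := cz_z2 (s.mono (E _) le_rfl) e (Z1.mono c1 (E _)) (Z1.mono hy (E _))
  let ka' : κ → GQ → k := fun j g => ZMod.castHom (dvd_refl p) k (ka p (l j) g)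
  let u : κ → GQ → k := fun j h => β (n j) (y h)
  have := h1 k Γ _ κ l P φ u (fun j => -ka' j) (fun _ => -1) o z2 aq.tm aq.un (fun j => ?_)
    fun z hz nz => ?_
  · simpa [u] using this
  · have t := aq.tm j
    have dl : dec (P j) ≤ Γ := t.le.trans inf_le_left
    have fx : ∀ g ∈ dec (P j), ∀ m, β (n j) (σ g m) = β (n j) m := fun g hg m => by
      conv_lhs => rw [← fix_n hT t (aq.out j) r c1 (hn j) hg]
      rw [e g (dl hg), (om_eq_one k).2 (t.le hg).2, one_mul]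
    have ck : Ch (dec (P j)) (ka' j) := ka_dec t
    have cu : Ch (dec (P j)) (u j) := ⟨fun g hg h hh => by
      simp only [u]; rw [hy.1 g (dl hg) h (dl hh), map_add, fx g hg], hy.2.2.imp fun W hW =>
      ⟨hW.1.mono (E _), fun w hw m => by simp only [u]; rw [hW.2 w (dl hw) m, map_zero]⟩⟩
    have ii : ∀ g, Inert (P j) g → g ∈ In T := fun g hg => ⟨l j, aq.out j, P j, t.ov, hg⟩
    have co : ∀ g ∈ Γ ⊓ dec (P j), ch (om p k) g = tr GQ k g := fun g hg => ch_om k (t.le hg.2).2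
    refine ⟨cu, ck.neg, fun g hg => ⟨by
      simp only [u]; rw [z1_in hy (ii g hg) (le_in lv (ii g hg)), map_zero], by simp [ka']⟩, ?_⟩
    have b := hU k Γ _ _ (cz β σ c.1 y - cup (ka' j) (u j)) o t.ov
      (sub_mem (Z2.mono z2 subset_rfl inf_le_left) (Z2.congr
        (Z2.mono (cup_z2 ck cu) subset_rfl inf_le_right) (fun _ _ _ _ => rfl) co))
      fun g hg h hh i hi m => ?_
    · refine B2.congr (add_mem (B2.congr (B2.mono b subset_rfl (le_inf dl le_rfl))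
        (fun _ _ _ _ => rfl) fun g hg => (co g ⟨dl hg, hg⟩).symm) (cup_skew ck cu))
        (fun g _ h _ => ?_) fun _ _ => rfl
      simp only [Pi.add_apply, Pi.sub_apply, Pi.neg_apply, cup]; ring
    · have mi := P022D.W.inP_le_dec m
      simp only [Pi.sub_apply, cup, cz, u]
      rw [c1.1 g hg.1 i hi, s.mul g hg.1 i hi, rp_in s (ii i m) hi, mul_one, ck.1 g hg.2 i mi,
        hy.1 h hh.1 i hi, z1_in hy (ii i m) hi, map_zero, add_zero, hn j i m, map_smul,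
        fix_n hT t (aq.out j) r c1 (hn j) hg.2, map_add, map_smul, LinearMap.add_apply,
        LinearMap.smul_apply, fx g hg.2]
      exact ⟨by simp only [ka', smul_eq_mul]; ring, rfl⟩
  · by_cases m : z ∈ Ab T
    · exact cz_b2 e (Z1.mono hy (E _)) inf_le_left (loc r c1 hx (fun i => ⟨_, c2 i⟩) m)
    rcases hz with ⟨q, -, Q, ov, rfl⟩ | ⟨-, w, rfl⟩
    · have hq : q ∉ T := fun a => m (mem_ab_fp.2 ⟨q, a, ov⟩)
      rw [st_fp]
      refine hU k Γ q Q _ o ov (Z2.mono z2 subset_rfl inf_le_left) fun g hg h hh i hi a => ?_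
      have ii : i ∈ In T := ⟨q, hq, Q, ov, a⟩
      simp only [cz]
      rw [c1.1 g hg.1 i hi, s.mul g hg.1 i hi, rp_in s ii hi, mul_one, hy.1 h hh.1 i hi,
        z1_in hy ii hi, c3 q hq Q ov (fun j b hb e => nz j b hb (congrArg fp e)) i a]
      simp
    · exact absurd (mem_ab_ip.2 h0) m

end Vale.Agent.P022K.G2
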