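import Vale.Agent.P022K.G2.Kum
import Vale.Agent.P022K.GW.Unr

/-!
# P022K, block G2: rows `UNR`, `UNT`, `UCH`, `INF` (helper69)
-/

set_option linter.all false

noncomputable section

namespace Vale.Agent.P022K.G2

open NumberField Module
open Vale.Agent.P022 Vale.Agent.P022.H443
open Vale.Agent.P027M.S (Inert)
open Vale.Agent.P022D.W
open Vale.Agent.P022E.GW (Ov Fb)
open Vale.Agent.P022E.GW.Unr (gen deg dpow)

/-- **unramified cocycles** -/
theorem unr (p : ℕ) [Fact p.Prime] : UNR p := fun k _ _ H l P z hH hP hz hI =>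
  (cb_iff (inf_dec_closed hH P)).1 (GW.Unr.unr (p := p) Fact.out hP.1 hP.2.1 hP.2.2 hH
    (Z2.lib hz) fun s hs g h => hI g.1 g.2 h.1 h.2 s.1 s.2.1 hs)

/-- **unramified cocycles**, the prime two -/
theorem unt_two : UNT 2 := fun k _ _ Γ l P z hH hP hz hI => by
  rw [ch_om_two] at hz ⊢
  exact unr 2 k Γ l P z hH hP hz hI

/-- **unramified cocycles with values in the roots of unity** -/
theorem unt (p : ℕ) [Fact p.Prime] (tr2 : TR2) (pr0 : PR0) : UNT p :=
  fun k _ _ Γ l P z hH hP hz hI => by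
  have hr := rp_om (p := p) k (Γ ⊓ dec P)
  have e : Γ ⊓ dec P ⊓ Gz p = Γ ⊓ Gz p ⊓ dec P := inf_right_comm _ _ _
  have e1 : ∀ g ∈ Γ ⊓ Gz p ⊓ dec P, ch (om p k) g = tr GQ k g := fun g hg => ch_om k hg.1.2
  have l1 : Γ ⊓ Gz p ⊓ dec P ≤ Γ ⊓ dec P := inf_le_inf_right _ inf_le_left
  refine tr2 GQ k k ∅ _ (Gz p) _ z hr (pr0 GQ k k ∅ _ _ _ hr ?_) (le_of_open Gz_open _) hz ?_
  · rw [Ne, CharP.cast_eq_zero_iff k p]
    exact fun h => Gz_index (h.trans (Subgroup.relIndex_dvd_index_of_normal _ _))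
  · rw [e]
    have h1 := Z2.mono hz (J := ∅) subset_rfl l1
    obtain ⟨c, hc, h2⟩ := unr p k (Γ ⊓ Gz p) l P z (hH.inter Gz_open) hP
      ⟨fun g hg h hh j hj => by rw [← e1 g hg]; exact h1.1 g hg h hh j hj, h1.2⟩
      fun g hg h hh i hi => hI g (l1 hg) h (l1 hh) i hi.1
    exact ⟨c, hc, fun g hg h hh => by rw [h2 g hg h hh, d1_apply, d1_apply, e1 g hg]⟩

/-- **unramified characters** -/
theorem uch (p : ℕ) [Fact p.Prime] : UCH p := fun U l P hU ⟨hl, hP, hPl⟩ => by
  have hp : p.Prime := Fact.out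
  obtain ⟨φ, hφ⟩ := exists_phi hl hP hPl
  obtain ⟨f, ψ, f0, hψ, hg⟩ := gen hl hP hPl hφ hU
  obtain ⟨δ, V, hV, h1, h2, h3, h4⟩ := deg hl hP hPl hφ (N := f * p) (mul_ne_zero f0 hp.ne_zero)
  have hφd := phi_mem hl hP hφ
  have dψ : δ ψ.1 = f := by
    rw [← mul_inv_cancel_left (φ ^ f) ψ.1, h1 _ ((dec P).pow_mem hφd f) _ (inP_le_dec hψ),
      dpow hl hP hφ h1 h2 h3, h3 _ hψ, add_zero]
  have dk : ∀ k : ℕ, δ (ψ.1 ^ k) = (f * k : ℕ) := fun k => by
    induction k with
    | zero => rw [pow_zero, mul_zero, Nat.cast_zero]; exact h3 1 (inP P).one_mem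
    | succ k ih =>
      rw [pow_succ, h1 _ ((dec P).pow_mem ψ.2.2 k) _ ψ.2.2, ih, dψ, mul_add, mul_one, Nat.cast_add]
  let u : GQ → ZMod p := fun g => (((δ g).val / f : ℕ) : ZMod p)
  have hu : ∀ (g : GQ) (k : ℕ), δ g = (f * k : ℕ) → u g = k := fun g k h => by
    simp only [u, h]
    rw [ZMod.val_natCast, Nat.mul_mod_mul_left, Nat.mul_div_cancel_left _ (Nat.pos_of_ne_zero f0),
      ZMod.natCast_mod]
  have ex : ∀ g ∈ U ⊓ dec P, ∃ k : ℕ, δ g = (f * k : ℕ) := fun g m => by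
    obtain ⟨k, v, s, hv, hs, e⟩ := hg V hV ⟨g, m⟩
    have e' : g = v.1 * ψ.1 ^ k * s.1 := congrArg Subtype.val e
    have m1 := (dec P).pow_mem ψ.2.2 k
    exact ⟨k, by rw [e', h1 _ (mul_mem v.2.2 m1) _ s.2.2, h1 _ v.2.2 _ m1,
      h4 _ hv v.2.2, h3 _ hs, dk, zero_add, add_zero]⟩
  obtain ⟨W, hW, lW⟩ := ex_lv' hV
  refine ⟨u, ⟨fun g hg h hh => ?_, W, hW, fun w hw m => ?_⟩, fun g _ hi => ?_, ψ.1, ψ.2, ?_⟩
  · obtain ⟨j, hj⟩ := ex g hg
    obtain ⟨k, hk⟩ := ex h hh
    rw [hu g j hj, hu h k hk, ← Nat.cast_add]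
    exact hu _ _ (by rw [h1 _ hg.2 _ hh.2, hj, hk, mul_add, Nat.cast_add])
  · rw [← Nat.cast_zero]
    exact hu _ _ (by rw [h4 _ (lW m) hw.2]; simp)
  · rw [← Nat.cast_zero]
    exact hu _ _ (by rw [h3 _ hi]; simp)
  · rw [← Nat.cast_one]
    exact hu _ _ (by rw [mul_one, dψ])

/-! ### the infinite places -/

/-- the complex conjugation at an infinite place -/
theorem ex_cc (w : InfinitePlace Qb) : ∃ c : GQ, c ≠ 1 ∧ c * c = 1 ∧
    (∀ g, g ∈ St (ip w) ↔ g = 1 ∨ g = c) ∧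
    ∀ x, w.embedding (c x) = starRingEnd ℂ (w.embedding x) := by
  obtain ⟨c, hc⟩ := ex_conj w.embedding
  have h := st_conj hc
  rw [InfinitePlace.mk_embedding] at h
  refine ⟨c, ?_, AlgEquiv.ext fun x => w.embedding.injective ?_, fun g => Set.ext_iff.1 h g, hc⟩
  · rintro rfl
    obtain ⟨i, hi⟩ := IsAlgClosed.exists_pow_nat_eq (-1 : Qb) two_pos
    have h1 := Complex.conj_eq_iff_im.1 (hc i).symm
    have h2 := congrArg (fun x => (w.embedding x).re) hi
    simp only [map_pow, map_neg, map_one, sq, Complex.mul_re, h1, Complex.neg_re,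
      Complex.one_re, map_mul] at h2
    nlinarith [mul_self_nonneg (w.embedding i).re]
  · rw [AlgEquiv.mul_apply, hc, hc, Complex.conj_conj, AlgEquiv.one_apply]

theorem oz_cc {p : ℕ} [Fact p.Prime] {c : GQ} {φ : Qb →+* ℂ}
    (hc : ∀ x, φ (c x) = starRingEnd ℂ (φ x)) : oz p c = -1 := by
  have h1 : ‖φ (zt p)‖ = 1 := Complex.norm_eq_one_of_pow_eq_one
    (by rw [← map_pow, zt_pow, map_one]) (Fact.out : p.Prime).ne_zero
  have h2 : c (zt p) * zt p = 1 := φ.injective (by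
    rw [map_mul, hc, map_one, Complex.conj_mul', h1]; simp)
  rw [eq_neg_iff_add_eq_zero]
  refine pw_inj ?_
  rw [pw_add, ← oz_spec, ZMod.val_one, pow_one, h2, ZMod.val_zero, pow_zero]

/-- **the count at infinity** -/
theorem inf (p : ℕ) [Fact p.Prime] : INF p := fun k _ _ N _ _ Γ w ρ hN hρ => by
  classical
  obtain ⟨c, c1, cc, hS, hc⟩ := ex_cc w
  have o1 : om p k c = -1 := by rw [om, oz_cc hc, map_neg, map_one]
  by_cases hΓ : c ∈ Γ
  · have hD : ∀ g, g ∈ Γ ⊓ St (ip w) ↔ g = 1 ∨ g = c := fun g => ⟨fun h => (hS g).1 h.2,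
      fun h => ⟨by rcases h with rfl | rfl; exacts [one_mem _, hΓ], (hS g).2 h⟩⟩
    have cD := (hD c).2 (Or.inr rfl)
    have e1 : Γ.relIndex (St (ip w)) = 1 := Subgroup.relIndex_eq_one.2 fun g hg =>
      ((hD g).2 ((hS g).1 hg)).1
    rw [e1, Nat.cast_one, one_mul]
    congr 1
    set D := Γ ⊓ St (ip w)
    have e2 : Hm D ρ (om p k) = (LinearMap.range (ρ c + 1)).dualAnnihilator := by
      ext f
      rw [Submodule.mem_dualAnnihilator]
      refine ⟨fun h => ?_, fun h g hg n => ?_⟩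
      · rintro _ ⟨n, rfl⟩
        rw [LinearMap.add_apply, map_add, h c cD, o1]
        simp
      · rcases (hD g).1 hg with rfl | rfl
        · rw [hρ.one, om_one, one_mul]; rfl
        · have := h _ ⟨n, rfl⟩
          rw [LinearMap.add_apply, map_add] at this
          rw [o1, eq_neg_of_add_eq_zero_left this]
          simp
    obtain ⟨W, hW, lW⟩ := ex_lv (isOpen_compl_singleton (x := c)) (Ne.symm c1)
    let E : Z1 ∅ D ρ ≃ₗ[k] LinearMap.ker (ρ c + 1) :=
      { toFun := fun z => ⟨z.1 c, by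
          have := z.2.1 c cD c cD
          rw [cc, Z1.one z.2 hρ.one] at this
          rw [LinearMap.mem_ker, LinearMap.add_apply, add_comm]
          exact this.symm⟩
        map_add' := fun _ _ => rfl
        map_smul' := fun _ _ => rfl
        invFun := fun n => ⟨Pi.single c n.1, fun g hg h hh => by
          have hn : n.1 + ρ c n.1 = 0 := by rw [add_comm]; exact n.2
          rcases (hD g).1 hg with rfl | rfl <;> rcases (hD h).1 hh with rfl | rfl <;>
            simp [hρ.one, cc, c1.symm, hn],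
          fun g hg => Pi.single_eq_of_ne (fun e : g = c => hg (e ▸ cD)) _,
          W, hW, fun u _ m => Pi.single_eq_of_ne (lW m) _⟩
        left_inv := fun z => Subtype.ext (funext fun g => by
          by_cases e : g = c
          · subst e; simp
          · by_cases m : g ∈ D
            · obtain rfl := ((hD g).1 m).resolve_right e
              simp [e, Z1.one z.2 hρ.one]
            · simp [e, z.2.2.1 g m])
        right_inv := fun n => Subtype.ext (by simp) }
    rw [rk, rk, E.rank_eq, e2, ← Module.finrank_eq_rank, ← Module.finrank_eq_rank]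
    have h1 := LinearMap.finrank_range_add_finrank_ker (ρ c + 1)
    have h2 := Subspace.finrank_add_finrank_dualAnnihilator_eq (LinearMap.range (ρ c + 1))
    congr 1
    omega
  · have hD : Γ ⊓ St (ip w) = ⊥ := (Subgroup.eq_bot_iff_forall _).2 fun g h =>
      ((hS g).1 h.2).resolve_right fun e => hΓ (e ▸ h.1)
    have e1 : Γ.relIndex (St (ip w)) = 2 := by
      rw [← Subgroup.inf_relIndex_right, hD, Subgroup.relIndex_bot_left, ← Set.ncard_pair c1.symm,
        ← Nat.card_coe_set_eq]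
      exact Nat.card_congr (Equiv.subtypeEquivRight hS)
    rw [hD] at hρ ⊢
    have e2 : Z1 ∅ ⊥ ρ = ⊥ := (Submodule.eq_bot_iff _).2 fun z hz => funext fun g => by
      by_cases e : g = 1
      · rw [e]; exact Z1.one hz hρ.one
      · exact hz.2.1 g e
    have e3 : Hm ⊥ ρ (om p k) = ⊤ := eq_top_iff.2 fun f _ g hg n => by
      rw [Subgroup.mem_bot.1 hg, hρ.one, om_one, one_mul]; rfl
    rw [e1, e2, e3, rk, rk, rank_bot, rank_top, zero_add, ← Module.finrank_eq_rank k (Dual k N),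
      Subspace.dual_finrank_eq, Module.finrank_eq_rank, Nat.cast_ofNat, two_mul]

end Vale.Agent.P022K.G2
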