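import Vale.Agent.P022K.G2.Hq

/-!
# P022K, block G2: Kummer duality (row `KD`)
-/

set_option linter.all false

noncomputable section

namespace Vale.Agent.P022K.G2

open Module

namespace Kd

variable {G : Type} [Group G] [TopologicalSpace G] {k : Type} [Field k] {N : Type}
  [AddCommGroup N] [Module k N] {I : Set G} {Γ U : Subgroup G} {ρ : G → End k N} {ω : G → k}

theorem cj_mem (h : Nz Γ U) {g u : G} (hg : g ∈ Γ) : g⁻¹ * u * g ∈ Γ ⊓ U ↔ u ∈ Γ ⊓ U := by
  refine ⟨fun m => ?_, fun m => ⟨Γ.mul_mem (Γ.mul_mem (Γ.inv_mem hg) m.1) hg, h.conj' hg m.2⟩⟩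
  rw [show u = g * (g⁻¹ * u * g) * g⁻¹ by group]
  exact ⟨Γ.mul_mem (Γ.mul_mem hg m.1) (Γ.inv_mem hg), h g hg _ m.2⟩

theorem mem_iff (h : Pd I Γ U ρ ω) {c : G → N} : c ∈ Z1 I (Γ ⊓ U) ρ ↔
    (∀ g ∈ Γ ⊓ U, ∀ j ∈ Γ ⊓ U, c (g * j) = c g + c j) ∧ (∀ g ∉ Γ ⊓ U, c g = 0) ∧
      ∃ W, Lv I W ∧ ∀ w ∈ Γ ⊓ U, w ∈ W → c w = 0 :=
  and_congr_left fun _ => forall₂_congr fun g hg => forall₂_congr fun j _ => by
    rw [h.tri g hg.1 hg.2, End.one_apply]

theorem cj_z1 (h : Pd I Γ U ρ ω) {g : G} (hg : g ∈ Γ) (f : N →+ N) {c : G → N}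
    (hc : c ∈ Z1 I (Γ ⊓ U) ρ) : (fun u => f (c (g⁻¹ * u * g))) ∈ Z1 I (Γ ⊓ U) ρ := by
  obtain ⟨h1, h2, W, hW, h3⟩ := (mem_iff h).1 hc
  refine (mem_iff h).2 ⟨fun u hu v hv => ?_, fun u hu => ?_, W, hW, fun w hw m => ?_⟩
  · rw [← map_add, ← h1 _ ((cj_mem h.nz hg).2 hu) _ ((cj_mem h.nz hg).2 hv)]
    congr 2
    group
  · rw [h2 _ fun m => hu ((cj_mem h.nz hg).1 m), map_zero]
  · rw [h3 _ ((cj_mem h.nz hg).2 hw) (hW.nrm.conj_mem' w m g), map_zero]

/-- conjugation and a linear map -/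
def cm (h : Pd I Γ U ρ ω) {g : G} (hg : g ∈ Γ) (f : End k N) : End k (Z1 I (Γ ⊓ U) ρ) where
  toFun c := ⟨_, cj_z1 h hg f.toAddMonoidHom c.2⟩
  map_add' _ _ := Subtype.ext (funext fun _ => map_add f _ _)
  map_smul' _ _ := Subtype.ext (funext fun _ => map_smul f _ _)

open Classical in
/-- the action on the homomorphisms -/
def sg (h : Pd I Γ U ρ ω) (g : G) : End k (Z1 I (Γ ⊓ U) ρ) :=
  if m : g ∈ Γ then cm h m (ρ g) else 1

theorem sg_ap (h : Pd I Γ U ρ ω) {g : G} (m : g ∈ Γ) (c : Z1 I (Γ ⊓ U) ρ) (u : G) :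
    (sg h g c).1 u = ρ g (c.1 (g⁻¹ * u * g)) := by
  rw [sg, dif_pos m]; rfl

theorem sg_tri (h : Pd I Γ U ρ ω) : ∀ u ∈ Γ, u ∈ U → sg h u = 1 := fun u hu m =>
  LinearMap.ext fun c => Subtype.ext (funext fun v => by
    obtain ⟨h1, h2, -⟩ := (mem_iff h).1 c.2
    rw [sg_ap h hu, h.tri u hu m, End.one_apply, End.one_apply]
    by_cases hv : v ∈ Γ ⊓ U
    · have m1 : u ∈ Γ ⊓ U := ⟨hu, m⟩
      have m2 := inv_mem m1
      rw [h1 _ (mul_mem m2 hv) _ m1, h1 _ m2 _ hv, add_right_comm, ← h1 _ m2 _ m1,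
        ← h1 _ (mul_mem m2 m1) _ hv, inv_mul_cancel, one_mul]
    · rw [h2 _ hv, h2 _ fun k => hv ((cj_mem h.nz hu).1 k)])

theorem sg_rp (h : Pd I Γ U ρ ω) : Rp I Γ (sg h) :=
  ⟨sg_tri h 1 Γ.one_mem U.one_mem, fun g hg j hj => LinearMap.ext fun c => Subtype.ext
    (funext fun u => by
      rw [End.mul_apply, sg_ap h (Γ.mul_mem hg hj), sg_ap h hg, sg_ap h hj, h.rp.mul' hg hj]
      congr 3
      group), h.le.imp fun W hW => ⟨hW.1, fun w hw m => sg_tri h w hw (hW.2 w hw m)⟩⟩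

theorem sg_prj (h : Pd I Γ U ρ ω) : Prj Γ U (sg h) := by
  obtain ⟨R, φ, hR, -, hφ⟩ := h.prj
  refine ⟨R, cm h Γ.one_mem φ, hR, fun u hu m => by rw [sg_tri h u hu m, mul_one, one_mul],
    LinearMap.ext fun c => Subtype.ext (funext fun u => ?_)⟩
  rw [LinearMap.sum_apply, Submodule.coe_sum, Finset.sum_apply, End.one_apply]
  conv_rhs => rw [show c.1 u = (1 : End k N) (c.1 u) from rfl, ← hφ, LinearMap.sum_apply]
  refine Finset.sum_congr rfl fun r hr => ?_
  have m := hR.mem r hr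
  rw [End.mul_apply, End.mul_apply, sg_ap h m]
  show ρ r (φ ((sg h r⁻¹ c).1 _)) = ρ r (φ (ρ r⁻¹ _))
  rw [sg_ap h (Γ.inv_mem m)]
  congr 4
  group

theorem eq1 (h : Pd I Γ U ρ ω) : rk (Eq1 I Γ U ρ) = rk (H0 Γ (sg h) fun _ => 1) := by
  have e : (H0 Γ (sg h) fun _ => 1).map (Z1 I (Γ ⊓ U) ρ).subtype = Eq1 I Γ U ρ := by
    refine Submodule.ext fun c => ⟨?_, fun hc => ⟨⟨c, hc.1⟩, fun g hg => ?_, rfl⟩⟩
    · rintro ⟨c, hc, rfl⟩
      refine ⟨c.2, fun g hg u _ => ?_⟩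
      have := congrFun (congrArg Subtype.val (hc g hg)) (g * u * g⁻¹)
      rw [sg_ap h hg, one_smul, show g⁻¹ * (g * u * g⁻¹) * g = u by group] at this
      exact this.symm
    · refine Subtype.ext (funext fun u => ?_)
      rw [sg_ap h hg, one_smul]
      by_cases hu : u ∈ Γ ⊓ U
      · rw [← hc.2 g hg _ ((cj_mem h.nz hg).2 hu)]
        congr 1
        group
      · show ρ g (c _) = c u
        rw [hc.1.2.1 _ hu, hc.1.2.1 _ fun k => hu ((cj_mem h.nz hg).1 k), map_zero]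
  rw [← e]
  exact (Submodule.equivMapOfInjective _ (Submodule.injective_subtype _) _).rank_eq.symm

variable {p : ℕ} [Fact p.Prime] [CharP k p]

theorem cast_smul (a : ZMod p) (n : N) : ZMod.castHom (dvd_refl p) k a • n = a.val • n := by
  rw [← Nat.cast_smul_eq_nsmul k, ← map_natCast (ZMod.castHom (dvd_refl p) k),
    ZMod.natCast_zmod_val]

theorem sep0 {V : Type} [AddCommGroup V] [Module (ZMod p) V] {n : V}
    (h : ∀ l : V →+ ZMod p, l n = 0) : n = 0 :=
  (Module.forall_dual_apply_eq_zero_iff (ZMod p) n).1 fun l => h l.toAddMonoidHom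

theorem sep {n : N} (h : ∀ l : N →+ ZMod p, l n = 0) (k : Type) [Field k] [Module k N]
    [CharP k p] : n = 0 := by
  let _ : Module (ZMod p) N := AddCommGroup.zmodModule fun v => by
    rw [← Nat.cast_smul_eq_nsmul k, CharP.cast_eq_zero, zero_smul]
  exact sep0 h

/-- coordinates of a finite dimensional space of functions -/
theorem coords {F : Type} [Field F] (X : Submodule F (G → F)) [Module.Finite F X] :
    ∃ (n : ℕ) (b : Fin n → X) (l : Fin n → G →₀ F),
      ∀ x ∈ X, ∀ u, x u = ∑ i, ((l i).sum fun g a => a * x g) * (b i).1 u := by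
  let b := Module.finBasis F X
  have : ∀ i, ∃ l : G →₀ F, ∀ x : X, b.coord i x = l.sum fun g a => a * x.1 g := fun i => by
    obtain ⟨l, hl⟩ := Finsupp.mem_span_range_iff_exists_finsupp.1
      (FiniteDimensional.mem_span_of_iInf_ker_le_ker
        (L := fun g : G => LinearMap.proj g ∘ₗ X.subtype) (K := b.coord i) fun x hx => by
          rw [show x = 0 from Subtype.ext (funext fun g => (Submodule.mem_iInf _).1 hx g)]
          exact zero_mem _)
    refine ⟨l, fun x => ?_⟩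
    rw [← hl, Finsupp.sum, LinearMap.sum_apply]
    rfl
  choose l hl using this
  refine ⟨_, b, l, fun x hx u => ?_⟩
  have := congrFun (congrArg Subtype.val (b.sum_repr ⟨x, hx⟩)) u
  rw [Submodule.coe_sum, Finset.sum_apply] at this
  rw [← show _ = x u from this]
  exact Finset.sum_congr rfl fun i _ => by rw [← hl i ⟨x, hx⟩]; rfl

end Kd

open Kd Hq in
theorem kd (hP : PRD) : KD := by
  intro p _ G _ _ k _ _ N _ _ I Γ U ρ ω₀ A _ α κ h hα hκ h0 hc hf
  set c := ZMod.castHom (dvd_refl p) k with hc'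
  let X := Z1 I (Γ ⊓ U) (tr G (ZMod p))
  haveI : Finite X := Finite.of_surjective (fun x : κ.range => (⟨x, (hκ _).2 x.2⟩ : X))
    fun x => ⟨⟨x, (hκ _).1 x.2⟩, rfl⟩
  obtain ⟨n, b, l, hl⟩ := coords X
  choose a ha using fun i => (hκ _).1 (b i).2
  have kx : ∀ a, κ a ∈ X := fun a => (hκ _).2 ⟨a, rfl⟩
  let t₀ : A → N →ₗ[k] Z1 I (Γ ⊓ U) ρ := fun a =>
    { toFun := fun n => ⟨fun u => c (κ a u) • n, (mem_iff h).2
        ⟨fun g hg j hj => by rw [(kx a).1 g hg j hj, tr_apply, map_add, add_smul],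
          fun g hg => by rw [(kx a).2.1 g hg, map_zero, zero_smul],
          (kx a).2.2.imp fun W hW => ⟨hW.1, fun w hw m => by
            rw [hW.2 w hw m, map_zero, zero_smul]⟩⟩⟩
      map_add' := fun _ _ => Subtype.ext (funext fun _ => smul_add _ _ _)
      map_smul' := fun _ _ => Subtype.ext (funext fun _ => smul_comm _ _ _) }
  let t : A →+ N →ₗ[k] Z1 I (Γ ⊓ U) ρ := AddMonoidHom.mk' t₀ fun a a' =>
    LinearMap.ext fun n => Subtype.ext (funext fun u => by
      show c (κ (a + a') u) • n = c (κ a u) • n + c (κ a' u) • n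
      rw [map_add, Pi.add_apply, map_add, add_smul])
  have ht : ∀ a n u, (t a n).1 u = c (κ a u) • n := fun _ _ _ => rfl
  let pr : Fin n → Z1 I (Γ ⊓ U) ρ →ₗ[k] N := fun i =>
    (l i).sum fun g s => c s • (LinearMap.proj g ∘ₗ (Z1 I (Γ ⊓ U) ρ).subtype)
  have hpr : ∀ i z, pr i z = (l i).sum fun g s => c s • z.1 g := fun i z => by
    simp only [pr, Finsupp.sum, LinearMap.sum_apply]
    rfl
  have dec : ∀ z, z = ∑ i, t (a i) (pr i z) := fun z => Subtype.ext (funext fun u => by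
    rw [Submodule.coe_sum, Finset.sum_apply, ← sub_eq_zero]
    refine sep (p := p) (fun f => ?_) k
    have fs : ∀ (s : ZMod p) m, f (c s • m) = s * f m := fun s m => by
      rw [cast_smul, map_nsmul, nsmul_eq_mul, ZMod.natCast_zmod_val]
    obtain ⟨h1, h2, W, hW, h3⟩ := (mem_iff h).1 z.2
    have := hl (fun g => f (z.1 g)) ⟨fun g hg j hj =>
      (congrArg f (h1 g hg j hj)).trans (map_add f _ _),
      fun g hg => (congrArg f (h2 g hg)).trans (map_zero f), W, hW,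
      fun w hw m => (congrArg f (h3 w hw m)).trans (map_zero f)⟩ u
    rw [map_sub, this, map_sum, sub_eq_zero]
    refine Finset.sum_congr rfl fun i _ => ?_
    rw [ht, fs, ha, hpr, mul_comm, Finsupp.sum, Finsupp.sum, map_sum]
    simp only [fs])
  haveI := h.fin
  have fin : Module.Finite k (Z1 I (Γ ⊓ U) ρ) :=
    Module.Finite.of_injective (LinearMap.pi pr) fun z z' e => by
      rw [dec z, dec z']
      exact Finset.sum_congr rfl fun i _ => congrArg _ (congrFun e i)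
  have eqv : ∀ g ∈ Γ, ∀ a m, t (α g a) (ρ g m) = c (ω₀ g) • sg h g (t a m) := fun g hg a m =>
    Subtype.ext (funext fun u => by
      rw [Submodule.coe_smul, Pi.smul_apply, sg_ap h hg, ht, ht, map_smul, smul_smul, ← map_mul]
      by_cases hu : u ∈ Γ ⊓ U
      · rw [← hc g hg _ ((cj_mem h.nz hg).2 hu), show g * (g⁻¹ * u * g) * g⁻¹ = u by group]
      · rw [(kx _).2.1 _ hu, (kx _).2.1 _ fun k => hu ((cj_mem h.nz hg).1 k), mul_zero])
  let Φ : Dual k (Z1 I (Γ ⊓ U) ρ) →ₗ[k] A →+ Dual k N :=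
    { toFun := fun f => AddMonoidHom.mk' (fun a => f ∘ₗ t a) fun a a' => by
        rw [map_add, LinearMap.comp_add]
      map_add' := fun _ _ => rfl
      map_smul' := fun _ _ => rfl }
  have hΦ : ∀ f a m, Φ f a m = f (t a m) := fun _ _ _ => rfl
  have e : (Hm Γ (sg h) fun _ => 1).map Φ = Ev Γ α ρ fun g => c (ω₀ g) := by
    refine Submodule.ext fun f => ⟨?_, fun hf => ?_⟩
    · rintro ⟨f, hf, rfl⟩ g hg a m
      rw [hΦ, hΦ, eqv g hg, map_smul, hf g hg, one_mul, smul_eq_mul]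
    · have e : Φ (∑ i, f (a i) ∘ₗ pr i) = f := AddMonoidHom.ext fun x => LinearMap.ext fun m => by
        obtain ⟨y, hy⟩ := (h0 (x - ∑ i, ((l i).sum fun g s => s * κ x g).val • a i)).1
          (funext fun u => by
            rw [map_sub, map_sum, Pi.sub_apply, Finset.sum_apply, hl _ (kx x) u, Pi.zero_apply,
              sub_eq_zero]
            refine Finset.sum_congr rfl fun i _ => ?_
            rw [map_nsmul, ha, Pi.smul_apply, nsmul_eq_mul, ZMod.natCast_zmod_val])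
        have := congrArg f hy
        rw [map_nsmul, p_dual, map_sub, sub_eq_zero, map_sum] at this
        rw [hΦ, this, LinearMap.sum_apply, LinearMap.sum_apply]
        refine Finset.sum_congr rfl fun i _ => ?_
        rw [map_nsmul, ← cast_smul (k := k), LinearMap.smul_apply, ← map_smul,
          LinearMap.comp_apply, hpr, Finsupp.sum, Finsupp.sum, map_sum c, Finset.sum_smul]
        simp only [ht, map_mul, mul_smul]
      refine ⟨_, fun g hg z => ?_, e⟩
      rw [one_mul, dec z, map_sum, map_sum, map_sum]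
      refine Finset.sum_congr rfl fun i _ => mul_left_cancel₀ (h.mu.ne hg) ?_
      rw [← smul_eq_mul, ← map_smul, ← eqv g hg, ← hΦ, ← hΦ, e, hf g hg]
  rw [eq1 h, hP G k _ I Γ U (sg h) (fun _ => 1) fin (sg_rp h) (sg_prj h) h.nz (sg_tri h)
    ⟨rfl, fun _ _ _ _ => (one_mul _).symm⟩ fun _ _ _ => rfl, ← e]
  exact (Submodule.equivMapOfInjective Φ (fun f f' e => LinearMap.ext fun z => by
    rw [dec z, map_sum, map_sum]
    exact Finset.sum_congr rfl fun i _ => by rw [← hΦ, ← hΦ, e]) _).rank_eq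

end Vale.Agent.P022K.G2
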