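import Vale.Agent.P022K.G2.Kum
import Vale.Agent.P022K.G2.Tr
import Vale.Agent.P022K.GW.Pl
import Vale.Agent.P022D.Loc2.Dec

/-!
# P022K, block G2: the absolute value at a place, normal bases, roots of elements near one
-/

set_option linter.all false

noncomputable section

namespace Vale.Agent.P022K.G2.Lp

open NumberField Module
open Vale.Agent.P022 Vale.Agent.P022.C
open Vale.Agent.P022D.W (dec)
open Vale.Agent.P022E.GW (Ov)
open scoped Pointwise

/-- the absolute value at a place above `l` with the decomposition group `Δ` -/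
structure Nm (l : ℕ) (Δ : Subgroup GQ) (v : AbsoluteValue Qb ℝ) : Prop where
  pri : l.Prime
  na : IsNonarchimedean v
  inv : ∀ g ∈ Δ, ∀ x, v (g x) = v x
  lt : v l < 1
  ap : ∀ (m : ℕ) (x : Qb), (∀ g ∈ Δ, g x = x) → v x ≤ 1 →
    ∃ a : Fin (l ^ m), v (x - (a : ℕ)) ≤ v l ^ m

open P022D.Loc2 in
theorem ex_nm {l : ℕ} {P : Ideal (𝓞 Qb)} (h : Ov l P) : ∃ v, Nm l (dec P) v := by
  haveI := Fact.mk h.1
  obtain ⟨t, rfl⟩ := GW.Pl.ov_trans (P := PP l) ⟨h.1, PP_prime l, p_mem_PP l⟩ h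
  let ι : Qb →+* PadicAlgCl l := (io l).toRingHom.comp (t⁻¹ : GQ)
  have hι : ∀ x, ι x = io l (t⁻¹ x) := fun _ => rfl
  have key : ∀ g : GQ, g ∈ dec (t • PP l) ↔ ∃ σ, jj l σ = t⁻¹ * g * t := fun g => by
    rw [← range_jj]
    refine ⟨fun hg x => ?_, fun hg x => ?_⟩
    · rw [mul_smul, mul_smul, ← mem_smul, hg, mem_smul, inv_smul_smul]
    · rw [mem_smul, mem_smul, ← hg (t⁻¹ • x), ← mul_smul, ← mul_smul, mul_inv_cancel_right]
  have np : ‖ι l‖ = (l : ℝ)⁻¹ := by rw [map_natCast, norm_p]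
  refine ⟨(NormedField.toAbsoluteValue (PadicAlgCl l)).comp ι.injective, h.1, fun a b => ?_,
    fun g hg x => ?_, ?_, fun m x hx h1 => ?_⟩
  · show ‖ι (a + b)‖ ≤ max ‖ι a‖ ‖ι b‖
    rw [map_add]; exact IsUltrametricDist.norm_add_le_max _ _
  · obtain ⟨σ, e⟩ := (key g).1 hg
    show ‖ι (g x)‖ = ‖ι x‖
    rw [hι, hι, show t⁻¹ (g x) = jj l σ (t⁻¹ x) by rw [e]; simp, io_jj]
    exact (spectralNorm_eq_of_equiv σ _).symm
  · show ‖ι l‖ < 1
    rw [np]; exact inv_lt_one_of_one_lt₀ (by exact_mod_cast h.1.one_lt)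
  · obtain ⟨a, ha⟩ := (InfiniteGalois.mem_range_algebraMap_iff_fixed (k := ℚ_[l]) (ι x)).2
      fun σ => by
        have := hx (t * jj l σ * t⁻¹) ((key _).2 ⟨σ, by group⟩)
        rw [hι, ← io_jj]
        conv_rhs => rw [← this]
        simp
    have a1 : ‖a‖ ≤ 1 := by rw [← PadicAlgCl.norm_extends l a]; exact ha.symm ▸ h1
    let z : ℤ_[l] := ⟨a, a1⟩
    refine ⟨⟨z.appr m, z.appr_lt m⟩, ?_⟩
    have := ((z - z.appr m).norm_le_pow_iff_mem_span_pow m).2 (z.appr_spec m)
    show ‖ι (x - (z.appr m : ℕ))‖ ≤ ‖ι l‖ ^ m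
    rw [np, map_sub, ← ha, map_natCast, ← map_natCast (algebraMap ℚ_[l] (PadicAlgCl l)), ← map_sub,
      inv_pow, ← zpow_natCast, ← zpow_neg]
    exact (PadicAlgCl.norm_extends l _).trans_le this

/-- a normal basis and its dual basis -/
theorem ex_nb (Δ : Subgroup GQ) {W : Subgroup GQ} (hW : Lv ∅ W) {S : Finset GQ} (hS : Tv Δ W S) :
    ∃ θ η : Qb, (∀ w ∈ W, w θ = θ ∧ w η = η) ∧
      ∀ a ∈ Δ, ∑ h ∈ S, h (a θ * η) = open Classical in if a ∈ W then 1 else 0 := by
  classical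
  have := H443.galQb
  haveI := hW.nrm
  let E := IntermediateField.fixedField W
  have e1 : E.fixingSubgroup = W :=
    InfiniteGalois.fixingSubgroup_fixedField ⟨W, W.isClosed_of_isOpen hW.opn⟩
  haveI : FiniteDimensional ℚ E := (InfiniteGalois.isOpen_iff_finite E).1 (e1.symm ▸ hW.opn)
  haveI : IsGalois ℚ E := (InfiniteGalois.normal_iff_isGalois E).1 (e1.symm ▸ hW.nrm)
  let π : GQ →* Gal(E/ℚ) := AlgEquiv.restrictNormalHom E
  have hπ : ∀ g (x : E), (π g x : Qb) = g x := fun g x => AlgEquiv.restrictNormal_commutes g E x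
  have k1 : ∀ g, π g = 1 ↔ g ∈ W := fun g => by
    rw [← e1, IntermediateField.mem_fixingSubgroup_iff]
    exact ⟨fun e x hx => by rw [← hπ g ⟨x, hx⟩, e]; rfl,
      fun e => AlgEquiv.ext fun x => Subtype.ext ((hπ g x).trans (e x x.2))⟩
  let F := IntermediateField.fixedField (Δ.map π)
  let φ := IntermediateField.subgroupEquivAlgEquiv (Δ.map π)
  let b := IsGalois.normalBasis F E
  let c := (Algebra.traceForm F E).dualBasis (traceForm_nondegenerate F E) b
  let s : ∀ g ∈ Δ, Gal(E/F) := fun g hg => φ ⟨π g, g, hg, rfl⟩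
  have hs : ∀ g hg (x : E), (s g hg x : Qb) = g x := fun g hg x => hπ g x
  refine ⟨c 1, b 1, fun w hw => ⟨(c 1).2 ⟨w, hw⟩, (b 1).2 ⟨w, hw⟩⟩, fun a ha => ?_⟩
  have e2 : algebraMap F E (Algebra.trace F E (s a ha (c 1) * b 1)) =
      if a ∈ W then 1 else 0 := by
    have := LinearMap.BilinForm.apply_dualBasis_left
      (traceForm_nondegenerate F E) b 1 (s a ha)⁻¹
    rw [← Algebra.trace_eq_of_algEquiv (s a ha)⁻¹, map_mul, ← IsGalois.normalBasis_apply,
      ← AlgEquiv.mul_apply, inv_mul_cancel, AlgEquiv.one_apply, ← Algebra.traceForm_apply]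
    refine (congrArg _ this).trans ?_
    have : (s a ha)⁻¹ = 1 ↔ a ∈ W := by
      rw [inv_eq_one, ← k1, map_eq_one_iff φ φ.injective, Subtype.ext_iff]; rfl
    simp only [this]; split_ifs <;> simp
  have e3 := congrArg E.val e2
  rw [trace_eq_sum_automorphisms, map_sum, apply_ite E.val, map_one E.val, map_zero E.val] at e3
  rw [← e3]
  refine Finset.sum_bij (fun h hh => s h (hS.mem h hh)) (fun _ _ => Finset.mem_univ _)
    (fun g hg h hh e => hS.un g hg h hh ((k1 _).1 ?_)) (fun σ _ => ?_) fun h hh => ?_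
  · rw [map_mul, map_inv, show π g = π h from congrArg Subtype.val (φ.injective e), inv_mul_cancel]
  · obtain ⟨⟨_, g, hg, rfl⟩, rfl⟩ := φ.surjective σ
    obtain ⟨r, r1, r2⟩ := hS.ex g hg
    refine ⟨r, r1, congrArg φ (Subtype.ext ?_)⟩
    have := (k1 _).2 r2
    rwa [map_mul, map_inv, inv_mul_eq_one] at this
  · rw [← hs a ha]
    exact (hs h (hS.mem h hh) (s a ha (c 1) * b 1)).symm

namespace Nm

variable {l : ℕ} {Δ : Subgroup GQ} {v : AbsoluteValue Qb ℝ} (h : Nm l Δ v)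
include h

theorem add {x y : Qb} {c : ℝ} (a : v x ≤ c) (b : v y ≤ c) : v (x + y) ≤ c :=
  (h.na x y).trans (max_le a b)

theorem sub {x y : Qb} {c : ℝ} (a : v x ≤ c) (b : v y ≤ c) : v (x - y) ≤ c := by
  rw [sub_eq_add_neg]; exact h.add a (by rwa [v.map_neg])

theorem sum {ι : Type} (s : Finset ι) {f : ι → Qb} {c : ℝ} (c0 : 0 ≤ c) (a : ∀ i ∈ s, v (f i) ≤ c) :
    v (∑ i ∈ s, f i) ≤ c :=
  Finset.sum_induction f (fun x => v x ≤ c) (fun _ _ => h.add) (by simpa using c0) a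

theorem nat (n : ℕ) : v n ≤ 1 := by
  induction n with
  | zero => simp
  | succ n ih => rw [Nat.cast_succ]; exact h.add ih v.map_one.le

theorem int (n : ℤ) : v n ≤ 1 := by
  obtain ⟨n, rfl | rfl⟩ := n.eq_nat_or_neg <;> simpa using h.nat n

theorem one {u : Qb} (a : v (u - 1) < 1) : v u = 1 := by
  refine le_antisymm (by simpa using h.add a.le v.map_one.le) (not_lt.1 fun b => ?_)
  have := (h.na u (-(u - 1))).trans_lt (max_lt b (by rwa [v.map_neg]))
  simp at this

theorem cop {m : ℤ} {q : ℕ} (hq : q.Prime) (a : v q < 1) (b : v m < 1) : (q : ℤ) ∣ m := by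
  by_contra e
  obtain ⟨x, y, e⟩ := ((Nat.prime_iff_prime_int.1 hq).irreducible.coprime_iff_not_dvd.2 e)
  have := (h.na (x * q) (y * m)).trans_lt (max_lt
    (by rw [map_mul]; exact mul_lt_one_of_nonneg_of_lt_one_right (h.int x) (v.nonneg _) a)
    (by rw [map_mul]; exact mul_lt_one_of_nonneg_of_lt_one_right (h.int y) (v.nonneg _) b))
  rw [show (x * q + y * m : Qb) = 1 by exact_mod_cast e] at this
  simp at this

variable {p : ℕ} [Fact p.Prime]

theorem zt1 (i : ℕ) : v (zt p ^ i) = 1 := by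
  have := congrArg v (zt_pow (p := p))
  rw [map_pow, map_one, pow_eq_one_iff_of_nonneg (v.nonneg _) (Fact.out : p.Prime).ne_zero] at this
  rw [map_pow, this, one_pow]

omit h in
theorem pr : ∏ i ∈ (Finset.range p).erase 0, v (1 - zt p ^ i) = v p := by
  obtain ⟨n, e⟩ := Nat.exists_eq_succ_of_ne_zero (Fact.out : p.Prime).ne_zero
  have := IsPrimitiveRoot.prod_one_sub_pow_eq_order (n := n) (μ := zt p) (by
    rw [show n + 1 = p from e.symm]; exact zt_prim p)
  rw [← map_prod, show (p : Qb) = n + 1 by rw [e]; simp, ← this]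
  congr 1
  generalize zt p = z
  have := Finset.mul_prod_erase (Finset.range (n + 1)) (fun i => if i = 0 then 1 else 1 - z ^ i)
    (a := 0) (by simp)
  rw [Finset.prod_range_succ', if_pos rfl, one_mul, mul_one] at this
  rw [e]
  exact (Finset.prod_congr rfl fun i hi => (if_neg (Finset.ne_of_mem_erase hi)).symm).trans this

theorem tors {x : Qb} (e : x ^ p = 1) (a : v (x - 1) < v p) : x = 1 := by
  obtain ⟨i, rfl⟩ := pw_ex e
  by_contra z
  have m : i.val ∈ (Finset.range p).erase 0 :=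
    Finset.mem_erase.2 ⟨fun y => z (by rw [y, pow_zero]), Finset.mem_range.2 (ZMod.val_lt i)⟩
  rw [← pr, ← Finset.mul_prod_erase _ _ m, v.map_sub] at a
  exact a.not_ge (mul_le_of_le_one_right (v.nonneg _) (Finset.prod_le_one (fun _ _ => v.nonneg _)
    fun j _ => h.sub v.map_one.le (h.zt1 j).le))

/-- roots of elements near one -/
theorem root {u : Qb} {c : ℝ} (c1 : c < v p) (a : v (u - 1) ≤ c * v p) :
    ∃ y, y ^ p = u ∧ v (y - 1) ≤ c ∧ ∀ g ∈ Δ, g u = u → g y = y := by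
  have p0 := (Fact.out : p.Prime).pos
  have vp : 0 < v p := v.pos (Nat.cast_ne_zero.2 p0.ne')
  obtain ⟨i, -, hi⟩ := (Finset.range p).exists_min_image (fun i => v (1 - zt p ^ i * rt p u))
    ⟨0, Finset.mem_range.2 p0⟩
  have e : (zt p ^ i * rt p u) ^ p = u := by
    rw [mul_pow, rt_pow, ← pow_mul, mul_comm i, pow_mul, zt_pow, one_pow, one_mul]
  have mn : ∀ j, v (1 - zt p ^ i * rt p u) ≤ v (1 - zt p ^ j * (zt p ^ i * rt p u)) := fun j => by
    rw [← mul_assoc, ← pow_add, pow_eq_pow_mod (j + i) zt_pow]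
    exact hi _ (Finset.mem_range.2 (Nat.mod_lt _ p0))
  generalize zt p ^ i * rt p u = y at e mn
  have p1 := h.nat p
  have u1 : v u = 1 := h.one (a.trans_lt (by nlinarith))
  have y1 : v y = 1 := by
    rwa [← e, map_pow, pow_eq_one_iff_of_nonneg (v.nonneg _) p0.ne'] at u1
  have b : v (y - 1) ≤ c := by
    have := congrArg (fun f => v (Polynomial.eval 1 f)) (X_pow_sub_C_eq_prod (zt_prim p) p0 e)
    simp only [Polynomial.eval_sub, Polynomial.eval_pow, Polynomial.eval_X, Polynomial.eval_C,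
      one_pow, Polynomial.eval_prod, map_prod] at this
    rw [v.map_sub, this, ← Finset.mul_prod_erase _ _ (Finset.mem_range.2 p0), pow_zero, one_mul,
      v.map_sub] at a
    refine le_of_mul_le_mul_right (le_trans (mul_le_mul_of_nonneg_left ?_ (v.nonneg _)) a) vp
    rw [← pr]
    refine Finset.prod_le_prod (fun _ _ => v.nonneg _) fun j _ => ?_
    have := h.sub (le_refl _) (mn j)
    rwa [show 1 - zt p ^ j * y - (1 - y) = (1 - zt p ^ j) * y by ring, map_mul, y1, mul_one] at this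
  refine ⟨y, e, b, fun g hg f => ?_⟩
  have y0 : y ≠ 0 := fun z => by simp [z] at y1
  refine (div_eq_one_iff_eq y0).1 (h.tors (p := p) (by
    rw [div_pow, ← map_pow, e, f, div_self fun z => by simp [z] at u1]) ?_)
  have := h.sub ((h.inv g hg _).trans_le b) b
  rw [div_sub_one y0, map_div₀, y1, div_one]
  exact lt_of_le_of_lt (by simpa using this) c1

end Nm

end Vale.Agent.P022K.G2.Lp
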