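import Vale.Agent.P022K.G2.Tr

/-!
# P022K, block G2: rows `PRD`, `EQV`, `COORD`, `TOW`
-/

set_option linter.all false

noncomputable section

namespace Vale.Agent.P022K.G2

open Module

theorem prd : PRD := by
  intro G _ _ k _ N _ _ I Γ U ρ ω fin r h n tri mu om
  obtain ⟨R, φ, t, c, e⟩ := h
  let ν : End k N := ∑ s ∈ R, ω s⁻¹ • ρ s
  have inv : ∀ y ∈ Γ, ∀ u ∈ Γ, u ∈ U → ω (y * u)⁻¹ • ρ (y * u) = ω y⁻¹ • ρ y := by
    intro y hy u hu m
    rw [mul_inv_rev, mu.2 _ (inv_mem hu) _ (inv_mem hy), om _ (inv_mem hu) (inv_mem m), one_mul,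
      r.mul y hy u hu, tri u hu m, mul_one]
  have e1 : H0 Γ ρ ω = LinearMap.range ν := by
    apply le_antisymm
    · refine fun v hv => ⟨φ v, ?_⟩
      conv_rhs => rw [← End.one_apply (R := k) v, ← e]
      rw [LinearMap.sum_apply, LinearMap.sum_apply]
      refine Finset.sum_congr rfl fun s hs => ?_
      rw [End.mul_apply, End.mul_apply, hv _ (inv_mem (t.mem s hs)), map_smul, map_smul]
      rfl
    · rintro _ ⟨v, rfl⟩ g hg
      have : ρ g * ν = ω g • ν := by
        conv_rhs => simp only [ν]; rw [← t.sum_mul hg (fun y => ω y⁻¹ • ρ y) inv]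
        rw [Finset.mul_sum, Finset.smul_sum]
        refine Finset.sum_congr rfl fun s hs => ?_
        have ms := t.mem s hs
        rw [mul_smul_comm, r.mul g hg s ms, smul_smul, mul_inv_rev,
          mu.2 _ (inv_mem ms) _ (inv_mem hg), mul_left_comm, mu.inv hg, mul_one]
      exact LinearMap.congr_fun this v
  have e2 : Hm Γ ρ ω = LinearMap.range ν.dualMap := by
    apply le_antisymm
    · refine fun f hf => ⟨f ∘ₗ φ, ?_⟩
      ext v
      rw [LinearMap.dualMap_apply, LinearMap.comp_apply]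
      conv_rhs => rw [← End.one_apply (R := k) v, ← e]
      simp only [ν]
      rw [← t.sum_inv n (fun y => ω y⁻¹ • ρ y) inv, LinearMap.sum_apply, LinearMap.sum_apply,
        map_sum, map_sum, map_sum]
      refine Finset.sum_congr rfl fun s hs => ?_
      rw [End.mul_apply, End.mul_apply, hf s (t.mem s hs), inv_inv, LinearMap.smul_apply, map_smul,
        map_smul, smul_eq_mul]
    · rintro _ ⟨f, rfl⟩ g hg v
      have : ν * ρ g = ω g • ν := by
        conv_rhs => simp only [ν]; rw [← t.sum_mul' n hg (fun y => ω y⁻¹ • ρ y) inv]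
        rw [Finset.sum_mul, Finset.smul_sum]
        refine Finset.sum_congr rfl fun s hs => ?_
        have ms := t.mem s hs
        rw [smul_mul_assoc, r.mul s ms g hg, smul_smul, mul_inv_rev,
          mu.2 _ (inv_mem hg) _ (inv_mem ms), ← mul_assoc, mu.inv hg, one_mul]
      rw [LinearMap.dualMap_apply, LinearMap.dualMap_apply, ← End.mul_apply, this,
        LinearMap.smul_apply, map_smul, smul_eq_mul]
  rw [e1, e2, rk, rk, ← finrank_eq_rank, ← finrank_eq_rank,
    LinearMap.finrank_range_dualMap_eq_finrank_range]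

section

variable {G : Type} [Group G] [TopologicalSpace G] {k : Type} [Field k] {N : Type}
  [AddCommGroup N] [Module k N] {I : Set G} {Γ U : Subgroup G} {ρ : G → End k N}

variable (k N) in
/-- extension by zero of the restriction -/
def ind (A : Subgroup G) : (G → N) →ₗ[k] G → N where
  toFun c := (A : Set G).indicator c
  map_add' a b := Set.indicator_add' _ a b
  map_smul' r a := Set.indicator_const_smul _ r a |>.trans rfl

theorem ind_apply (A : Subgroup G) (c : G → N) : ind k N A c = (A : Set G).indicator c := rfl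

/-- the dimension of the coboundaries -/
theorem rk_b1 (r : Rp I Γ ρ) :
    rk (Z1 I Γ ρ ⊓ B1 Γ ρ) + rk (H0 Γ ρ fun _ => 1) = Module.rank k N := by
  have h := LinearMap.rank_range_add_rank_ker (ind k N Γ ∘ₗ d0 ρ)
  have e1 : LinearMap.range (ind k N Γ ∘ₗ d0 ρ) = Z1 I Γ ρ ⊓ B1 Γ ρ := by
    refine le_antisymm ?_ fun c ⟨h1, n, h2⟩ => ⟨n, funext fun g => ?_⟩
    · rintro _ ⟨n, rfl⟩
      exact ⟨d0_mem r n, n, fun g hg => Set.indicator_of_mem hg _⟩
    · by_cases hg : g ∈ Γ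
      · exact (Set.indicator_of_mem hg _).trans (h2 g hg).symm
      · exact (Set.indicator_of_notMem hg _).trans (h1.2.1 g hg).symm
  have e2 : LinearMap.ker (ind k N Γ ∘ₗ d0 ρ) = H0 Γ ρ fun _ => 1 := by
    ext n
    refine ⟨fun h g hg => ?_, fun h => funext fun g => ?_⟩
    · have := (Set.indicator_of_mem hg _).symm.trans (congrFun h g)
      rw [one_smul]; exact sub_eq_zero.1 this
    · by_cases hg : g ∈ Γ
      · refine (Set.indicator_of_mem hg _).trans ?_
        rw [d0_apply, h g hg, one_smul, sub_self]; rfl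
      · exact Set.indicator_of_notMem hg _
  rwa [e1, e2] at h

theorem Z1.inv {c : G → N} (hc : c ∈ Z1 I Γ ρ) (r : Rp I Γ ρ) {g : G} (hg : g ∈ Γ) :
    c g + ρ g (c g⁻¹) = 0 := by
  rw [← hc.1 g hg _ (inv_mem hg), mul_inv_cancel, Z1.one hc r.one]

/-- conjugation of an element which acts trivially -/
theorem Z1.cj {c : G → N} (hc : c ∈ Z1 I Γ ρ) (r : Rp I Γ ρ) {g u : G} (hg : g ∈ Γ) (hu : u ∈ Γ)
    (t : ρ u = 1) : c (g * u * g⁻¹) = ρ g (c u) := by
  rw [hc.1 _ (mul_mem hg hu) _ (inv_mem hg), hc.1 g hg u hu, r.mul' hg hu, t, End.one_apply,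
    add_right_comm, Z1.inv hc r hg, zero_add]

end

theorem eqv : EQV := by
  intro G _ _ k _ N _ _ I Γ U ρ r h n tri le
  let f : Z1 I Γ ρ →ₗ[k] G → N := ind k N (Γ ⊓ U) ∘ₗ (Z1 I Γ ρ).subtype
  have h0 := LinearMap.rank_range_add_rank_ker f
  have nm : ∀ g ∈ Γ, ∀ u ∈ Γ ⊓ U, g * u * g⁻¹ ∈ Γ ⊓ U := fun g hg u hu =>
    ⟨Γ.mul_mem (Γ.mul_mem hg hu.1) (Γ.inv_mem hg), n g hg u hu.2⟩
  have e1 : LinearMap.range f = Eq1 I Γ U ρ := by
    refine le_antisymm ?_ fun b hb => ?_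
    · rintro _ ⟨c, rfl⟩
      refine ⟨Z1.res c.2 subset_rfl inf_le_left, fun g hg u hu => ?_⟩
      refine (Set.indicator_of_mem (nm g hg u hu) _).trans ?_
      rw [show f c u = c.1 u from Set.indicator_of_mem hu _]
      exact Z1.cj c.2 r hg hu.1 (tri u hu.1 hu.2)
    · obtain ⟨R, P, t, p1, p2, p3⟩ := h.fam r
      obtain ⟨τ, t1, t2, -⟩ := t.rep
      obtain ⟨W₁, l1, w1⟩ := le
      obtain ⟨W₂, l2, w2⟩ := hb.1.2.2
      let β : G → N := fun y => b (y * (τ y)⁻¹)
      have b1 : ∀ y ∈ Γ, ∀ u ∈ Γ, u ∈ U → β (y * u) = β y + ρ y (b u) := by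
        intro y hy u hu m
        have m1 := t.mem _ (t1 y hy).1
        have m2 : y * (τ y)⁻¹ ∈ Γ ⊓ U := ⟨Γ.mul_mem hy (Γ.inv_mem m1), by
          simpa [mul_assoc] using n _ m1 _ (t1 y hy).2⟩
        simp only [β, t2 y hy u hu m]
        rw [show y * u * (τ y)⁻¹ = y * u * y⁻¹ * (y * (τ y)⁻¹) by group,
          hb.1.1 _ (nm y hy u ⟨hu, m⟩) _ m2, hb.2 y hy u ⟨hu, m⟩,
          tri _ (nm y hy u ⟨hu, m⟩).1 (nm y hy u ⟨hu, m⟩).2, add_comm]
        rfl
      let e : G → G → N := fun g x => β (g * x) - ρ g (β x)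
      have e1 : ∀ g ∈ Γ, ∀ x ∈ Γ, ∀ u ∈ Γ, u ∈ U → e g (x * u) = e g x := by
        intro g hg x hx u hu m
        simp only [e, ← mul_assoc, b1 x hx u hu m, b1 _ (mul_mem hg hx) u hu m, map_add,
          r.mul' hg hx]
        abel
      let c : G → N := fun g => ∑ s ∈ R, P (g * s) (e g s)
      have c1 : ∀ u ∈ Γ ⊓ U, c u = b u := by
        intro u hu
        rw [← p3 u hu.1 (b u)]
        refine Finset.sum_congr rfl fun s hs => congrArg _ ?_
        have ms := t.mem s hs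
        have m := nm _ (inv_mem ms) u hu
        have := hb.2 s ms _ m
        rw [inv_inv] at m this
        simp only [e]
        rw [show u * s = s * (s⁻¹ * u * s) by group, b1 s ms _ m.1 m.2, ← this, tri u hu.1 hu.2,
          show s * (s⁻¹ * u * s) * s⁻¹ = u by group]
        exact add_sub_cancel_left _ _
      have c2 : ∀ g ∈ Γ, ∀ y ∈ Γ, c (g * y) = c g + ρ g (c y) := by
        intro g hg y hy
        simp only [c]
        rw [← t.sum_mul hy (fun x => P (g * x) (e g x)) fun x hx u hu m => by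
          rw [← mul_assoc, p1 _ (mul_mem hg hx) u hu m, e1 g hg x hx u hu m], map_sum,
          ← Finset.sum_add_distrib]
        refine Finset.sum_congr rfl fun s hs => ?_
        rw [p2 g hg _ (mul_mem hy (t.mem s hs)), ← mul_assoc, ← map_add]
        congr 1
        simp only [e, map_sub, r.mul' hg hy, mul_assoc]
        abel
      refine ⟨⟨(Γ : Set G).indicator c, fun g hg y hy => ?_, fun g hg =>
        Set.indicator_of_notMem hg _, W₁ ⊓ W₂, l1.inf l2, fun w hw m => ?_⟩, funext fun g => ?_⟩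
      · rw [Set.indicator_of_mem (mul_mem hg hy), Set.indicator_of_mem hg, Set.indicator_of_mem hy,
          c2 g hg y hy]
      · rw [Set.indicator_of_mem hw, c1 w ⟨hw, w1 w hw m.1⟩, w2 w ⟨hw, w1 w hw m.1⟩ m.2]
      · by_cases hg : g ∈ Γ ⊓ U
        · exact (Set.indicator_of_mem hg _).trans ((Set.indicator_of_mem hg.1 _).trans (c1 g hg))
        · exact (Set.indicator_of_notMem hg _).trans (hb.1.2.1 g hg).symm
  have e2 : LinearMap.ker f = (Z1 I Γ ρ ⊓ B1 Γ ρ).comap (Z1 I Γ ρ).subtype := by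
    ext c
    refine ⟨fun hc => ⟨c.2, tr1 G k N I Γ U ρ c r h c.2 ⟨0, fun u hu => ?_⟩⟩,
      fun ⟨_, v, hv⟩ => funext fun g => ?_⟩
    · rw [map_zero]
      exact (Set.indicator_of_mem hu _).symm.trans (congrFun hc u)
    · by_cases hg : g ∈ Γ ⊓ U
      · refine (Set.indicator_of_mem hg _).trans ((hv g hg.1).trans ?_)
        rw [d0_apply, tri g hg.1 hg.2]; exact sub_self _
      · exact Set.indicator_of_notMem hg _
  rw [e1, e2, (Submodule.comapSubtypeEquivOfLe inf_le_left).rank_eq] at h0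
  rw [rk, ← h0, add_assoc, rk_b1 r]

section

variable {G : Type} [Group G] [TopologicalSpace G] {k k' : Type} [Field k] [Field k'] {N N' : Type}
  [AddCommGroup N] [Module k N] [AddCommGroup N'] [Module k' N'] {I : Set G} {Γ : Subgroup G}
  {ρ : G → End k N} {ρ' : G → End k' N'}

theorem C1.amap {c : G → N} (h : c ∈ C1 k N I Γ) (f : N → N') :
    (fun g => f (c g)) ∈ C1 k' N' I Γ :=
  h.imp fun _ hW => ⟨hW.1, fun g hg w hw m => congrArg f (hW.2 g hg w hw m)⟩

theorem C2.amap {z : G → G → N} (h : z ∈ C2 k N I Γ) (f : N → N') :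
    (fun g j => f (z g j)) ∈ C2 k' N' I Γ :=
  h.imp fun _ hW => ⟨hW.1, fun g hg j hj w hw m =>
    ⟨congrArg f (hW.2 g hg j hj w hw m).1, congrArg f (hW.2 g hg j hj w hw m).2⟩⟩

theorem Z1.amap {c : G → N} (h : c ∈ Z1 I Γ ρ) (f : N →+ N')
    (e : ∀ g ∈ Γ, ∀ n, f (ρ g n) = ρ' g (f n)) : (fun g => f (c g)) ∈ Z1 I Γ ρ' :=
  ⟨fun g hg j hj => by beta_reduce; rw [h.1 g hg j hj, map_add, e g hg],
    fun g hg => by beta_reduce; rw [h.2.1 g hg, map_zero],
    h.2.2.imp fun _ hW => ⟨hW.1, fun w hw m => by beta_reduce; rw [hW.2 w hw m, map_zero]⟩⟩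

theorem B1.amap {c : G → N} (h : c ∈ B1 Γ ρ) (f : N →+ N')
    (e : ∀ g ∈ Γ, ∀ n, f (ρ g n) = ρ' g (f n)) : (fun g => f (c g)) ∈ B1 Γ ρ' := by
  obtain ⟨n, h⟩ := h
  exact ⟨f n, fun g hg => by beta_reduce; rw [h g hg, d0_apply, d0_apply, map_sub, e g hg]⟩

theorem Z2.amap {z : G → G → N} (h : z ∈ Z2 I Γ ρ) (f : N →+ N')
    (e : ∀ g ∈ Γ, ∀ n, f (ρ g n) = ρ' g (f n)) : (fun g j => f (z g j)) ∈ Z2 I Γ ρ' :=
  ⟨fun g hg j hj l hl => by
    beta_reduce; rw [← e g hg, ← map_add, h.1 g hg j hj l hl, map_add], C2.amap h.2 f⟩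

theorem B2.amap {z : G → G → N} (h : z ∈ B2 I Γ ρ) (f : N →+ N')
    (e : ∀ g ∈ Γ, ∀ n, f (ρ g n) = ρ' g (f n)) : (fun g j => f (z g j)) ∈ B2 I Γ ρ' := by
  obtain ⟨c, hc, h⟩ := h
  exact ⟨_, C1.amap hc f, fun g hg j hj => by
    beta_reduce; rw [h g hg j hj, d1_apply, d1_apply, map_add, map_sub, e g hg]⟩

end

theorem coord0 {G : Type} [Group G] [TopologicalSpace G] {F k : Type} [Field F] [Field k]
    {N : Type} [AddCommGroup N] [Module k N] [Module F N] [Finite N] {I : Set G} {A : Subgroup G}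
    {Ds : Set (Subgroup G)} {ρ : G → End k N} (tri : ∀ g ∈ A, ρ g = 1) (le : ∀ D ∈ Ds, D ≤ A)
    (H : ∀ z ∈ Z2 I A (tr G F), (∀ D ∈ Ds, z ∈ B2 ∅ D (tr G F)) → z ∈ B2 I A (tr G F))
    {z : G → G → N} (hz : z ∈ Z2 I A ρ) (hD : ∀ D ∈ Ds, z ∈ B2 ∅ D ρ) : z ∈ B2 I A ρ := by
  let b := Module.finBasis F N
  have e : z = ∑ i, fun g j => b.coord i (z g j) • b i := funext fun g => funext fun j => by
    rw [Finset.sum_apply, Finset.sum_apply]; exact (b.sum_repr (z g j)).symm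
  rw [e]
  refine Submodule.sum_mem _ fun i _ => ?_
  have h1 := H _ (Z2.amap (ρ' := tr G F) hz (b.coord i).toAddMonoidHom fun g hg n => by
    rw [tri g hg]; rfl) fun D m => B2.amap (hD D m) (b.coord i).toAddMonoidHom fun g hg n => by
      rw [tri g (le D m hg)]; rfl
  exact B2.amap h1 (LinearMap.toSpanSingleton F N (b i)).toAddMonoidHom fun g hg n => by
    rw [tri g hg]; rfl

theorem coord : COORD := by
  intro p _ G _ _ k _ _ _ N _ _ I A Ds ρ fin tri le H z hz hD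
  haveI : Finite N := Module.finite_of_finite k
  exact @coord0 G _ _ (ZMod p) k _ _ N _ _ (AddCommGroup.zmodModule fun x => by
    rw [← Nat.cast_smul_eq_nsmul k, CharP.cast_eq_zero, zero_smul]) _ I A Ds ρ tri le H z hz hD

/-- a chain of steps of index `p` from a normal subgroup to a subgroup of index prime to `p` -/
theorem chain (p : ℕ) [Fact p.Prime] {X : Type} [Group X] (N : Subgroup X) [N.Normal]
    [N.FiniteIndex] (Q : Subgroup X → Prop) (h0 : Q N)
    (hs : ∀ V W : Subgroup X, N ≤ W → ∀ η : X → ZMod p,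
      (∀ g ∈ V, ∀ h ∈ V, η (g * h) = η g + η h) → (∀ g, g ∈ W ↔ g ∈ V ∧ η g = 0) → Q W → Q V) :
    ∃ P, N ≤ P ∧ ¬ p ∣ P.index ∧ Q P := by
  classical
  have hp : p.Prime := Fact.out
  let π := QuotientGroup.mk' N
  have sur : Function.Surjective π := QuotientGroup.mk'_surjective N
  have le : ∀ K : Subgroup (X ⧸ N), N ≤ K.comap π := fun K g hg => by
    rw [Subgroup.mem_comap, show π g = 1 from (QuotientGroup.eq_one_iff g).2 hg]
    exact K.one_mem
  have key : ∀ n, p ^ n ∣ Nat.card (X ⧸ N) →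
      ∃ K : Subgroup (X ⧸ N), Nat.card K = p ^ n ∧ Q (K.comap π) := by
    intro n
    induction n with
    | zero =>
      refine fun _ => ⟨⊥, by simp, ?_⟩
      rwa [MonoidHom.comap_bot, QuotientGroup.ker_mk']
    | succ n ih =>
      intro hd
      obtain ⟨K, c, q⟩ := ih (dvd_trans (pow_dvd_pow p n.le_succ) hd)
      obtain ⟨K', c', l⟩ := Sylow.exists_subgroup_card_pow_succ hd c
      have ix : (K.subgroupOf K').index = p := by
        have := (K.subgroupOf K').card_mul_index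
        rw [Nat.card_congr (Subgroup.subgroupOfEquivOfLe l).toEquiv, c, c', pow_succ] at this
        exact Nat.eq_of_mul_eq_mul_left (pow_pos hp.pos n) this
      haveI : (K.subgroupOf K').Normal := Subgroup.normal_of_index_eq_minFac_card (by
        rw [ix, c', hp.pow_minFac n.succ_ne_zero])
      let ε : (K' ⧸ K.subgroupOf K') ≃* Multiplicative (ZMod p) :=
        mulEquivOfPrimeCardEq (p := p) ix (by simp)
      refine ⟨K', c', hs _ _ (le K)
        (fun g => if h : π g ∈ K' then (ε (⟨π g, h⟩ : K')).toAdd else 0)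
        (fun g hg h hh => ?_) (fun g => ?_) q⟩
      · have hg' : π g ∈ K' := hg
        have hh' : π h ∈ K' := hh
        have m : π (g * h) ∈ K' := (K'.comap π).mul_mem hg hh
        rw [dif_pos hg', dif_pos hh', dif_pos m, ← toAdd_mul, ← map_mul, ← QuotientGroup.mk_mul]
        rfl
      · refine ⟨fun m => ⟨l m, ?_⟩, fun ⟨m, e⟩ => ?_⟩
        · rw [dif_pos (l m), (QuotientGroup.eq_one_iff (N := K.subgroupOf K') _).2 m, map_one]
          rfl
        · have m' : π g ∈ K' := m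
          rw [dif_pos m', toAdd_eq_zero, map_eq_one_iff _ ε.injective,
            QuotientGroup.eq_one_iff] at e
          exact e
  have ne : Nat.card (X ⧸ N) ≠ 0 := Nat.card_pos.ne'
  obtain ⟨n, m, hm, e⟩ := Nat.exists_eq_pow_mul_and_not_dvd ne p hp.ne_one
  obtain ⟨K, c, q⟩ := key n ⟨m, e⟩
  refine ⟨_, le K, ?_, q⟩
  rw [Subgroup.index_comap_of_surjective _ sur]
  have := K.card_mul_index
  rw [c, e] at this
  rwa [Nat.eq_of_mul_eq_mul_left (pow_pos hp.pos n) this]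

/-- the same below a subgroup -/
theorem tower (p : ℕ) [Fact p.Prime] {G : Type} [Group G] [TopologicalSpace G] {I : Set G}
    (A W : Subgroup G) (l : Lv I W) (Pp : Subgroup G → Prop) (h0 : Pp (A ⊓ W))
    (hs : ∀ A' A'' (η : G → ZMod p), A' ≤ A → A ⊓ W ≤ A'' → Ch A' η →
      (∀ g, g ∈ A'' ↔ g ∈ A' ∧ η g = 0) → Pp A'' → Pp A') :
    ∃ S, S ≤ A ∧ A ⊓ W ≤ S ∧ ¬ p ∣ S.relIndex A ∧ Pp S := by
  classical
  haveI := l.nrm
  haveI := l.fin
  have mm : ∀ (V : Subgroup A) (g : G), g ∈ V.map A.subtype ↔ ∃ h : g ∈ A, (⟨g, h⟩ : A) ∈ V :=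
    fun V g => ⟨fun ⟨x, m, e⟩ => by subst e; exact ⟨x.2, m⟩, fun ⟨h, m⟩ => ⟨_, m, rfl⟩⟩
  obtain ⟨P, h1, h2, h3⟩ := chain p (W.subgroupOf A) (fun V => Pp (V.map A.subtype))
    (by rw [Subgroup.subgroupOf_map_subtype, inf_comm]; exact h0) fun V V' le η a e q => by
      refine hs _ _ (fun g => if h : g ∈ A then η ⟨g, h⟩ else 0) (Subgroup.map_subtype_le V)
        (fun g m => (mm _ g).2 ⟨m.1, le m.2⟩) ⟨fun g hg h hh => ?_, W, l.mono (Set.empty_subset _),
          fun w hw m => ?_⟩ (fun g => ?_) q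
      · obtain ⟨hg, m⟩ := (mm _ g).1 hg
        obtain ⟨hh, m'⟩ := (mm _ h).1 hh
        beta_reduce
        rw [dif_pos hg, dif_pos hh, dif_pos (mul_mem hg hh)]
        exact a _ m _ m'
      · obtain ⟨hw, -⟩ := (mm _ w).1 hw
        beta_reduce
        rw [dif_pos hw]
        exact ((e ⟨w, hw⟩).1 (le m)).2
      · beta_reduce
        rw [mm, mm]
        exact ⟨fun ⟨h, m⟩ => ⟨⟨h, ((e _).1 m).1⟩, by rw [dif_pos h]; exact ((e _).1 m).2⟩,
          fun ⟨⟨h, m⟩, z⟩ => ⟨h, (e _).2 ⟨m, by rwa [dif_pos h] at z⟩⟩⟩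
  refine ⟨_, Subgroup.map_subtype_le P, fun g m => (mm _ g).2 ⟨m.1, h1 m.2⟩, ?_, h3⟩
  rwa [Subgroup.relIndex, Subgroup.subgroupOf,
    Subgroup.comap_map_eq_self_of_injective A.subtype_injective]

theorem tow : TOW := by
  intro p _ G _ _ A z Pp hz h0 hs ho
  obtain ⟨W, l, w⟩ := hz.2
  obtain ⟨S, s1, s2, s3, s4⟩ := tower p A W l Pp
    (h0 _ inf_le_left ⟨W, l, fun g a b => ⟨a, b⟩⟩ ⟨fun _ => z 1 1, ⟨⊤, Lv.top _,
      fun _ _ _ _ _ => rfl⟩, fun g hg h hh => by
        have e1 := (w 1 (one_mem _) h hh.1 g hg.1 hg.2).1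
        have e2 := (w 1 (one_mem _) 1 (one_mem _) h hh.1 hh.2).2
        rw [one_mul] at e1 e2
        rw [d1_apply, tr_apply, e1, e2]; ring⟩)
    fun A' A'' η a b => hs A' A'' η a ⟨W, l, fun g x y => b ⟨x, y⟩⟩
  exact ho A S s1 le_rfl ⟨W, l, fun g x y => s2 ⟨x, y⟩⟩ s3 s4

end Vale.Agent.P022K.G2
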