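import Vale.Agent.P022K.G2.LpcA
import Vale.Agent.P022K.G2.LpcB
import Vale.Agent.P022K.G2.Kd
import Vale.Agent.P022K.G2.Tr2

/-!
# P022K, block G2: the local count for projective modules (row `LPC`)
-/

set_option linter.all false

noncomputable section

namespace Vale.Agent.P022K.G2

open NumberField Module Hq
open Vale.Agent.P022 Vale.Agent.P022.C
open Vale.Agent.P022D.W (dec)
open Vale.Agent.P022E.GW (Ov)

namespace Lp

variable {l : ℕ} {Δ D U W : Subgroup GQ} {v : AbsoluteValue Qb ℝ} {k : Type} [Field k] {N : Type}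
  [AddCommGroup N] [Module k N] {ρ : GQ → End k N} {ω : GQ → k} (p : ℕ) [Fact p.Prime] [CharP k p]

theorem fix_st (n : Nz D U) {g : GQ} (hg : g ∈ D) {x : Qb} (h : ∀ u ∈ D ⊓ U, u x = x) :
    ∀ u ∈ D ⊓ U, u (g x) = g x := fun u hu => by
  conv_rhs => rw [← h _ ⟨cj_mem hg hu.1, n.conj' hg hu.2⟩]
  simp

/-- the integers fixed by `A` -/
def Oz (h : Nm l Δ v) (A : Subgroup GQ) : AddSubgroup Qb where
  carrier := {x | (∀ g ∈ A, g x = x) ∧ v x ≤ 1}
  add_mem' ha hb := ⟨fun g hg => by rw [map_add, ha.1 g hg, hb.1 g hg], h.add ha.2 hb.2⟩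
  zero_mem' := ⟨fun g _ => map_zero g, by simp⟩
  neg_mem' ha := ⟨fun g hg => by rw [map_neg, ha.1 g hg], by rw [v.map_neg]; exact ha.2⟩

/-- the action on the additive group -/
def aa (g : GQ) : Qb →+ Qb := AddMonoidHom.mk' g (map_add g)

theorem oz_st (h : Nm l Δ v) (le : D ≤ Δ) (n : Nz D U) :
    ∀ g ∈ D, ∀ x ∈ Oz h (D ⊓ U), aa g x ∈ Oz h (D ⊓ U) :=
  fun g hg x hx => ⟨fix_st n hg hx.1, (h.inv g (le hg) x).trans_le hx.2⟩

theorem oz_ac (h : Nm l Δ v) (le : D ≤ Δ) (n : Nz D U) : Ac D U (res aa _ (oz_st h le n)) :=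
  ac_fix (fun _ _ _ => rfl) _ fun u hu m x hx => hx.1 u ⟨hu, m⟩

theorem Nm.pos (h : Nm l Δ v) : 0 < v l := v.pos (Nat.cast_ne_zero.2 h.pri.ne_zero)

/-- a set is totally bounded -/
def Tb (v : AbsoluteValue Qb ℝ) (S : Set Qb) : Prop := ∀ ε : ℝ, 0 < ε →
  ∃ (C : Type) (_ : Finite C) (c : Qb → C), ∀ x ∈ S, ∀ y ∈ S, c x = c y → v (x - y) ≤ ε

theorem tb0 (h : Nm l Δ v) : Tb v (Oz h Δ) := fun ε e => by
  obtain ⟨m, hm⟩ := exists_pow_lt_of_lt_one e h.lt
  haveI : Nonempty (Fin (l ^ m)) := ⟨⟨0, pow_pos h.pri.pos m⟩⟩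
  choose! c hc using h.ap m
  refine ⟨_, inferInstance, c, fun x hx y hy e => ?_⟩
  have := h.sub (hc x hx.1 hx.2) (hc y hy.1 hy.2)
  rw [e, sub_sub_sub_cancel_right] at this
  exact this.trans hm.le

theorem rk0 (h : Nm l Δ v) (fin : Module.Finite k N) : Module.rank k (Oz h Δ →+ Dual k N) =
    (if l = p then 1 else 0 : ℕ) * Module.rank k N := by
  have hp : p.Prime := Fact.out
  have p0 : (p : Qb) ≠ 0 := Nat.cast_ne_zero.2 hp.ne_zero
  have dv : ∀ x : Qb, (∀ g ∈ Δ, g x = x) → v x ≤ v p → ∃ y : Oz h Δ, x = p * y := fun x a b =>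
    ⟨⟨x / p, fun g hg => by rw [map_div₀, a g hg, map_natCast], by
      rw [map_div₀]; exact div_le_one_of_le₀ b (v.nonneg _)⟩, (mul_div_cancel₀ x p0).symm⟩
  split_ifs with e
  · subst e
    have := ev_bij (k := k) (N := N) l (b := (⟨1, fun g _ => map_one g, v.map_one.le⟩ : Oz h Δ))
      (fun x => by
        obtain ⟨a, ha⟩ := h.ap 1 x x.2.1 x.2.2
        obtain ⟨y, hy⟩ := dv (x - (a : ℕ)) (fun g hg => by rw [map_sub, x.2.1 g hg, map_natCast])
          (by simpa using ha)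
        exact ⟨(a : ℕ), y, Subtype.ext (by simp [← hy])⟩) fun m y e => h.cop hp h.lt (by
        have : (m : Qb) = l * y := by simpa using congrArg Subtype.val e
        rw [this, map_mul]
        exact mul_lt_one_of_nonneg_of_lt_one_left (v.nonneg _) h.lt y.2.2)
    rw [(LinearEquiv.ofBijective _ this).rank_eq, ← (Module.finBasis k N).toDualEquiv.rank_eq]
    simp
  · have p1 : 1 ≤ v p := not_lt.1 fun a => e ((Nat.prime_dvd_prime_iff_eq h.pri hp).1
      (Int.natCast_dvd_natCast.1 (h.cop h.pri h.lt (by simpa using a))))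
    haveI : Subsingleton (Oz h Δ →+ Dual k N) := subsingleton_of_forall_eq 0 fun f =>
      AddMonoidHom.ext fun x => by
        obtain ⟨y, hy⟩ := dv x x.2.1 (x.2.2.trans p1)
        rw [show x = p • y from Subtype.ext (by simpa using hy), map_nsmul, p_dual]; rfl
    simp [rank_subsingleton']

include p in
/-- the lattice of a normal basis -/
theorem lat (h : Nm l Δ v) (hP : Pd ∅ D U ρ ω) (le : D ≤ Δ) (hW : Lv ∅ W)
    (lw : ∀ w ∈ Δ, w ∈ W → w ∈ D ⊓ U) {T : Finset GQ} (hT : Tv Δ D T) :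
    Tb v (Oz h (D ⊓ U)) ∧ rk (Ev D (res aa _ (oz_st h le hP.nz)) ρ ω) =
      T.card * Module.rank k (Oz h Δ →+ Dual k N) := by
  classical
  have nW : Nz Δ W := fun g _ u hu => hW.nrm.conj_mem u hu g
  obtain ⟨S, hS⟩ := ex_tv (Γ := Δ) (U := W) (Le.relIndex ⟨W, hW, fun _ _ m => m⟩)
  obtain ⟨θ, η, f0, nb, η1⟩ : ∃ θ η : Qb, (∀ w ∈ W, w θ = θ ∧ w η = η) ∧
      (∀ a ∈ Δ, ∑ s ∈ S, s (a θ * η) = if a ∈ W then 1 else 0) ∧ v η ≤ 1 := by
    obtain ⟨θ, η, f0, nb⟩ := ex_nb Δ hW hS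
    obtain ⟨m, hm⟩ := exists_pow_lt_of_lt_one (inv_pos.2 (show 0 < v η + 1 by positivity)) h.lt
    have l0 : (l : Qb) ^ m ≠ 0 := pow_ne_zero m (Nat.cast_ne_zero.2 h.pri.ne_zero)
    refine ⟨θ / l ^ m, l ^ m * η, fun w hw => by simp [(f0 w hw).1, (f0 w hw).2], fun a ha => ?_, ?_⟩
    · rw [← nb a ha, map_div₀, map_pow, map_natCast, ← mul_assoc, div_mul_cancel₀ _ l0]
    · rw [map_mul, map_pow]
      rw [inv_eq_one_div, lt_div_iff₀ (by positivity)] at hm
      have := pow_pos h.pos m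
      nlinarith
  let Fx : Qb → Prop := fun y => ∀ w ∈ Δ, w ∈ W → w y = y
  have fa : ∀ {y}, Fx y → ∀ a ∈ Δ, Fx (a y) := fun hy a ha w hw m => by
    conv_rhs => rw [← hy _ (cj_mem ha hw) (hW.cj m a)]
    simp
  have fm : ∀ {x y}, Fx x → Fx y → Fx (x * y) := fun hx hy w hw m => by
    rw [map_mul, hx w hw m, hy w hw m]
  have fθ : Fx θ := fun w _ m => (f0 w m).1
  have fη : Fx η := fun w _ m => (f0 w m).2
  have iv : ∀ {y}, Fx y → ∀ s ∈ Δ, ∀ u ∈ Δ, u ∈ W → (s * u) y = s y := fun hy s _ u hu m => by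
    rw [AlgEquiv.mul_apply, hy u hu m]
  have t1 : ∀ {y}, Fx y → ∀ d ∈ Δ, ∑ s ∈ S, s (d y) = ∑ s ∈ S, s y := fun hy d hd =>
    hS.sum_mul' nW hd (fun s => s _) (iv hy)
  have t2 : ∀ {y}, Fx y → ∀ d ∈ Δ, d (∑ s ∈ S, s y) = ∑ s ∈ S, s y := fun hy d hd => by
    rw [map_sum]; exact hS.sum_mul hd (fun s => s _) (iv hy)
  have ex : ∀ {x}, Fx x → x = ∑ a ∈ S, (∑ s ∈ S, s (a⁻¹ x * η)) * a θ := fun {x} hx => by
    let A : Matrix S S Qb := .of fun a g => g.1 (a.1 θ)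
    let B : Matrix S S Qb := .of fun g b => g.1 (b.1 η)
    have e : A * B = 1 := Matrix.ext fun a b => by
      have a1 := hS.mem _ a.2
      have b1 := hS.mem _ b.2
      have m := mul_mem (inv_mem b1) a1
      have := t1 (fm (fa fθ _ m) fη) b b1
      rw [nb _ m, ← Finset.sum_coe_sort] at this
      rw [Matrix.mul_apply, Matrix.one_apply,
        if_congr (show a = b ↔ b.1⁻¹ * a ∈ W from ⟨fun e => by simp [e],
          fun e => Subtype.ext (hS.un _ b.2 _ a.2 e).symm⟩) rfl rfl, ← this]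
      exact Finset.sum_congr rfl fun g _ => by simp [A, B]
    obtain ⟨s, s1, s2⟩ := hS.ex 1 (one_mem _)
    rw [mul_one, inv_mem_iff] at s2
    have e' : ∀ g : S, ∑ a : S, g.1 (a.1 η) * a.1 θ = if g = ⟨s, s1⟩ then 1 else 0 := fun g => by
      have : (B * A) g ⟨s, s1⟩ = (1 : Matrix S S Qb) g ⟨s, s1⟩ := by rw [mul_eq_one_comm.1 e]
      rw [Matrix.mul_apply, Matrix.one_apply] at this
      rw [← this]
      exact Finset.sum_congr rfl fun a _ => by
        rw [← fa fθ _ (hS.mem _ a.2) s (hS.mem _ s1) s2]; rfl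
    rw [Finset.sum_congr rfl fun a ha => by
      rw [← t1 (fm (fa hx _ (inv_mem (hS.mem a ha))) fη) a (hS.mem a ha), Finset.sum_mul],
      Finset.sum_comm, ← Finset.sum_coe_sort,
      Finset.sum_congr rfl (g := fun g : S => g.1 x * if g = ⟨s, s1⟩ then 1 else 0) fun g _ => by
        rw [← e', Finset.mul_sum, ← Finset.sum_coe_sort]
        exact Finset.sum_congr rfl fun a _ => by simp [mul_assoc]]
    simp [hx s (hS.mem _ s1) s2]
  have fo : ∀ x ∈ Oz h (D ⊓ U), Fx x := fun x hx w hw m => hx.1 w (lw w hw m)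
  have mem : ∀ x ∈ Oz h (D ⊓ U), ∀ g ∈ Δ, ∑ s ∈ S, s (g x * η) ∈ Oz h Δ := fun x hx g hg =>
    ⟨t2 (fm (fa (fo x hx) g hg) fη), h.sum _ zero_le_one fun s hs => by
      rw [h.inv s (hS.mem s hs), map_mul, h.inv g hg]
      exact mul_le_one₀ hx.2 (v.nonneg _) η1⟩
  have bd : ∀ (φ : GQ → Qb) (ε : ℝ), 0 < ε → (∀ a ∈ S, v (φ a) ≤ ε / (v θ + 1)) →
      v (∑ a ∈ S, φ a * a θ) ≤ ε := fun φ ε e b => h.sum _ e.le fun a ha => by
    have := (le_div_iff₀ (by positivity)).1 (b a ha)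
    rw [map_mul, h.inv a (hS.mem a ha)]
    nlinarith [v.nonneg (φ a)]
  refine ⟨fun ε e => ?_, ?_⟩
  · obtain ⟨C, _, c, hc⟩ := tb0 h (ε / (v θ + 1)) (by positivity)
    refine ⟨S → C, inferInstance, fun x a => c (∑ s ∈ S, s (a.1⁻¹ x * η)), fun x hx y hy e' => ?_⟩
    rw [ex (fo _ (sub_mem hx hy))]
    refine bd _ ε e fun a ha => ?_
    have := hc _ (mem x hx _ (inv_mem (hS.mem a ha))) _ (mem y hy _ (inv_mem (hS.mem a ha)))
      (congrFun e' ⟨a, ha⟩)
    simpa only [map_sub, sub_mul, Finset.sum_sub_distrib] using this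
  let j : Oz h (D ⊓ U) →+ La D U Δ (Oz h Δ) := AddMonoidHom.mk' (fun x =>
    ⟨fun g => if m : g ∈ Δ then ⟨_, mem x x.2 g m⟩ else 0, fun g hg u hu m => by
      simp only [dif_pos hg, dif_pos (mul_mem hg (le hu)), AlgEquiv.mul_apply, x.2.1 u ⟨hu, m⟩],
      fun g hg => dif_neg hg⟩) fun x y => Subtype.ext (funext fun g => by
        simp only [AddSubgroup.coe_add, Pi.add_apply]
        split_ifs
        · exact Subtype.ext (by simp [add_mul, Finset.sum_add_distrib])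
        · simp)
  have hj : ∀ x, ∀ g ∈ Δ, ((j x).1 g : Qb) = ∑ s ∈ S, s (g x * η) := fun x g hg =>
    congrArg Subtype.val (dif_pos hg)
  obtain ⟨C, _, c, hc⟩ := tb0 h (1 / (v θ + 1)) (by positivity)
  have p0 : (p : Qb) ≠ 0 := Nat.cast_ne_zero.2 (Fact.out : p.Prime).ne_zero
  have := fi p hP (la_ac le hP.nz) (oz_ac h le hP.nz) j (fun g hg x => Subtype.ext (funext fun y => by
      rw [res_coe _ hg]
      by_cases hy : y ∈ Δ
      · refine Subtype.ext ((hj _ y hy).trans (.trans ?_ (hj x _ (mul_mem hy (le hg))).symm))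
        rw [res_coe _ hg]; rfl
      · exact ((j _).2.2 y hy).trans ((j x).2.2 _ fun m => hy (by
          simpa using mul_mem m (inv_mem (le hg)))).symm))
    ((injective_iff_map_eq_zero j).2 fun x e => Subtype.ext ((ex (fo _ x.2)).trans
      (Finset.sum_eq_zero fun a ha => by rw [← hj x _ (inv_mem (hS.mem a ha)), e]; simp)))
    (fun ψ (a : S) => c (ψ.1 a.1⁻¹)) fun ψ ψ' e => by
      have b : ∀ a ∈ S, v ((ψ - ψ').1 a⁻¹) ≤ 1 / (v θ + 1) := fun a ha =>
        hc _ (ψ.1 _).2 _ (ψ'.1 _).2 (congrFun e ⟨a, ha⟩)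
      generalize ψ - ψ' = φ at b
      have r : ∀ g ∈ Δ, ∀ w ∈ Δ, w ∈ W → φ.1 (g * w) = φ.1 g := fun g hg w hw m =>
        φ.2.1 g hg w (lw w hw m).1 (lw w hw m).2
      refine ⟨⟨∑ a ∈ S, φ.1 a⁻¹ * a θ, fun u hu => ?_, bd _ 1 one_pos b⟩,
        Subtype.ext (funext fun g => ?_)⟩
      · refine ((map_sum u _ _).trans (Finset.sum_congr rfl fun a ha => ?_)).trans
          (hS.sum_mul (le hu.1) (fun a => (φ.1 a⁻¹ : Qb) * a θ) fun y hy w hw m => by
            rw [iv fθ y hy w hw m, show (y * w)⁻¹ = y⁻¹ * (y * w⁻¹ * y⁻¹) by group,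
              r _ (inv_mem hy) _ (mul_mem (mul_mem hy (inv_mem hw)) (inv_mem hy))
                (nW y hy _ (inv_mem m))])
        rw [map_mul, (φ.1 _).2.1 u (le hu.1), mul_inv_rev,
          φ.2.1 _ (inv_mem (hS.mem a ha)) _ (inv_mem hu.1) (inv_mem hu.2)]
        rfl
      by_cases hg : g ∈ Δ
      swap
      · exact ((j _).2.2 g hg).trans (φ.2.2 g hg).symm
      obtain ⟨a, a1, a2⟩ := hS.ex _ (inv_mem hg)
      have a3 := hS.mem a a1
      refine Subtype.ext ((hj _ g hg).trans ?_)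
      simp only [map_sum, Finset.sum_mul]
      rw [Finset.sum_comm, Finset.sum_congr rfl
        (g := fun b => (φ.1 b⁻¹ : Qb) * if g * b ∈ W then 1 else 0) fun b hb => by
          rw [← nb _ (mul_mem hg (hS.mem b hb)), Finset.mul_sum]
          refine Finset.sum_congr rfl fun s hs => ?_
          rw [map_mul g, (φ.1 _).2.1 g hg, mul_assoc, map_mul s, (φ.1 _).2.1 s (hS.mem s hs)]
          rfl, Finset.sum_eq_single a (fun b hb z => by
          rw [if_neg fun m => z (hS.un _ a1 _ hb (by simpa [mul_assoc] using mul_mem a2 m)).symm,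
            mul_zero]) fun z => (z a1).elim, if_pos (by simpa using inv_mem a2), mul_one,
        ← r g hg (g⁻¹ * a⁻¹) (mul_mem (inv_mem hg) (inv_mem a3)) (by
          simpa [mul_assoc] using hW.cj a2 g), mul_inv_cancel_left]
  rw [tor0 p fun x e => Subtype.ext (by simpa [p0] using congrArg Subtype.val e),
    tor0 p fun ψ e => Subtype.ext (funext fun g => Subtype.ext (by
      simpa [p0] using congrArg Subtype.val (congrFun (congrArg Subtype.val e) g))),
    add_zero, add_zero, la_rk hP le hT] at this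
  exact this.symm

/-- the value of a unit -/
def vl (a : Additive Qbˣ) : Qb := (a.toMul : Qbˣ)

/-- a unit -/
def un (x : Qb) (h : x ≠ 0) : Additive Qbˣ := Additive.ofMul (Units.mk0 x h)

/-- the action on the multiplicative group -/
def am (g : GQ) : Additive Qbˣ →+ Additive Qbˣ :=
  MonoidHom.toAdditive (Units.map (g : Qb →* Qb))

theorem vl_inj {a b : Additive Qbˣ} (h : vl a = vl b) : a = b :=
  Additive.toMul.injective (Units.ext h)

theorem vl_ne (a : Additive Qbˣ) : vl a ≠ 0 := Units.ne_zero _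

theorem vl_add (a b : Additive Qbˣ) : vl (a + b) = vl a * vl b := rfl

theorem vl_neg (a : Additive Qbˣ) : vl (-a) = (vl a)⁻¹ := Units.val_inv_eq_inv_val _

theorem vl_n (n : ℕ) (a : Additive Qbˣ) : vl (n • a) = vl a ^ n := Units.val_pow_eq_pow_val _ _

theorem vl_z (n : ℤ) (a : Additive Qbˣ) : vl (n • a) = vl a ^ n := Units.val_zpow_eq_zpow_val _ _

/-- the units fixed by `A` -/
def Kf (A : Subgroup GQ) : AddSubgroup (Additive Qbˣ) where
  carrier := {a | ∀ g ∈ A, g (vl a) = vl a}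
  add_mem' ha hb g hg := by rw [vl_add, map_mul, ha g hg, hb g hg]
  zero_mem' g _ := map_one g
  neg_mem' ha g hg := by rw [vl_neg, map_inv₀, ha g hg]

/-- the units near one -/
def Uc (h : Nm l Δ v) (A : Subgroup GQ) {c : ℝ} (c0 : 0 ≤ c) (c1 : c < 1) :
    AddSubgroup (Additive Qbˣ) where
  carrier := {a | a ∈ Kf A ∧ v (vl a - 1) ≤ c}
  add_mem' {a b} ha hb := ⟨add_mem ha.1 hb.1, by
    rw [vl_add, show vl a * vl b - 1 = vl a * (vl b - 1) + (vl a - 1) by ring]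
    exact h.add (by rw [map_mul, h.one (ha.2.trans_lt c1), one_mul]; exact hb.2) ha.2⟩
  zero_mem' := ⟨zero_mem _, by simpa [vl] using c0⟩
  neg_mem' {a} ha := ⟨neg_mem ha.1, by
    rw [vl_neg, inv_eq_one_div, div_sub_one (vl_ne a), map_div₀, h.one (ha.2.trans_lt c1), div_one,
      v.map_sub]
    exact ha.2⟩

omit [CharP k p] in
theorem cls (h : Nm l Δ v) (le : D ≤ Δ) (tb : Tb v (Oz h D)) {ε : ℝ} (e : 0 < ε) :
    ∃ (C : Type) (_ : Finite C) (c : Kf D → C), ∀ x y, c x = c y →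
      ∃ n : ℤ, v (vl x / (vl y * (l ^ n) ^ p) - 1) ≤ ε := by
  have l0 : (l : Qb) ≠ 0 := Nat.cast_ne_zero.2 h.pri.ne_zero
  have := fun x : Kf D => exists_mem_Ioc_zpow (v.pos (vl_ne x)) ((one_lt_inv₀ h.pos).2 h.lt)
  choose n hn using this
  have k : ∀ x : Kf D, vl x * l ^ (n x + 1) ∈ Oz h D ∧ v l ≤ v (vl x * l ^ (n x + 1)) := fun x => by
    obtain ⟨a, b⟩ := hn x
    have z := zpow_pos h.pos
    rw [inv_zpow] at a b
    refine ⟨⟨fun g hg => by rw [map_mul, x.2 g hg, map_zpow₀, map_natCast], ?_⟩, ?_⟩ <;>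
      rw [map_mul, map_zpow₀]
    · exact (mul_le_mul_of_nonneg_right b (z _).le).trans_eq (inv_mul_cancel₀ (z _).ne')
    · refine le_trans ?_ (mul_le_mul_of_nonneg_right a.le (z _).le)
      rw [zpow_add_one₀ h.pos.ne', inv_mul_cancel_left₀ (z _).ne']
  obtain ⟨C, _, c, hc⟩ := tb (ε * v l) (mul_pos e h.pos)
  haveI : NeZero p := ⟨(Fact.out : p.Prime).ne_zero⟩
  refine ⟨ZMod p × C, inferInstance, fun x => ((n x : ZMod p), c (vl x * l ^ (n x + 1))),
    fun x y e' => ?_⟩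
  obtain ⟨m, hm⟩ := (ZMod.intCast_eq_intCast_iff_dvd_sub _ _ _).1 (congrArg Prod.fst e')
  have := hc _ (k x).1 _ (k y).1 (congrArg Prod.snd e')
  have y0 := mul_ne_zero (vl_ne y) (zpow_ne_zero (n y + 1) l0)
  refine ⟨m, ?_⟩
  rw [show vl x / (vl y * (l ^ m) ^ p) = vl x * l ^ (n x + 1) / (vl y * l ^ (n y + 1)) by
    rw [← zpow_natCast, ← zpow_mul, mul_comm m, ← hm, show n y + 1 = n y - n x + (n x + 1) by ring,
      zpow_add₀ l0 (n y - n x), ← mul_assoc, mul_div_mul_right _ _ (zpow_ne_zero _ l0)],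
    div_sub_one y0, map_div₀, div_le_iff₀ (v.pos y0)]
  exact this.trans (mul_le_mul_of_nonneg_left (k y).2 e.le)

end Lp

open Lp in
theorem lpc (p : ℕ) [Fact p.Prime] : LPC p := by
  intro k _ _ N _ _ Γ U l P ρ oΓ oU uz hP h
  classical
  have hp : p.Prime := Fact.out
  obtain ⟨v, hv⟩ := ex_nm hP
  obtain ⟨W, hW, lw⟩ := ex_lv' (H := Γ ⊓ U) (oΓ.inter oU)
  obtain ⟨T, hT⟩ := ex_tv (Γ := dec P) (U := Γ ⊓ dec P)
    (Le.relIndex ⟨W, hW, fun w a b => ⟨(lw b).1, a⟩⟩)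
  have cT := hT.card
  rw [Subgroup.inf_relIndex_right] at cT
  have lw' : ∀ w ∈ dec P, w ∈ W → w ∈ Γ ⊓ dec P ⊓ U := fun w a b => ⟨⟨(lw b).1, a⟩, (lw b).2⟩
  have le : Γ ⊓ dec P ≤ dec P := inf_le_right
  generalize Γ ⊓ dec P = D at h hT lw' le ⊢
  obtain ⟨tb, e1⟩ := lat p hv h le hW lw' hT
  have p0 : (p : Qb) ≠ 0 := Nat.cast_ne_zero.2 hp.ne_zero
  have l0 : (l : Qb) ≠ 0 := Nat.cast_ne_zero.2 hP.1.ne_zero
  have c0 := mul_ne_zero l0 p0
  have vp := v.pos p0
  have vc := v.pos c0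
  have c2 : v (l * p) < v p := by rw [map_mul]; exact mul_lt_of_lt_one_left vp hv.lt
  have c1 := c2.trans_le (hv.nat p)
  have z : D ⊓ U ≤ Gz p := inf_le_right.trans uz
  let A := Kf (D ⊓ U)
  let B := Uc hv (D ⊓ U) vc.le c1
  have sA : ∀ g ∈ D, ∀ a ∈ A, am g a ∈ A := fun g hg a ha => fix_st h.nz hg ha
  have sB : ∀ g ∈ D, ∀ a ∈ B, am g a ∈ B := fun g hg a ha => ⟨sA g hg a ha.1, by
    have := hv.inv g (le hg) (vl a - 1)
    rw [map_sub, map_one] at this
    exact this.trans_le ha.2⟩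
  have aA : Ac D U (res am A sA) := ac_fix (fun _ _ _ => rfl) _ fun u hu m a ha =>
    vl_inj (ha u ⟨hu, m⟩)
  have aB : Ac D U (res am B sB) := ac_fix (fun _ _ _ => rfl) _ fun u hu m a ha =>
    vl_inj (ha.1 u ⟨hu, m⟩)
  have rA : ∀ g ∈ D, ∀ a, vl (res am A sA g a) = g (vl a) := fun g hg a =>
    congrArg vl (res_coe sA hg a)
  have rB : ∀ g ∈ D, ∀ a, vl (res am B sB g a) = g (vl a) := fun g hg a =>
    congrArg vl (res_coe sB hg a)
  have rt : ∀ u : Qb, (∀ g ∈ D ⊓ U, g u = u) → v (u - 1) ≤ v (l * p) * v p →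
      ∃ b : B, vl b ^ p = u := fun u a b => by
    obtain ⟨y, y1, y2, y3⟩ := hv.root c2 b
    have y0 : y ≠ 0 := fun e => by simpa [e] using hv.one (y2.trans_lt c1)
    exact ⟨⟨un y y0, fun g hg => y3 g (le hg.1) (a g hg), y2⟩, y1⟩
  have e2 := twist p h (oz_ac hv le h.nz) aB (fun b => ⟨(vl b - 1) / (l * p), fun g hg => by
      rw [map_div₀, map_sub, b.2.1 g hg]; simp, by
      rw [map_div₀]; exact div_le_one_of_le₀ b.2.2 vc.le⟩)
    (fun x => by
      have a : v (1 + l * p * x - 1) ≤ v (l * p) := by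
        rw [add_sub_cancel_left, map_mul v _ x.1]; exact mul_le_of_le_one_right vc.le x.2.2
      have x0 : (1 + l * p * x : Qb) ≠ 0 := fun e => by simpa [e] using hv.one (a.trans_lt c1)
      exact ⟨⟨un _ x0, fun g hg => by
        show g (1 + l * p * x) = 1 + l * p * x
        simp [x.2.1 g hg], a⟩, Subtype.ext (by
          show (1 + l * p * x - 1 : Qb) / (l * p) = x
          rw [add_sub_cancel_left, mul_div_cancel_left₀ _ c0])⟩)
    (fun b b' => ⟨⟨(vl b - 1) * (vl b' - 1) / (l * p * p), fun g hg => by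
      rw [map_div₀, map_mul, map_sub, map_sub, b.2.1 g hg, b'.2.1 g hg]; simp, by
      rw [map_div₀, map_mul, map_mul v _ (p : Qb)]
      exact div_le_one_of_le₀ (mul_le_mul b.2.2 (b'.2.2.trans c2.le) (v.nonneg _) vc.le)
        (mul_pos vc vp).le⟩, Subtype.ext (by
      show (vl b * vl b' - 1) / (l * p) = (vl b - 1) / (l * p) + (vl b' - 1) / (l * p) +
        p • ((vl b - 1) * (vl b' - 1) / (l * p * p))
      rw [nsmul_eq_mul]; field_simp; ring)⟩)
    (fun g hg b => Subtype.ext (by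
      refine Eq.trans ?_ (res_coe _ hg _).symm
      show (vl (res am B sB g b) - 1) / (l * p) = g ((vl b - 1) / (l * p))
      rw [rB g hg]; simp))
    fun b a e => by
      have e' : (vl b - 1) / (l * p) = p • a.1 := congrArg Subtype.val e
      rw [div_eq_iff c0, nsmul_eq_mul] at e'
      obtain ⟨b', hb⟩ := rt _ b.2.1 (by
        rw [e', map_mul, map_mul, mul_comm]
        exact mul_le_mul_of_nonneg_left (mul_le_of_le_one_right vp.le a.2.2) vc.le)
      exact ⟨b', Subtype.ext (vl_inj (hb.symm.trans (vl_n p _).symm))⟩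
  obtain ⟨aZ, e3, e4⟩ := prodZ p h aB fun b e => Subtype.ext (vl_inj (hv.tors (p := p)
    ((vl_n p _).symm.trans (congrArg (fun x : B => vl x) e)) (b.2.2.trans_lt c2)))
  obtain ⟨C, _, c, hc⟩ := cls p hv (inf_le_left.trans le) tb (mul_pos vc vp)
  let L : A := ⟨un l l0, fun g _ => map_natCast g l⟩
  let i : B →+ A := AddSubgroup.inclusion fun _ m => m.1
  have pw : ∀ x y, c x = c y → ∃ (n : ℤ) (b : B), x - y = p • (n • L + i b) := fun x y e => by
    obtain ⟨n, hn⟩ := hc x y e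
    obtain ⟨b, hb⟩ := rt _ (fun g hg => by
      rw [map_div₀, map_mul, x.2 g hg, y.2 g hg, map_pow, map_zpow₀, map_natCast]) hn
    refine ⟨n, b, Subtype.ext (vl_inj ?_)⟩
    show vl (x - y) = vl (p • (n • un l l0 + b))
    have := vl_ne y
    have := pow_ne_zero p (zpow_ne_zero n l0)
    rw [sub_eq_add_neg, vl_add, vl_neg, vl_n, vl_add, vl_z, mul_pow, hb]
    show _ = ((l : Qb) ^ n) ^ p * _
    field_simp
  have vj : ∀ (x : ℤ × B), vl (((zmultiplesHom A L).coprod i x : A)) = l ^ x.1 * vl x.2 :=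
    fun x => (vl_add _ _).trans (congrArg (· * _) (vl_z x.1 _))
  have e5 := fi p h aA aZ ((zmultiplesHom A L).coprod i)
    (fun g hg x => Subtype.ext (vl_inj (by
      rw [vj, rA g hg, vj, map_mul, map_zpow₀, map_natCast, ← rB g hg]; rfl)))
    ((injective_iff_map_eq_zero _).2 fun x e => by
      have a : (l : Qb) ^ x.1 * vl x.2 = 1 := (vj x).symm.trans (congrArg (fun x : A => vl x) e)
      have b := congrArg v a
      rw [map_mul, hv.one (x.2.2.2.trans_lt c1), mul_one, map_zpow₀, map_one,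
        zpow_eq_one_iff_right₀ hv.pos.le hv.lt.ne] at b
      rw [b, zpow_zero, one_mul] at a
      exact Prod.ext b (Subtype.ext (vl_inj a))) c fun x y e => by
    obtain ⟨n, b, e⟩ := pw x y e
    exact ⟨p • (n, b), by rw [e, map_nsmul]; rfl⟩
  have cs : ∀ a : ZMod p, ZMod.castHom (dvd_refl p) k a = ((a.val : ℤ) : k) := fun a => by
    rw [Int.cast_natCast, ← map_natCast (ZMod.castHom (dvd_refl p) k), ZMod.natCast_zmod_val]
  have e6 := cyc (Γ := D) (ρ := ρ) (ω := om p k) (β := tor p (res am A sA)) p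
    (b := ⟨⟨un _ zt_ne, fun g hg => mem_Gz'.1 (z hg)⟩,
      Subtype.ext (vl_inj ((vl_n p _).trans zt_pow))⟩)
    (fun x => by
      obtain ⟨a, ha⟩ := pw_ex ((vl_n p _).symm.trans (congrArg (fun x : A => vl x) x.2))
      exact ⟨a.val, Subtype.ext (Subtype.ext (vl_inj (ha.trans
        ((zpow_natCast _ _).symm.trans (vl_z a.val (un _ zt_ne)).symm))))⟩)
    (fun m y e => ((zt_prim p).zpow_eq_one_iff_dvd m).1 ((vl_z m (un _ zt_ne)).symm.trans
      (congrArg (fun x : Kp p A => vl x.1) (e.trans (kp_p y)))))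
    (fun g => (oz p g).val) (fun _ => 1) fun g hg => ⟨Subtype.ext (Subtype.ext (vl_inj
      ((rA g hg _).trans ((oz_spec g).trans ((zpow_natCast _ _).symm.trans
        (vl_z _ (un _ zt_ne)).symm))))), by
      rw [← cs]; exact (map_ne_zero _).2 (oz_ne g), by rw [mul_one, ← cs]; rfl⟩
  let κ : A →+ GQ → ZMod p := AddMonoidHom.mk'
    (fun a => ((D ⊓ U : Subgroup GQ) : Set GQ).indicator (ka p (vl a))) fun a b => funext fun g => by
      by_cases m : g ∈ D ⊓ U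
      · simp only [Pi.add_apply, Set.indicator_of_mem m]
        exact ka_mul (vl_ne _) (vl_ne _) (z m) (a.2 g m) (b.2 g m)
      · simp only [Pi.add_apply, Set.indicator_of_notMem m, add_zero]
  have hκ : ∀ a, ∀ g ∈ D ⊓ U, κ a g = ka p (vl a) g := fun a g m => Set.indicator_of_mem m _
  have k0 : ∀ a, κ a = 0 ↔ ∃ b, a = p • b := fun a => ⟨fun e => by
      obtain ⟨y, y1, y2⟩ := ((kum p _ z).2 _ (vl_ne a) a.2).2.1 fun g m => by rw [← hκ a g m, e]; rfl
      exact ⟨⟨un y (root_ne (vl_ne _) y2), y1⟩, Subtype.ext (vl_inj (y2.symm.trans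
        (vl_n p (un y _)).symm))⟩, by
    rintro ⟨b, rfl⟩
    rw [map_nsmul]
    exact funext fun g => by simp⟩
  have e7 := kd prd p GQ k N ∅ D U ρ (oz p) A _ κ h aA (fun χ => ⟨fun m => by
      obtain ⟨b, b0, b1, b2⟩ := (kum p _ z).1 χ (Z1.ch m)
      refine ⟨⟨un b b0, b1⟩, funext fun g => ?_⟩
      by_cases n : g ∈ D ⊓ U
      · exact (hκ _ g n).trans (b2 g n).symm
      · exact (Set.indicator_of_notMem n _).trans (m.2.1 g n).symm, by
      rintro ⟨a, rfl⟩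
      exact (ka_ch z (vl_ne _) a.2).z1⟩) k0
    (fun g hg u hu a => by
      rw [hκ _ _ ⟨D.mul_mem (D.mul_mem hg hu.1) (D.inv_mem hg), h.nz g hg u hu.2⟩, hκ _ _ hu, rA g hg]
      exact ka_conj (vl_ne _) g (z hu) (a.2 u hu))
    (Finite.of_injective (fun x : κ.range => c x.2.choose) fun x y e => Subtype.ext (by
      obtain ⟨n, b, e⟩ := pw _ _ e
      rw [← x.2.choose_spec, ← y.2.choose_spec, ← sub_eq_zero, ← map_sub]
      exact (k0 _).2 ⟨_, e⟩))
  have e8 := eqv GQ k N ∅ D U ρ h.rp h.prj h.nz h.tri h.le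
  have e9 := prd GQ k N ∅ D U ρ (fun _ => 1) h.fin h.rp h.prj h.nz h.tri
    ⟨rfl, fun _ _ _ _ => (mul_one _).symm⟩ fun _ _ _ => rfl
  have fin := h.fin
  rw [e3, add_zero, e4, e6, ← e9, ← e2, e1, rk0 p hv h.fin, cT] at e5
  rw [e7, show (fun g => ZMod.castHom (dvd_refl p) k (oz p g)) = om p k from rfl, e5,
    add_right_comm] at e8
  rw [(Cardinal.add_right_inj_of_lt_aleph0
    ((Submodule.rank_le _).trans_lt (Module.rank_lt_aleph0 k N))).1 e8]
  split_ifs <;> push_cast <;> ring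

end Vale.Agent.P022K.G2
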