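import Vale.Agent.P022K.G2.Bas

/-!
# P022K, block G2: representatives of orbits (rows `REPS`, `RSH`, the count of double cosets)
-/

set_option linter.all false

noncomputable section

namespace Vale.Agent.P022K.G2

open Module

namespace Rps

variable {G Ω ι : Type} [Group G] [MulAction G Ω] {Γ B : Subgroup G} {S : Set Ω} {x : ι → Ω}

theorem stb (h : Reps Γ S x) {y : Ω} (hy : y ∈ S) {g : G} (hg : g ∈ Γ) : g • y ∈ S := by
  obtain ⟨i, a, ha, rfl⟩ := h.ex y hy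
  rw [← mul_smul]
  exact h.mem i _ (mul_mem hg ha)

theorem self (h : Reps Γ S x) (i : ι) : x i ∈ S := one_smul G (x i) ▸ h.mem i 1 (one_mem _)

/-- finitely many orbits have representatives -/
theorem of_fin {κ : Type} [Finite κ] (z : κ → Ω) (h1 : ∀ y ∈ S, ∀ g ∈ B, g • y ∈ S)
    (h2 : ∀ y ∈ S, ∃ i, ∃ g ∈ B, y = g • z i) :
    ∃ (ι' : Type) (_ : Fintype ι') (y : ι' → Ω), Reps B S y := by
  let Q := {q : MulAction.orbitRel.Quotient B Ω // q.out ∈ S}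
  have e : ∀ {a b : Ω}, (Quotient.mk _ a : MulAction.orbitRel.Quotient B Ω) = Quotient.mk _ b ↔
      ∃ g ∈ B, a = g • b := fun {a b} => Quotient.eq.trans
    ⟨fun ⟨g, h⟩ => ⟨g, g.2, h.symm⟩, fun ⟨g, m, h⟩ => ⟨⟨g, m⟩, h.symm⟩⟩
  have : Finite Q := by
    choose i g hg k using fun q : Q => h2 _ q.2
    exact Finite.of_injective i fun q q' h => Subtype.ext (by
      rw [← q.1.out_eq, ← q'.1.out_eq, e.2 ⟨_, hg q, k q⟩, e.2 ⟨_, hg q', k q'⟩, h])
  refine ⟨Q, Fintype.ofFinite Q, fun q => q.1.out, fun q g hg => h1 _ q.2 g hg, fun y hy => ?_,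
    fun q q' g hg h => Subtype.ext ?_⟩
  · obtain ⟨g, hg, k⟩ := e.1 (Quotient.out_eq (Quotient.mk _ y))
    exact ⟨⟨Quotient.mk _ y, k ▸ h1 y hy g hg⟩, e.1 (Quotient.out_eq _).symm⟩
  · rw [← q.1.out_eq, ← q'.1.out_eq, e.2 ⟨g, hg, h⟩]

/-- the count of double cosets -/
theorem cnt [Fintype ι] (h : Reps Γ S x) (f : Γ.index ≠ 0) {O : Set Ω} [DecidablePred (· ∈ O)]
    {x₀ : Ω} (hO : ∀ y, y ∈ O ↔ ∃ g : G, y = g • x₀) (le : O ⊆ S) :
    ∑ i, (if x i ∈ O then Γ.relIndex (MulAction.stabilizer G (x i)) else 0) = Γ.index := by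
  classical
  choose s hs using fun i : {i // x i ∈ O} => (hO _).1 i.2
  let F : (Σ i : {i // x i ∈ O}, MulAction.stabilizer G (x i) ⧸
      Γ.subgroupOf (MulAction.stabilizer G (x i))) → G ⧸ Γ := fun p =>
    Quotient.liftOn' p.2 (fun d => ((s p.1)⁻¹ * d : G)) fun d d' e => QuotientGroup.eq.2 (by
      simpa [mul_assoc] using Subgroup.mem_subgroupOf.1 (QuotientGroup.leftRel_apply.1 e))
  have b : Function.Bijective F := by
    constructor
    · rintro ⟨i, ⟨d, hd⟩⟩ ⟨j, ⟨d', hd'⟩⟩ e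
      replace e : ((s i)⁻¹ * d)⁻¹ * ((s j)⁻¹ * d') ∈ Γ := QuotientGroup.eq.1 e
      replace hd' : d' • x j = x j := hd'
      obtain rfl : j = i := Subtype.ext (h.un _ _ _ e (by
        rw [mul_smul, mul_smul, hd', hs j, inv_smul_smul, mul_inv_rev,
          inv_inv, mul_smul, ← hs i, eq_inv_smul_iff]
        exact hd))
      congr 1
      exact QuotientGroup.eq.2 (Subgroup.mem_subgroupOf.2 (by simpa [mul_assoc] using e))
    · rintro ⟨g⟩
      obtain ⟨i, a, ha, e⟩ := h.ex _ (le ((hO _).2 ⟨g⁻¹, rfl⟩))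
      have m : x i ∈ O := (hO _).2 ⟨a⁻¹ * g⁻¹, by rw [mul_smul, e, inv_smul_smul]⟩
      refine ⟨⟨⟨i, m⟩, QuotientGroup.mk ⟨s ⟨i, m⟩ * (g * a), ?_⟩⟩, QuotientGroup.eq.2 ?_⟩
      · rw [MulAction.mem_stabilizer_iff, mul_smul, mul_smul, ← e, smul_inv_smul]
        exact (hs ⟨i, m⟩).symm
      · simpa using ha
  have : Finite (G ⧸ Γ) := Nat.finite_of_card_ne_zero f
  have := Finite.of_injective F b.1
  have fi := fun i : {i // x i ∈ O} => Finite.of_injective _ (sigma_mk_injective (i := i)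
    (β := fun i : {i // x i ∈ O} => MulAction.stabilizer G (x i) ⧸
      Γ.subgroupOf (MulAction.stabilizer G (x i))))
  rw [← Finset.sum_filter, Finset.sum_subtype (p := fun i => x i ∈ O) _ (by simp), Subgroup.index,
    ← Nat.card_congr (Equiv.ofBijective F b), Nat.card_sigma]
  rfl

end Rps

open Rps

theorem reps : REPS := fun G _ Ω ι _ _ Γ B S x h le f => by
  have : Finite (Γ ⧸ B.subgroupOf Γ) := Nat.finite_of_card_ne_zero f
  refine of_fin (fun p : ι × (Γ ⧸ B.subgroupOf Γ) => (p.2.out : G)⁻¹ • x p.1)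
    (fun y hy g hg => stb h hy (le hg)) fun y hy => ?_
  obtain ⟨i, g, hg, rfl⟩ := h.ex y hy
  obtain ⟨b, e⟩ := QuotientGroup.mk_out_eq_mul (B.subgroupOf Γ) ⟨g⁻¹, inv_mem hg⟩
  exact ⟨(i, QuotientGroup.mk ⟨g⁻¹, inv_mem hg⟩), b.1, b.2, by simp [e, mul_smul]⟩

theorem rsh (tr2 : TR2) (pr0 : PR0) (cj2 : CJ2) : RSH := by
  intro G _ _ k _ N _ _ I Γ B ρ Ω ι ι' _ S x y r le f l hx hy
  refine rq_le LinearMap.id (fun z hz => ⟨Z2.mono hz.1 subset_rfl le,
    (Submodule.mem_iInf _).2 fun j => ?_⟩) fun z hz h => tr2 G k N I Γ B ρ z r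
      (pr0 G k N I Γ B ρ r f) l hz.1 (B2.mono h subset_rfl inf_le_right)
  obtain ⟨i, g, hg, e⟩ := hx.ex _ (self hy j)
  refine B2.mono (cj2 G k N I Γ (Dv Γ x i) (Γ ⊓ MulAction.stabilizer G (y j)) ρ z g r hz.1 hg
    inf_le_left (fun a => ?_) ((Submodule.mem_iInf _).1 hz.2 i)) subset_rfl
    (inf_le_inf_right _ le)
  refine and_congr ⟨fun h => Γ.mul_mem (Γ.mul_mem hg h) (Γ.inv_mem hg), fun h => by
    simpa [mul_assoc] using Γ.mul_mem (Γ.mul_mem (Γ.inv_mem hg) h) hg⟩ ?_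
  simp [e, mul_smul]

end Vale.Agent.P022K.G2
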