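import Vale.Agent.P022K.G2.SpecA
import Vale.Agent.P022K.G2.Rps
import Vale.Agent.P022K.GW.Pl

/-!
# P022K, block G2: places (rows `PLC`, `DEG`)
-/

set_option linter.all false

noncomputable section

namespace Vale.Agent.P022K.G2

open NumberField
open Vale.Agent.P022 Vale.Agent.P022.C
open Vale.Agent.P022E.GW (Ov)
open scoped Pointwise

namespace Plc

theorem ab_smul {T : Set ℕ} {y : Plc} (h : y ∈ Ab T) (g : GQ) : g • y ∈ Ab T := by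
  rcases h with ⟨l, hl, P, o, rfl⟩ | ⟨h0, w, rfl⟩
  exacts [.inl ⟨l, hl, g • P, GW.ov_smul o g, rfl⟩, .inr ⟨h0, g • w, rfl⟩]

theorem ab_mono {T T' : Set ℕ} (h : T ⊆ T') : Ab T ⊆ Ab T' := fun _ =>
  Or.imp (fun ⟨l, a, b⟩ => ⟨l, h a, b⟩) fun ⟨a, b⟩ => ⟨h a, b⟩

theorem ab_one {T : Set ℕ} {y : Plc} (h : y ∈ Ab T) : ∃ l ∈ T, y ∈ Ab {l} := by
  rcases h with ⟨l, hl, b⟩ | ⟨h0, b⟩
  exacts [⟨l, hl, .inl ⟨l, rfl, b⟩⟩, ⟨0, h0, .inr ⟨rfl, b⟩⟩]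

/-- the places above one place of the rational numbers are conjugate -/
theorem ab_trans {l : ℕ} {y y' : Plc} (h : y ∈ Ab {l}) (h' : y' ∈ Ab {l}) :
    ∃ g : GQ, y' = g • y := by
  have := H443.galQb
  rcases h with ⟨_, rfl, P, o, rfl⟩ | ⟨h0, w, rfl⟩ <;>
    rcases h' with ⟨_, e, P', o', rfl⟩ | ⟨h1, w', rfl⟩
  · obtain ⟨g, rfl⟩ := GW.Pl.ov_trans o (e ▸ o')
    exact ⟨g, rfl⟩
  · exact (o.1.ne_zero (Eq.symm h1)).elim
  · exact (o'.1.ne_zero (e.trans (Eq.symm h0))).elim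
  · obtain ⟨g, rfl⟩ := InfinitePlace.exists_smul_eq_of_comap_eq (k := ℚ) (w := w) (w' := w')
      (Subsingleton.elim _ _)
    exact ⟨g, rfl⟩

theorem ab_ne {l : ℕ} (h : l = 0 ∨ l.Prime) : ∃ y, y ∈ Ab {l} := by
  rcases h with rfl | h
  · exact ⟨_, .inr ⟨rfl, .mk (IsAlgClosed.lift (R := ℚ) (M := ℂ) (S := Qb)).toRingHom, rfl⟩⟩
  · obtain ⟨P, o⟩ := GW.Pl.ex_ov h
    exact ⟨_, .inl ⟨l, rfl, P, o, rfl⟩⟩

theorem idx {Γ : Subgroup GQ} (h : IsOpen (Γ : Set GQ)) : Γ.index ≠ 0 := by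
  have := GW.Pl.cpt
  have : Finite (GQ ⧸ Γ) := Γ.quotient_finite_of_isOpen h
  exact Subgroup.index_ne_zero_of_finite

end Plc

open Plc

theorem plc : PLC := fun Γ T h => by
  classical
  obtain ⟨ι, _, x, hx⟩ := Rps.of_fin (B := (⊤ : Subgroup GQ)) (S := Ab T)
    (fun l : {l : T // ∃ y, y ∈ Ab {l.1}} => l.2.choose) (fun y hy g _ => ab_smul hy g)
    fun y hy => by
      obtain ⟨l, hl, k⟩ := ab_one hy
      obtain ⟨g, e⟩ := ab_trans (Exists.choose_spec ⟨y, k⟩) k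
      exact ⟨⟨⟨l, hl⟩, y, k⟩, g, trivial, e⟩
  exact reps GQ Plc ι ⊤ Γ _ x hx le_top (by simpa using idx h)

theorem deg : DEG := fun Γ T ι _ x l h hx hl p => by
  classical
  obtain ⟨y, hy⟩ := ab_ne p
  exact Rps.cnt hx (idx h) (x₀ := y) (fun z => ⟨ab_trans hy, fun ⟨g, e⟩ => e ▸ ab_smul hy g⟩)
    (ab_mono (Set.singleton_subset_iff.2 hl))

end Vale.Agent.P022K.G2
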