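import Vale.Agent.P022K.G2.Ext
import Vale.Agent.P022K.G2.Tr2

/-!
# P022K, block G2: the local second cohomology for the prime two (rows `NIL`, `UNS`, `DIM1`,
`DIMT`; helper3)
-/

set_option linter.all false

noncomputable section

namespace Vale.Agent.P022K.G2

open NumberField Module IsDedekindDomain
open Vale.Agent.P022 Vale.Agent.P022.C Vale.Agent.P022.H443 Vale.Agent.P022.H916
open Vale.Agent.P027M.S (Inert)
open Vale.Agent.P022D.W
open Vale.Agent.P022E.GW (Ov)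

namespace Dm

section grp

variable {G : Type} [Group G] [TopologicalSpace G] {A A' : Subgroup G}
  {a b c a' b' v v' η : G → ZMod 2} {z z' : G → G → ZMod 2} {σ : G}

/-- coboundaries with values in the field with two elements -/
abbrev B (A : Subgroup G) : Submodule (ZMod 2) (G → G → ZMod 2) := B2 ∅ A (tr G (ZMod 2))

theorem z01 : ∀ a : ZMod 2, a ≠ 0 → a = 1 := by decide

theorem two0 : (2 : ZMod 2) = 0 := rfl

theorem bc (h : z ∈ B A) (e : ∀ g ∈ A, ∀ j ∈ A, z' g j = z g j) : z' ∈ B A :=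
  B2.congr h e fun _ _ => rfl

theorem skew (ha : Ch A a) (hb : Ch A b) (h : cup a b ∈ B A) : cup b a ∈ B A := by
  simpa using sub_mem (cup_skew ha hb) h

theorem btr {x : G → G → ZMod 2} (h : z - x ∈ B A) (h' : x - z' ∈ B A) : z - z' ∈ B A := by
  simpa using add_mem h h'

theorem bof (h : z - z' ∈ B A) (h' : z' ∈ B A) : z ∈ B A := by simpa using add_mem h h'

/-- the norm index is at most two -/
def N2 (A : Subgroup G) : Prop := ∀ η β γ : G → ZMod 2, Ch A η → Ch A β → Ch A γ →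
  cup η β ∉ B A → cup η γ ∉ B A → cup η β - cup η γ ∈ B A

theorem N2.left (n : N2 A) (ha : Ch A a) (ha' : Ch A a') (hc : Ch A c) (h : cup a c ∉ B A)
    (h' : cup a' c ∉ B A) : cup a c - cup a' c ∈ B A := by
  have := sub_mem (sub_mem (cup_skew ha hc) (cup_skew ha' hc))
    (n c a a' hc ha ha' (mt (skew hc ha) h) (mt (skew hc ha') h'))
  convert this using 1
  abel

/-- the symbols are on a line -/
theorem N2.line (n : N2 A) (ha : Ch A a) (hb : Ch A b) (ha' : Ch A a') (hb' : Ch A b')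
    (h : cup a b ∉ B A) (h' : cup a' b' ∉ B A) : cup a b - cup a' b' ∈ B A := by
  by_cases h1 : cup a b' ∈ B A
  swap
  · exact btr (n a b b' ha hb hb' h h1) (n.left ha ha' hb' h1 h')
  by_cases h2 : cup a' b ∈ B A
  swap
  · exact btr (n.left ha ha' hb h h2) (n a' b b' ha' hb hb' h2 h')
  have e : ∀ x : G → ZMod 2, cup x (b + b') = cup x b + cup x b' := fun x =>
    funext fun g => funext fun j => mul_add _ _ _
  have := n.left ha ha' (hb.add hb') (by rwa [e, (B A).add_mem_iff_left h1])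
    (by rwa [e, (B A).add_mem_iff_right h2])
  rw [e, e] at this
  convert add_mem (sub_mem this h1) h2 using 1
  abel

/-- `A'` is the kernel of `η`, and `σ` is not in it -/
structure Kr (A A' : Subgroup G) (η : G → ZMod 2) (σ : G) : Prop where
  ch : Ch A η
  mem : ∀ g, g ∈ A' ↔ g ∈ A ∧ η g = 0
  sm : σ ∈ A
  s1 : η σ = 1

/-- `v` is the transfer of `b` -/
structure Tf (A A' : Subgroup G) (σ : G) (b v : G → ZMod 2) : Prop where
  cb : Ch A' b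
  cv : Ch A v
  e1 : ∀ g ∈ A', v g = b g + b (σ⁻¹ * g * σ)
  e2 : v σ = b (σ * σ)

theorem Kr.le (k : Kr A A' η σ) : A' ≤ A := fun g hg => ((k.mem g).1 hg).1

theorem Kr.lv (k : Kr A A' η σ) : Le ∅ A A' :=
  k.ch.2.imp fun _ h => ⟨h.1, fun w hw m => (k.mem w).2 ⟨hw, h.2 w hw m⟩⟩

theorem Kr.cj (k : Kr A A' η σ) {g : G} (hg : g ∈ A') : σ⁻¹ * g * σ ∈ A' :=
  (k.mem _).2 ⟨cj_mem k.sm (k.le hg), by
    rw [k.ch.1 _ (mul_mem (inv_mem k.sm) (k.le hg)) _ k.sm, k.ch.1 _ (inv_mem k.sm) _ (k.le hg),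
      k.ch.inv k.sm, ((k.mem g).1 hg).2]; ring⟩

theorem Kr.sq (k : Kr A A' η σ) : σ * σ ∈ A' :=
  (k.mem _).2 ⟨mul_mem k.sm k.sm, by rw [k.ch.1 _ k.sm _ k.sm, k.s1]; rfl⟩

theorem Kr.out (k : Kr A A' η σ) {g : G} (hg : g ∈ A) (h : g ∉ A') : σ⁻¹ * g ∈ A' :=
  (k.mem _).2 ⟨mul_mem (inv_mem k.sm) hg, by
    rw [k.ch.1 _ (inv_mem k.sm) _ hg, k.ch.inv k.sm, k.s1,
      z01 _ fun e => h ((k.mem g).2 ⟨hg, e⟩), neg_add_cancel]⟩

theorem Kr.nm (k : Kr A A' η σ) : σ ∉ A' := fun h =>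
  one_ne_zero (k.s1.symm.trans ((k.mem σ).1 h).2)

theorem Kr.uniq (k : Kr A A' η σ) (t : Tf A A' σ b v) (t' : Tf A A' σ b' v')
    (e : ∀ g ∈ A', b g = b' g) {g : G} (hg : g ∈ A) : v g = v' g := by
  have e1 : ∀ g ∈ A', v g = v' g := fun g m => by
    rw [t.e1 g m, t'.e1 g m, e g m, e _ (k.cj m)]
  by_cases m : g ∈ A'
  · exact e1 g m
  have m1 := k.out hg m
  rw [← mul_inv_cancel_left σ g, t.cv.1 _ k.sm _ (k.le m1), t'.cv.1 _ k.sm _ (k.le m1), e1 _ m1,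
    t.e2, t'.e2, e _ k.sq]

/-- a character which is orthogonal to `η` is a transfer -/
theorem Kr.exa (k : Kr A A' η σ) (hv : Ch A v) (h : cup η v ∈ B A) : ∃ b, Tf A A' σ b v := by
  obtain ⟨c, ⟨W, hW, e⟩, hc⟩ := h
  simp only [d1_apply, tr_apply, cup] at hc
  have c1 : c 1 = 0 := by
    have := hc 1 (one_mem _) 1 (one_mem _)
    rw [k.ch.one, mul_one] at this
    linear_combination -this
  refine ⟨c, ⟨fun g hg j hj => ?_, W, hW, fun w hw m => ?_⟩, hv, fun g hg => ?_, ?_⟩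
  · have := hc g (k.le hg) j (k.le hj)
    rw [((k.mem g).1 hg).2] at this
    linear_combination this
  · rw [← one_mul w, e 1 (one_mem _) w (k.le hw) m, c1]
  · have h1 := hc g (k.le hg) σ k.sm
    have h2 := hc σ k.sm _ (k.le (k.cj hg))
    rw [k.s1, hv.1 _ (mul_mem (inv_mem k.sm) (k.le hg)) _ k.sm, hv.1 _ (inv_mem k.sm) _ (k.le hg),
      hv.inv k.sm, ← mul_assoc, mul_inv_cancel_left] at h2
    rw [((k.mem g).1 hg).2] at h1
    linear_combination h2 - h1 - c g * two0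
  · have := hc σ k.sm σ k.sm
    rw [k.s1] at this
    linear_combination this + (c σ - c (σ * σ)) * two0

/-- the projection formula -/
theorem Kr.proj (k : Kr A A' η σ) (hz : z ∈ Z2 ∅ A (tr G (ZMod 2))) (ha : Ch A a)
    (t : Tf A A' σ b v) (h : z - cup a b ∈ B A') : cup a v ∈ B A := by
  classical
  have s1 : (1 : G) ≠ σ := fun e => k.nm (e ▸ one_mem _)
  have tv : Tv A A' {1, σ} := ⟨by simp [k.sm], fun g hg => by
      by_cases m : g ∈ A'
      · exact ⟨1, by simp, by simpa using m⟩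
      · exact ⟨σ, by simp, k.out hg m⟩, by simp [k.nm]⟩
  obtain ⟨w, w1, w2, w3⟩ := trc G (ZMod 2) A A' {1, σ} z a b tv k.lv hz ha
    (t.cb.mono inf_le_right) (B2.mono h subset_rfl inf_le_right)
  have t' : Tf A A' σ b w := ⟨t.cb, w1, fun g hg => by
      rw [w3 g (k.le hg) id (by simpa [hg, mul_assoc] using k.cj hg), Finset.sum_pair s1]
      simp [mul_assoc], by
      rw [w3 σ k.sm (fun r => if r = 1 then σ else 1) (by simpa [s1.symm] using k.sq),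
        Finset.sum_pair s1]
      simp [s1.symm, t.cb.one]⟩
  rw [Finset.card_pair s1, Nat.cast_ofNat, two0, zero_smul, zero_sub, neg_mem_iff] at w2
  exact bc w2 fun g _ j hj => by simp only [cup, k.uniq t t' (fun _ _ => rfl) hj]

/-- a class which is a symbol on the kernel dies on the kernel -/
theorem Kr.dies (k : Kr A A' η σ) (n : N2 A') (hz : z ∈ Z2 ∅ A (tr G (ZMod 2))) (ha : Ch A a)
    (t : Tf A A' σ b v) (h : cup a v ∉ B A) (ha' : Ch A' a') (hb' : Ch A' b')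
    (e : z - cup a' b' ∈ B A') : z ∈ B A' := by
  refine bof e (by_contra fun c => h (k.proj hz ha t (btr e (n.line ha' hb' (ha.mono k.le) t.cb c
    fun m => h (k.proj (zero_mem _) ha t ?_)))))
  rwa [zero_sub, neg_mem_iff]

theorem ne_of_odd (ha : Ch A a) (s : σ ∈ A) (h : a σ ≠ 0) (o : ¬ 2 ∣ A'.relIndex A) :
    ∃ g ∈ A', g ∈ A ∧ a g ≠ 0 := by
  by_contra! c
  refine o (Dvd.dvd.trans ?_ (Subgroup.relIndex_dvd_of_le_left A
    (show A' ⊓ A ≤ ha.ker from fun g m => ⟨m.2, c g m.1 m.2⟩)) |>.trans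
    (Subgroup.inf_relIndex_right _ _).dvd)
  haveI : (ha.ker.subgroupOf A).Normal := ⟨fun x hx g => ⟨(g * x * g⁻¹).2, by
    show a (g * x * (g : G)⁻¹) = 0
    rw [ha.1 _ (mul_mem g.2 x.2) _ (inv_mem g.2), ha.1 _ g.2 _ x.2, ha.inv g.2,
      show a x = 0 from hx.2]; ring⟩⟩
  have := ((ha.ker.subgroupOf A).pow_index_mem ⟨σ, s⟩).2
  rw [show (A.subtype (⟨σ, s⟩ ^ _) : G) = σ ^ _ from rfl, ha.pow s] at this
  exact (ZMod.natCast_eq_zero_iff _ 2).1 ((mul_eq_zero.1 this).resolve_right h)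

end grp

section cj

variable {G : Type} [Group G] [TopologicalSpace G] {k : Type} [Field k] {A : Subgroup G} {g : G}

theorem z2_cj (n : ∀ x ∈ A, g * x * g⁻¹ ∈ A) {z : G → G → k} (h : z ∈ Z2 ∅ A (tr G k)) :
    (fun x y => z (g * x * g⁻¹) (g * y * g⁻¹)) ∈ Z2 ∅ A (tr G k) := by
  have e : ∀ x y : G, g * (x * y) * g⁻¹ = g * x * g⁻¹ * (g * y * g⁻¹) := fun x y => by group
  exact ⟨fun x hx y hy w hw => by
      beta_reduce; rw [e, e]; exact h.1 _ (n x hx) _ (n y hy) _ (n w hw),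
    h.2.imp fun W hW => ⟨hW.1, fun x hx y hy w hw m => by
      beta_reduce; rw [e, e]
      exact hW.2 _ (n x hx) _ (n y hy) _ (n w hw) (hW.1.nrm.conj_mem w m g)⟩⟩

theorem b2_cj (n : ∀ x ∈ A, g * x * g⁻¹ ∈ A) {z : G → G → k} (h : z ∈ B2 ∅ A (tr G k)) :
    (fun x y => z (g * x * g⁻¹) (g * y * g⁻¹)) ∈ B2 ∅ A (tr G k) := by
  have e : ∀ x y : G, g * (x * y) * g⁻¹ = g * x * g⁻¹ * (g * y * g⁻¹) := fun x y => by group
  obtain ⟨c, ⟨W, hW, w⟩, h⟩ := h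
  exact ⟨fun x => c (g * x * g⁻¹), ⟨W, hW, fun x hx y hy m => by
      beta_reduce; rw [e]; exact w _ (n x hx) _ (n y hy) (hW.nrm.conj_mem y m g)⟩,
    fun x hx y hy => by rw [d1_apply, e]; exact h _ (n x hx) _ (n y hy)⟩

/-- from the prime field to a finite field -/
theorem line_up [Finite k] [CharP k 2] {z₀ : G → G → ZMod 2}
    (H : ∀ z ∈ Z2 ∅ A (tr G (ZMod 2)), ∃ a : ZMod 2, z - a • z₀ ∈ B A) {z : G → G → k}
    (hz : z ∈ Z2 ∅ A (tr G k)) :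
    ∃ c : k, z - c • (fun x y => ZMod.castHom (dvd_refl 2) k (z₀ x y)) ∈ B2 ∅ A (tr G k) := by
  letI := ZMod.algebra k 2
  let b := Module.finBasis (ZMod 2) k
  choose a ha using fun i => H _ (Z2.amap (ρ' := tr G (ZMod 2)) hz (b.coord i).toAddMonoidHom
    fun _ _ _ => rfl)
  refine ⟨∑ i, a i • b i, B2.congr (Submodule.sum_mem _ fun i (_ : i ∈ Finset.univ) =>
    B2.amap (ρ' := tr G k) (ha i) (LinearMap.toSpanSingleton (ZMod 2) k (b i)).toAddMonoidHom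
      fun _ _ _ => rfl) (fun x _ y _ => ?_) fun _ _ => rfl⟩
  simp only [Finset.sum_apply, Pi.sub_apply, Pi.smul_apply, smul_eq_mul, Finset.sum_mul,
    LinearMap.toAddMonoidHom_coe, LinearMap.toSpanSingleton_apply, sub_smul,
    Finset.sum_sub_distrib]
  congr 1
  · exact (b.sum_repr (z x y)).symm
  · refine Finset.sum_congr rfl fun i _ => ?_
    rw [mul_comm (a i), mul_smul, Algebra.smul_def (z₀ x y), mul_comm]
    rfl

end cj


variable {l : ℕ} {P : Ideal (𝓞 Qb)} {K : Type} [Field K] [NumberField K]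

/-- an open subgroup is the group of a number field -/
theorem ex_fld {H : Subgroup GQ} (hH : IsOpen (H : Set GQ)) :
    ∃ (L : Type) (_ : Field L) (_ : NumberField L) (j : L →+* Qb), GK j = H := by
  haveI := isGalois_Qb
  have hfix : (IntermediateField.fixedField H).fixingSubgroup = H :=
    InfiniteGalois.fixingSubgroup_fixedField ⟨H, H.isClosed_of_isOpen hH⟩
  have hfin : FiniteDimensional ℚ (FF H) := finU H hH
  refine ⟨FF H, inferInstance, { to_charZero := inferInstance, to_finiteDimensional := hfin },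
    (IntermediateField.fixedField H).val.toRingHom, Subgroup.ext fun g => ⟨fun h => ?_,
      fun h x => (IntermediateField.mem_fixedField_iff _ _).1 x.2 _ h⟩⟩
  rw [← hfix, IntermediateField.mem_fixingSubgroup_iff]
  exact fun x hx => h (⟨x, hx⟩ : FF H)

theorem gz (g : GQ) : g ∈ Gz 2 := le_gz_two ⊤ trivial

/-- a local character is the Kummer character of a global element -/
theorem glob (j : K →+* Qb) (h : Ov l P) {χ : GQ → ZMod 2} (c : Ch (GK j ⊓ dec P) χ) :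
    ∃ a : K, a ≠ 0 ∧ ∀ g ∈ GK j ⊓ dec P, χ g = ka 2 (j a) g := by
  obtain ⟨b, b0, b1, b2⟩ := (kum 2 _ (le_gz_two _)).1 χ c
  obtain ⟨a, a0, e⟩ := ext 2 K j (fp P) b (le_gz_two _) (mem_ab_fp.2 ⟨l, trivial, h⟩) b0
    (by rwa [st_fp])
  rw [st_fp] at e
  exact ⟨a, a0, fun g hg => (b2 g hg).trans (e g hg).symm⟩

omit [NumberField K] in
theorem kch (j : K →+* Qb) {a : K} (a0 : a ≠ 0) {A : Subgroup GQ} (le : A ≤ GK j) :
    Ch A (ka 2 (j a)) := ka_ch (le_gz_two _) ((map_ne_zero j).2 a0) fun g hg => le hg a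

theorem ord_mul (v : HeightOneSpectrum (𝓞 K)) {x y : K} (hx : x ≠ 0) (hy : y ≠ 0) :
    ordv v (x * y) = ordv v x + ordv v y := by
  unfold ordv
  rw [map_mul, WithZero.log_mul ((Valuation.ne_zero_iff _).2 hx) ((Valuation.ne_zero_iff _).2 hy)]
  ring

theorem ord_div (v : HeightOneSpectrum (𝓞 K)) {x y : K} (hx : x ≠ 0) (hy : y ≠ 0) :
    ordv v (x / y) = ordv v x - ordv v y := by
  rw [eq_sub_iff_add_eq, ← ord_mul v (div_ne_zero hx hy) hy, div_mul_cancel₀ _ hy]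

theorem ex_unif (v : HeightOneSpectrum (𝓞 K)) : ∃ π : K, π ≠ 0 ∧ ordv v π = 1 := by
  obtain ⟨π, hπ⟩ := v.valuation_exists_uniformizer K
  refine ⟨π, fun e => ?_, by rw [ordv, hπ, WithZero.log_exp, neg_neg]⟩
  rw [e, map_zero] at hπ
  exact WithZero.exp_ne_zero hπ.symm

/-- the quadratic extension which belongs to a local character; norms and transfer -/
theorem quad (j : K →+* Qb) (h : Ov l P) {v : HeightOneSpectrum (𝓞 K)}
    (hv : below j P = v.asIdeal) {A' : Subgroup GQ} {η : GQ → ZMod 2} {σ : GQ}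
    (k : Kr (GK j ⊓ dec P) A' η σ) :
    ∃ (M : Type) (_ : Field M) (_ : NumberField M) (jM : M →+* Qb) (w : HeightOneSpectrum (𝓞 M))
      (e : ℕ), A' = GK jM ⊓ dec P ∧ (e = 1 ↔ ∀ i ∈ GK j, Inert P i → η i = 0) ∧
      ∀ y : M, y ≠ 0 → ∃ n : K, n ≠ 0 ∧ (e : ℤ) * ordv v n = 2 * ordv w y ∧
        Tf (GK j ⊓ dec P) A' σ (ka 2 (jM y)) (ka 2 (j n)) := by
  obtain ⟨d, d0, hd⟩ := glob j h k.ch
  have c := kch j d0 le_rfl
  have k' : Kr (GK j) c.ker (ka 2 (j d)) σ := ⟨c, fun _ => Iff.rfl, k.sm.1, hd σ k.sm ▸ k.s1⟩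
  obtain ⟨M, _, _, _, _, jM, ρ, D, hM, hker⟩ := exists_fld j c.ker
    (c.le_ker.isOpen (isOpen_GK j)) k'.le fun g hg u hu =>
      ⟨mul_mem (mul_mem hg hu.1) (inv_mem hg), by
        rw [c.1 _ (mul_mem hg hu.1) _ (inv_mem hg), c.1 _ hg _ hu.1, c.inv hg, hu.2]; ring⟩
  have hA : A' = GK jM ⊓ dec P := Subgroup.ext fun g => by
    rw [k.mem, hM]
    exact ⟨fun m => ⟨⟨m.1.1, hd g m.1 ▸ m.2⟩, m.1.2⟩,
      fun m => ⟨⟨m.1.1, m.2⟩, (hd g ⟨m.1.1, m.2⟩).trans m.1.2⟩⟩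
  let w := blw jM h
  haveI := H269.liesOver_dn v w ((D.below_comap P).trans hv)
  have he := Ideal.card_inertia_eq_ramificationIdxIn (G := M ≃ₐ[K] M) v.asIdeal w.asIdeal
  rw [Ideal.ramificationIdxIn_eq_ramificationIdx v.asIdeal w.asIdeal (M ≃ₐ[K] M),
    ← Ideal.ramificationIdx'_eq_ramificationIdx _ _ v.ne_bot] at he
  refine ⟨M, _, inferInstance, jM, w, v.asIdeal.ramificationIdx' w.asIdeal, hA, ?_,
    fun y y0 => ?_⟩
  · rw [← he, Subgroup.card_eq_one, Subgroup.eq_bot_iff_forall]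
    exact ⟨fun b i hi m => (hd i ⟨hi, inP_le_dec m⟩).trans
        ((hker ⟨i, hi⟩).1 (b _ fun x => D.inertia_push (g := ⟨i, hi⟩) m x)).2,
      fun b τ m => D.inertia_eq_bot h.2.1 (fun g hg => (hker g).2
        ⟨g.2, (hd g ⟨g.2, inP_le_dec hg⟩).symm.trans (b g g.2 hg)⟩) m⟩
  have f1 : ∀ u ∈ c.ker, u (jM y) = jM y := fun u hu => (hM ▸ hu : u ∈ GK jM) y
  have f2 : ∀ u ∈ c.ker, u (σ (jM y)) = σ (jM y) := fun u hu => by
    have := congrArg σ (f1 _ (k'.cj hu))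
    rwa [← AlgEquiv.mul_apply, ← mul_assoc, mul_inv_cancel_left, AlgEquiv.mul_apply] at this
  have f3 : σ (σ (jM y)) = jM y := f1 _ k'.sq
  obtain ⟨n, hn⟩ := fixed j (x := jM y * σ (jM y)) fun g => by
    by_cases m : g.1 ∈ c.ker
    · rw [map_mul, f1 _ m, f2 _ m]
    · rw [← mul_inv_cancel_left σ g.1, AlgEquiv.mul_apply, map_mul, f1 _ (k'.out g.2 m),
        f2 _ (k'.out g.2 m), map_mul, f3, mul_comm]
  have y1 : jM y ≠ 0 := (map_ne_zero jM).2 y0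
  have y2 : σ (jM y) ≠ 0 := (map_ne_zero σ).2 y1
  have n1 : j n ≠ 0 := hn ▸ mul_ne_zero y1 y2
  have n0 := (map_ne_zero j).1 n1
  have lA : A' ≤ c.ker := hA ▸ hM ▸ inf_le_left
  refine ⟨n, n0, ?_, kch jM y0 (hA ▸ inf_le_left), kch j n0 inf_le_left, fun g hg => ?_, ?_⟩
  · let τ := ρ ⟨σ, k.sm.1⟩
    have e1 : algebraMap K M n = y * τ y :=
      jM.injective (by rw [D.comp, hn, map_mul, ← D.act])
    have e2 : P027M.S.Gen.cm τ.toRingEquiv w = w := HeightOneSpectrum.ext (Ideal.ext fun x => by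
      refine Iff.trans ?_ (k.sm.2 (RingOfIntegers.mapRingHom jM x))
      rw [D.smul_map ⟨σ, k.sm.1⟩ x]
      rfl)
    have e3 : ordv w (τ y) = ordv w y := by
      have := P027M.S.Gen.val_cm τ.toRingEquiv w y
      rw [e2] at this
      rw [ordv, ordv, this]; rfl
    have e4 := ord_mul w y0 ((map_ne_zero τ).2 y0)
    rw [e3, ← two_mul, ← e1] at e4
    rw [← e4, ordv, ordv, ← HeightOneSpectrum.valuation_liesOver M v w n, WithZero.log_pow]
    simp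
  · have := ka_conj y1 σ (gz _) (f1 _ (k'.cj (lA hg)))
    rw [oz_two, one_mul, ← mul_assoc, mul_inv_cancel_left, mul_inv_cancel_right] at this
    rw [hn, ka_mul y1 y2 (gz g) (f1 g (lA hg)) (f2 g (lA hg)), this]
  · refine ka_eq (β := rt 2 (jM y) * σ (rt 2 (jM y))) n1
      (by rw [mul_pow, ← map_pow, rt_pow, hn]) (gz σ) ?_
    rw [map_mul, ← AlgEquiv.mul_apply, ka_spec (f1 _ k'.sq)]
    ring

/-- a norm from the unramified extension has even order -/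
theorem uns1 (j : K →+* Qb) (h : Ov l P) {v : HeightOneSpectrum (𝓞 K)}
    (hv : below j P = v.asIdeal) {u : GQ → ZMod 2} (hu : Ch (GK j ⊓ dec P) u)
    (hI : ∀ g ∈ GK j, Inert P g → u g = 0) (hs : ∃ σ ∈ GK j ⊓ dec P, u σ ≠ 0) {a : K} (a0 : a ≠ 0)
    (hb : cup u (ka 2 (j a)) ∈ B (GK j ⊓ dec P)) : (2 : ℤ) ∣ ordv v a := by
  obtain ⟨σ, s, s0⟩ := hs
  have k : Kr (GK j ⊓ dec P) hu.ker u σ := ⟨hu, fun _ => Iff.rfl, s, z01 _ s0⟩
  obtain ⟨b, t⟩ := k.exa (kch j a0 inf_le_left) hb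
  obtain ⟨M, _, _, jM, w, e, hA, he, H⟩ := quad j h hv k
  obtain ⟨y, y0, hy⟩ := glob jM h (hA ▸ t.cb)
  obtain ⟨n, n0, h1, t'⟩ := H y y0
  have h2 := dvd_ordv (p := 2) j h hv (div_ne_zero a0 n0) fun g hg i => ⟨gz g, by
    rw [map_div₀, ka_div ((map_ne_zero j).2 a0) ((map_ne_zero j).2 n0) (gz g) (hg a) (hg n),
      k.uniq t t' (fun x m => hy x (hA ▸ m)) ⟨hg, inP_le_dec i⟩, sub_self]⟩
  rw [he.2 hI] at h1
  rw [ord_div v a0 n0] at h2
  omega

/-- the local groups -/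
def Lo (P : Ideal (𝓞 Qb)) (A : Subgroup GQ) : Prop :=
  ∃ H : Subgroup GQ, IsOpen (H : Set GQ) ∧ A = H ⊓ dec P

/-- unramified characters which are not trivial -/
def Un (P : Ideal (𝓞 Qb)) (A : Subgroup GQ) (u : GQ → ZMod 2) : Prop :=
  Ch A u ∧ (∀ g ∈ A, Inert P g → u g = 0) ∧ ∃ σ ∈ A, u σ ≠ 0

variable {A A' : Subgroup GQ} {u : GQ → ZMod 2}

theorem Lo.sub (h : Lo P A) (le : A' ≤ A) (e : Le ∅ A A') : Lo P A' := by
  obtain ⟨H, o, rfl⟩ := h
  obtain ⟨W, hW, e⟩ := e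
  obtain ⟨V, hV, lV⟩ := ex_lv' (H := H ⊓ W) (o.inter hW.opn)
  haveI := hV.nrm
  refine ⟨A' ⊔ V, Subgroup.isOpen_mono le_sup_right hV.opn, le_antisymm
    (le_inf le_sup_left (le.trans inf_le_right)) fun g m => ?_⟩
  obtain ⟨a, ha, w, hw, rfl⟩ := Subgroup.mem_sup_of_normal_right.1 m.1
  exact mul_mem ha (e w ⟨(lV hw).1, (Subgroup.mul_mem_cancel_left _ (le ha).2).1 m.2⟩ (lV hw).2)

theorem Lo.fld (h : Lo P A) : ∃ (K : Type) (_ : Field K) (_ : NumberField K) (j : K →+* Qb),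
    A = GK j ⊓ dec P := by
  obtain ⟨H, o, rfl⟩ := h
  obtain ⟨K, _, _, j, rfl⟩ := ex_fld o
  exact ⟨K, _, inferInstance, j, rfl⟩

theorem Lo.un (h : Lo P A) (o : Ov l P) : ∃ u, Un P A u := by
  obtain ⟨H, hH, rfl⟩ := h
  obtain ⟨u, u1, u2, σ, s, s1⟩ := uch 2 H l P hH o
  exact ⟨u, u1, fun g m => u2 g m.1, σ, s, s1 ▸ one_ne_zero⟩

theorem Lo.n2 (hN : NIL 2) (h : Lo P A) (o : Ov l P) : N2 A := fun η β γ a b c m m' => by
  obtain ⟨H, hH, rfl⟩ := h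
  obtain ⟨x, hx⟩ := hN H l P η β γ hH (le_gz_two _) o a b c m
  rw [z01 x (fun e => m' (by simpa [e] using hx)), one_smul] at hx
  simpa using neg_mem hx

theorem Lo.nz (h : Lo P A) (o : Ov l P) (hu : Un P A u) : ∃ β, Ch A β ∧ cup u β ∉ B A := by
  obtain ⟨K, _, _, j, rfl⟩ := h.fld
  obtain ⟨π, p0, p1⟩ := ex_unif (blw j o)
  refine ⟨_, kch j p0 inf_le_left, fun m => ?_⟩
  have := uns1 j o (v := blw j o) rfl hu.1 (fun g a i => hu.2.1 g ⟨a, inP_le_dec i⟩ i) hu.2.2 p0 m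
  omega

/-- every symbol is an unramified symbol -/
theorem Lo.sym (hN : NIL 2) (h : Lo P A) (o : Ov l P) (hu : Un P A u) {a b : GQ → ZMod 2}
    (ha : Ch A a) (hb : Ch A b) : ∃ β, Ch A β ∧ cup a b - cup u β ∈ B A := by
  obtain ⟨β, c, m⟩ := h.nz o hu
  by_cases e : cup a b ∈ B A
  · exact ⟨0, by simpa using c.smul 0, bc e fun _ _ _ _ => by simp [cup]⟩
  · exact ⟨β, c, (h.n2 hN o).line ha hb hu.1 c e m⟩

/-- the transfer does not kill the symbols -/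
theorem Lo.key (h : Lo P A) (o : Ov l P) {η : GQ → ZMod 2} {σ : GQ} (k : Kr A A' η σ) :
    ∃ a b v, Ch A a ∧ Tf A A' σ b v ∧ cup a v ∉ B A := by
  by_cases r : ∀ g ∈ A, Inert P g → η g = 0
  · obtain ⟨β, c, m⟩ := h.nz o ⟨k.ch, r, σ, k.sm, k.s1 ▸ one_ne_zero⟩
    obtain ⟨H, hH, rfl⟩ := h
    obtain ⟨b, t⟩ := k.exa k.ch (unr 2 _ H l P _ hH o (cup_z2 k.ch k.ch) fun g a j b i c d => by
      have m : i ∈ H ⊓ dec P := ⟨c, inP_le_dec d⟩
      simp only [cup, k.ch.1 g a i m, k.ch.1 j b i m, r i m d, add_zero, and_self])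
    exact ⟨β, b, η, c, t, mt (skew c k.ch) m⟩
  obtain ⟨u, hu⟩ := h.un o
  obtain ⟨K, _, _, j, rfl⟩ := h.fld
  obtain ⟨M, _, _, jM, w, e, -, he, H⟩ := quad j o (v := blw j o) rfl k
  obtain ⟨π, p0, p1⟩ := ex_unif w
  obtain ⟨n, n0, h1, t⟩ := H π p0
  refine ⟨u, _, _, hu.1, t, fun m => r fun g a => he.1 ?_ g a.1⟩
  obtain ⟨x, hx⟩ := uns1 j o (v := blw j o) rfl hu.1
    (fun g a i => hu.2.1 g ⟨a, inP_le_dec i⟩ i) hu.2.2 n0 m
  rw [p1, hx] at h1
  exact_mod_cast Int.eq_one_of_mul_eq_one_right (Int.natCast_nonneg e)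
    (show (e : ℤ) * x = 1 by linarith)

end Dm

open Dm

/-- **the local norm index** -/
theorem nil (h : P022E.GW.NIL) : NIL 2 := fun H l P η β γ o _ hP a b c m => by
  by_cases m' : cup η γ ∈ B (H ⊓ dec P)
  · exact ⟨0, by simpa using m'⟩
  obtain ⟨B₁, a', o1, l1, k1, ca, ea⟩ := a.ext_open o inf_le_left
  obtain ⟨B₂, b', o2, l2, k2, cb, eb⟩ := b.ext_open o1 l1
  obtain ⟨B₃, c', o3, l3, k3, cc, ec⟩ := c.ext_open o2 l2
  have e : B₃ ⊓ dec P = H ⊓ dec P :=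
    le_antisymm (inf_le_inf_right _ (k3.trans (k2.trans k1))) (le_inf l3 inf_le_right)
  have := h B₃ (dec P) l a' b' c' o3 (isDec_fp hP) (ca.mono (k3.trans k2)).lib (cb.mono k3).lib
    cc.lib
  simp only [e, cb_iff (inf_dec_closed o P), cup_lib] at this
  refine ⟨1, bc (this (fun x => m (bc x fun g s j t => ?_)) fun x => m' (bc x fun g s j t => ?_))
    fun g s j t => ?_⟩
  · simp only [cup, ea g s, eb j t]
  · simp only [cup, ea g s, ec j t]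
  · simp only [cup, one_smul, Pi.sub_apply, Pi.add_apply, ea g s, eb j t, ec j t]
    linear_combination -(η g * β j) * two0

/-- **the unramified symbol** -/
theorem uns (hN : NIL 2) : UNS 2 := fun K _ _ j l P v u a _ h hv hu hI hs a0 => by
  refine ⟨uns1 j h hv hu hI hs a0, fun d => by_contra fun m => ?_⟩
  obtain ⟨π, p0, p1⟩ := ex_unif v
  have e := Lo.n2 hN ⟨_, isOpen_GK j, rfl⟩ h u _ _ hu (kch j p0 inf_le_left)
    (kch j a0 inf_le_left) (fun x => by have := uns1 j h hv hu hI hs p0 x; omega) m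
  have := uns1 j h hv hu hI hs (div_ne_zero p0 a0) (bc e fun g _ x hx => by
    simp only [cup, Pi.sub_apply]
    rw [map_div₀, ka_div ((map_ne_zero j).2 p0) ((map_ne_zero j).2 a0) (gz x) (hx.1 π) (hx.1 a),
      mul_sub])
  rw [ord_div v p0 a0] at this
  push_cast at d
  omega

/-- **every local class is an unramified symbol** -/
theorem dim1 (hN : NIL 2) (hG : GYS 2) : DIM1 2 := fun H l P u z hH _ o hu hI hs hz => by
  have h : Lo P (H ⊓ dec P) := ⟨H, hH, rfl⟩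
  have c0 : ∀ A : Subgroup GQ, Ch A (0 : GQ → ZMod 2) := fun A =>
    ⟨fun _ _ _ _ => (add_zero _).symm, ⊤, Lv.top _, fun _ _ _ => rfl⟩
  obtain ⟨a, b, ha, hb, e⟩ := tow 2 GQ _ z
    (fun A => ∃ a b, Ch A a ∧ Ch A b ∧ z - cup a b ∈ B A) hz
    (fun A _ _ m => ⟨0, 0, c0 A, c0 A, bc m fun _ _ _ _ => by simp [cup]⟩)
    (fun A A' η l1 l2 c k ⟨a, b, ha, hb, e⟩ => by
      by_cases s : ∀ g ∈ A, η g = 0
      · obtain rfl : A' = A := Subgroup.ext fun g => (k g).trans (and_iff_left_of_imp (s g))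
        exact ⟨a, b, ha, hb, e⟩
      push Not at s
      obtain ⟨σ, s, s0⟩ := s
      have k' : Kr A A' η σ := ⟨c, k, s, z01 _ s0⟩
      have z1 := Z2.mono hz subset_rfl l1
      obtain ⟨a', b', v, c', t, m⟩ := (h.sub l1 (l2.up k'.le)).key o k'
      obtain ⟨x, x0, x1, x2⟩ := hG A A' η z (le_gz_two _) c k z1
        (k'.dies ((h.sub (k'.le.trans l1) l2).n2 hN o) z1 c' t m ha hb e)
      exact ⟨η, _, c, ka_ch (le_gz_two _) x0 x1, x2⟩)
    fun A A' l0 l1 l2 od ⟨a, b, ha, hb, e⟩ => by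
      obtain ⟨u, u1, u2, σ, s, s0⟩ := (h.sub l1 (l2.up l0)).un o
      obtain ⟨g, g1, -, g2⟩ := ne_of_odd u1 s s0 od
      obtain ⟨β, c, m⟩ := (h.sub (l0.trans l1) l2).sym hN o
        ⟨u1.mono l0, fun g m => u2 g (l0 m), g, g1, g2⟩ ha hb
      obtain ⟨R, t⟩ := ex_tv (Γ := A) (U := A') fun x => od (x ▸ dvd_zero 2)
      obtain ⟨v, v1, v2, -⟩ := trc GQ _ A A' R z u β t (l2.mono subset_rfl l1)
        (Z2.mono hz subset_rfl l1) u1 (c.mono inf_le_right)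
        (B2.mono (btr e m) subset_rfl inf_le_right)
      rw [t.card, z01 _ (mt (ZMod.natCast_eq_zero_iff _ 2).1 od), one_smul] at v2
      exact ⟨u, v, u1, v1, v2⟩
  obtain ⟨β, c, m⟩ := h.sym hN o ⟨hu, fun g m => hI g m.1, hs⟩ ha hb
  exact ⟨β, c, btr e m⟩

/-- **the local second cohomology of a character** -/
theorem dimt (hN : NIL 2) (hD : DIM1 2) : DIMT 2 := fun k _ _ _ Γ l P θ hΓ o r => by
  classical
  have mu := r.mu
  let U : Subgroup GQ :=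
    { carrier := {g | g ∈ Γ ∧ θ g = 1}
      mul_mem' := fun a b => ⟨mul_mem a.1 b.1, by rw [mu.2 _ a.1 _ b.1, a.2, b.2, mul_one]⟩
      one_mem' := ⟨one_mem _, mu.1⟩
      inv_mem' := fun a => ⟨inv_mem a.1, by simpa [a.2] using mu.inv a.1⟩ }
  have lU : Le ∅ Γ U := r.lv.imp fun W hW => ⟨hW.1, fun w a b => ⟨a, by
    simpa [ch_apply] using LinearMap.congr_fun (hW.2 w a b) 1⟩⟩
  have oU := lU.isOpen hΓ
  have eU : Γ ⊓ dec P ⊓ U = U ⊓ dec P :=
    Subgroup.ext fun g => ⟨fun m => ⟨m.2, m.1.2⟩, fun m => ⟨⟨m.1.1, m.2⟩, m.1⟩⟩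
  have l1 : U ⊓ dec P ≤ Γ ⊓ dec P := fun g m => ⟨m.1.1, m.2⟩
  have e1 : ∀ g ∈ U ⊓ dec P, tr GQ k g = ch θ g := fun g m => by rw [ch, m.1.2, one_smul]; rfl
  have r1 : Rp ∅ (Γ ⊓ dec P) (ch θ) := r.mono subset_rfl inf_le_left
  have od : ((U.relIndex (Γ ⊓ dec P) : ℕ) : k) ≠ 0 := by
    let f : (Γ ⊓ dec P : Subgroup GQ) →* kˣ := MonoidHom.toHomUnits
      { toFun := fun g => θ g, map_one' := mu.1, map_mul' := fun a b => mu.2 _ a.2.1 _ b.2.1 }
    have : U.subgroupOf (Γ ⊓ dec P) = f.ker := Subgroup.ext fun g =>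
      ⟨fun m => Units.ext m.2, fun m => ⟨g.2.1, congrArg Units.val m⟩⟩
    rw [Subgroup.relIndex, this, Subgroup.index_ker]
    obtain ⟨c, hc⟩ := Subgroup.card_subgroup_dvd_card f.range
    haveI := Fintype.ofFinite k
    intro h0
    have h1 := congrArg (Nat.cast : ℕ → k) hc
    rw [Nat.cast_mul, h0, zero_mul, Nat.card_units, Nat.card_eq_fintype_card,
      Nat.cast_sub Fintype.card_pos, FiniteField.cast_card_eq_zero] at h1
    simpa using h1
  have inj : ∀ z ∈ Z2 ∅ (Γ ⊓ dec P) (ch θ), z ∈ B2 ∅ (U ⊓ dec P) (tr GQ k) →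
      z ∈ B2 ∅ (Γ ⊓ dec P) (ch θ) := fun z hz m =>
    tr2 GQ k k ∅ _ U _ z r1 (pr0 GQ k k ∅ _ U _ r1 od) (lU.mono subset_rfl inf_le_left) hz
      (eU ▸ B2.congr m (fun _ _ _ _ => rfl) fun g a => (e1 g a).symm)
  have res : ∀ z ∈ Z2 ∅ (Γ ⊓ dec P) (ch θ), z ∈ Z2 ∅ (U ⊓ dec P) (tr GQ k) := fun z hz =>
    Z2.congr (Z2.mono hz subset_rfl l1) (fun _ _ _ _ => rfl) e1
  have h : Lo P (U ⊓ dec P) := ⟨U, oU, rfl⟩
  obtain ⟨u, hu⟩ := h.un o
  obtain ⟨β, cβ, nβ⟩ := h.nz o hu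
  have H : ∀ z ∈ Z2 ∅ (U ⊓ dec P) (tr GQ (ZMod 2)),
      ∃ a : ZMod 2, z - a • cup u β ∈ B (U ⊓ dec P) := fun z hz => by
    obtain ⟨γ, c, m⟩ := hD U l P u z oU (le_gz_two _) o hu.1
      (fun g a i => hu.2.1 g ⟨a, inP_le_dec i⟩ i) hu.2.2 hz
    exact (hN U l P u β γ oU (le_gz_two _) o hu.1 cβ c nβ).imp fun a x => btr m x
  let f := ZMod.castHom (dvd_refl 2) k
  refine ⟨(rq_le LinearMap.id res inj).trans ?_, fun ⟨g, hg, g1⟩ => rq_eq_zero.2 fun z hz =>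
    inj z hz ?_⟩
  · refine (Submodule.rank_mono (t := Submodule.span k {(B2 ∅ (U ⊓ dec P) (tr GQ k)).mkQ
      fun x y => f (cup u β x y)}) ?_).trans ((rank_span_le _).trans (by simp))
    rintro _ ⟨z, hz, rfl⟩
    obtain ⟨c, hc⟩ := line_up H hz
    exact Submodule.mem_span_singleton.2 ⟨c, by
      rw [← map_smul]; exact ((Submodule.Quotient.eq _).2 hc).symm⟩
  rw [om_two] at g1
  have n : ∀ x ∈ U ⊓ dec P, g * x * g⁻¹ ∈ U ⊓ dec P := fun x m =>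
    ⟨⟨mul_mem (mul_mem hg.1 m.1.1) (inv_mem hg.1), by
      rw [mu.2 _ (mul_mem hg.1 m.1.1) _ (inv_mem hg.1), mu.2 _ hg.1 _ m.1.1, m.1.2, mul_one,
        mu.inv hg.1]⟩, (dec P).mul_mem ((dec P).mul_mem hg.2 m.2) ((dec P).inv_mem hg.2)⟩
  obtain ⟨c, hc⟩ := line_up H (res z hz)
  obtain ⟨a, ha⟩ := H _ (z2_cj n (cup_z2 hu.1 cβ))
  have h1 : _ ∈ B2 ∅ (U ⊓ dec P) (tr GQ k) := B2.congr
    (B2.mono (cj0 GQ k k ∅ _ _ z g r1 hz hg) subset_rfl l1) (fun _ _ _ _ => rfl) e1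
  have h2 := b2_cj n hc
  have h3 := B2.amap (ρ' := tr GQ k) ha f.toAddMonoidHom fun _ _ _ => rfl
  have t : 1 - θ g⁻¹ * f a ≠ 0 := by
    rcases eq_or_ne a 0 with rfl | a0
    · simp
    · rw [z01 a a0, map_one, mul_one, sub_ne_zero]
      exact fun e => g1 (by simpa [← e] using mu.inv hg.1)
  have h4 := sub_mem (add_mem (add_mem h1 (Submodule.smul_mem _ (θ g⁻¹) h2))
    (Submodule.smul_mem _ (θ g⁻¹ * c) h3)) (Submodule.smul_mem _ (θ g⁻¹ * f a) hc)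
  refine B2.congr (Submodule.smul_mem _ (1 - θ g⁻¹ * f a)⁻¹ h4) (fun x _ y _ => ?_) fun _ _ => rfl
  simp only [Pi.sub_apply, Pi.add_apply, Pi.smul_apply, smul_eq_mul, ch_apply,
    RingHom.toAddMonoidHom_eq_coe, AddMonoidHom.coe_coe, map_sub, map_mul]
  rw [eq_inv_mul_iff_mul_eq₀ t]
  ring

end Vale.Agent.P022K.G2
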