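import Vale.Agent.P022K.G2.Adp

/-!
# P022K, block G2: levels, the cyclotomic character, Kummer characters (row `KUM`; helper69)
-/

set_option linter.all false

noncomputable section

namespace Vale.Agent.P022K.G2

open NumberField Module
open Vale.Agent.P022 Vale.Agent.P022.H916

/-! ### levels in the Galois group -/

theorem ex_lv' {H : Subgroup GQ} (h : IsOpen (H : Set GQ)) : ∃ W, Lv ∅ W ∧ W ≤ H :=
  ex_lv h H.one_mem

theorem stab_open (w : Qb) : IsOpen (MulAction.stabilizer GQ w : Set GQ) :=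
  stabilizer_isOpen_of_isIntegral w

/-- a level which fixes a given element -/
theorem ex_lv_fix (w : Qb) : ∃ W : Subgroup GQ, Lv ∅ W ∧ ∀ g ∈ W, g w = w :=
  (ex_lv' (stab_open w)).imp fun _ h => ⟨h.1, fun _ hg => h.2 hg⟩

/-- an element outside a closed subgroup moves some fixed element -/
theorem sep (V : Subgroup GQ) (hc : IsClosed (V : Set GQ)) {s : GQ} (hs : s ∉ V) :
    ∃ θ : Qb, (∀ v ∈ V, v θ = θ) ∧ s θ ≠ θ := by
  have h : (IntermediateField.fixedField V).fixingSubgroup = V :=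
    InfiniteGalois.fixingSubgroup_fixedField (k := ℚ) (K := Qb) ⟨V, hc⟩
  by_contra! hcon
  refine hs (h ▸ (IntermediateField.mem_fixingSubgroup_iff _ _).2 fun x hx => ?_)
  exact hcon x ((IntermediateField.mem_fixedField_iff _ _).1 hx)

variable {p : ℕ} [Fact p.Prime]

/-! ### roots of unity -/

theorem zt_pow : zt p ^ p = 1 := (zt_prim p).pow_eq_one

theorem zt_ne : zt p ≠ 0 := (zt_prim p).ne_zero (Fact.out : p.Prime).ne_zero

theorem pw_add (a b : ZMod p) : zt p ^ (a + b).val = zt p ^ a.val * zt p ^ b.val := by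
  rw [ZMod.val_add, ← pow_add]
  exact (pow_eq_pow_mod _ zt_pow).symm

theorem pw_mul (a b : ZMod p) : zt p ^ (a * b).val = (zt p ^ a.val) ^ b.val := by
  rw [ZMod.val_mul, ← pow_mul]
  exact (pow_eq_pow_mod _ zt_pow).symm

theorem pw_nat (n : ℕ) : zt p ^ (n : ZMod p).val = zt p ^ n := by
  rw [ZMod.val_natCast]
  exact (pow_eq_pow_mod _ zt_pow).symm

theorem pw_inj {a b : ZMod p} (h : zt p ^ a.val = zt p ^ b.val) : a = b :=
  ZMod.val_injective p ((zt_prim p).pow_inj (ZMod.val_lt a) (ZMod.val_lt b) h)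

theorem pw_ex {x : Qb} (hx : x ^ p = 1) : ∃ a : ZMod p, x = zt p ^ a.val := by
  obtain ⟨i, -, e⟩ := (zt_prim p).eq_pow_of_pow_eq_one hx
  exact ⟨i, by rw [pw_nat, e]⟩

theorem pw_pow (a : ZMod p) : (zt p ^ a.val) ^ p = 1 := by
  rw [← pow_mul, mul_comm, pow_mul, zt_pow, one_pow]

theorem ex_log {β γ : Qb} (h : γ ^ p = β ^ p) : ∃ a : ZMod p, γ = zt p ^ a.val * β := by
  by_cases h0 : β = 0
  · rw [h0, zero_pow (Fact.out : p.Prime).ne_zero] at h
    exact ⟨0, by rw [h0, (pow_eq_zero_iff (Fact.out : p.Prime).ne_zero).1 h, mul_zero]⟩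
  obtain ⟨a, ha⟩ := pw_ex (p := p) (x := γ / β) (by rw [div_pow, h, div_self (pow_ne_zero _ h0)])
  exact ⟨a, by rw [← ha, div_mul_cancel₀ _ h0]⟩

theorem oz_spec (g : GQ) : g (zt p) = zt p ^ (oz p g).val :=
  haveI : NeZero p := ⟨(Fact.out : p.Prime).ne_zero⟩
  ((zt_prim p).autToPow_spec ℚ g).symm

theorem oz_pw (g : GQ) (a : ZMod p) : g (zt p ^ a.val) = zt p ^ (oz p g * a).val := by
  rw [map_pow, oz_spec, pw_mul]

theorem oz_one : oz p 1 = 1 := by simp [oz]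

theorem oz_mul (g h : GQ) : oz p (g * h) = oz p g * oz p h := by simp [oz]

theorem oz_ne (g : GQ) : oz p g ≠ 0 := (om0 p g).ne_zero

theorem mem_Gz {g : GQ} : g ∈ Gz p ↔ oz p g = 1 := by
  rw [Gz, MonoidHom.mem_ker, oz, Units.val_eq_one]

theorem mem_Gz' {g : GQ} : g ∈ Gz p ↔ g (zt p) = zt p := by
  rw [mem_Gz, oz_spec]
  refine ⟨fun h => by rw [h, ZMod.val_one, pow_one], fun h => pw_inj ?_⟩
  rw [h, ZMod.val_one, pow_one]

instance Gz_normal : (Gz p).Normal := MonoidHom.normal_ker _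

theorem Gz_open : IsOpen (Gz p : Set GQ) := by
  convert stab_open (zt p) using 1
  exact Set.ext fun g => mem_Gz'

theorem lv_Gz : Lv ∅ (Gz p) := lv_of inferInstance Gz_open

theorem Gz_index : ¬ p ∣ (Gz p).index := by
  intro h
  rw [Gz, Subgroup.index_ker] at h
  have h1 := h.trans (Subgroup.card_subgroup_dvd_card (om0 p).range)
  rw [Nat.card_eq_fintype_card, ZMod.card_units] at h1
  have := (Fact.out : p.Prime).two_le
  have := Nat.le_of_dvd (by omega) h1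
  omega

section om

variable (k : Type) [Field k] [CharP k p]

theorem om_one : om p k 1 = 1 := by rw [om, oz_one, map_one]

theorem om_mul (g h : GQ) : om p k (g * h) = om p k g * om p k h := by
  rw [om, oz_mul, map_mul]; rfl

theorem om_eq_one {g : GQ} : om p k g = 1 ↔ g ∈ Gz p := by
  rw [mem_Gz, om, map_eq_one_iff _ (ZMod.castHom (dvd_refl p) k).injective]

theorem mu_om (Γ : Subgroup GQ) : Mu Γ (om p k) := ⟨om_one k, fun g _ h _ => om_mul k g h⟩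

theorem rp_om (Γ : Subgroup GQ) : Rp ∅ Γ (ch (om p k)) :=
  rp_ch (mu_om k Γ) ⟨_, lv_Gz (p := p), fun _ _ m => (om_eq_one k).2 m⟩

theorem ch_om {g : GQ} (hg : g ∈ Gz p) : ch (om p k) g = tr GQ k g := by
  rw [ch, (om_eq_one k).2 hg, one_smul]; rfl

end om

/-! ### Kummer characters -/

theorem root_ne {b β : Qb} (hb : b ≠ 0) (h : β ^ p = b) : β ≠ 0 := by
  rintro rfl
  exact hb (by rw [← h, zero_pow (Fact.out : p.Prime).ne_zero])

theorem rt_ne {b : Qb} (hb : b ≠ 0) : rt p b ≠ 0 := root_ne hb (rt_pow p b)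

/-- the defining property -/
theorem ka_spec {b : Qb} {g : GQ} (hg : g b = b) : g (rt p b) = zt p ^ (ka p b g).val * rt p b := by
  have h : ∃ j : ZMod p, g (rt p b) = zt p ^ j.val * rt p b :=
    ex_log (by rw [← map_pow, rt_pow, hg])
  rw [ka, dif_pos h]
  exact Classical.choose_spec h

/-- the law holds for every root -/
theorem ka_law {b β : Qb} (hβ : β ^ p = b) {g : GQ} (hz : g ∈ Gz p) (hg : g b = b) :
    g β = zt p ^ (ka p b g).val * β := by
  obtain ⟨a, rfl⟩ := ex_log (p := p) (hβ.trans (rt_pow p b).symm)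
  rw [map_mul, map_pow, mem_Gz'.1 hz, ka_spec hg]
  ring

theorem ka_eq {b β : Qb} (hb : b ≠ 0) (hβ : β ^ p = b) {g : GQ} (hz : g ∈ Gz p) {a : ZMod p}
    (h : g β = zt p ^ a.val * β) : ka p b g = a := by
  have hg : g b = b := by rw [← hβ, map_pow, h, mul_pow, pw_pow, one_mul]
  exact pw_inj (mul_right_cancel₀ (root_ne hb hβ) ((ka_law hβ hz hg).symm.trans h))

theorem ka_eq_zero {b β : Qb} (hb : b ≠ 0) (hβ : β ^ p = b) {g : GQ} (hz : g ∈ Gz p)
    (hg : g b = b) : ka p b g = 0 ↔ g β = β :=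
  ⟨fun h => by rw [ka_law hβ hz hg, h]; simp, fun h => ka_eq hb hβ hz (by simpa using h)⟩

/-- the cocycle relation -/
theorem ka_coc {b : Qb} (hb : b ≠ 0) {g h : GQ} (hg : g b = b) (hh : h b = b) :
    ka p b (g * h) = ka p b g + oz p g * ka p b h := by
  refine pw_inj (mul_right_cancel₀ (rt_ne (p := p) hb) ?_)
  rw [← ka_spec (by rw [AlgEquiv.mul_apply, hh, hg]), AlgEquiv.mul_apply, ka_spec hh, map_mul,
    oz_pw, ka_spec hg, pw_add]
  ring

theorem ka_add {b : Qb} (hb : b ≠ 0) {g h : GQ} (hz : g ∈ Gz p) (hg : g b = b) (hh : h b = b) :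
    ka p b (g * h) = ka p b g + ka p b h := by
  rw [ka_coc hb hg hh, mem_Gz.1 hz, one_mul]

theorem ka_mul {b c : Qb} (hb : b ≠ 0) (hc : c ≠ 0) {g : GQ} (hz : g ∈ Gz p) (hg : g b = b)
    (hh : g c = c) : ka p (b * c) g = ka p b g + ka p c g :=
  ka_eq (β := rt p b * rt p c) (mul_ne_zero hb hc) (by rw [mul_pow, rt_pow, rt_pow]) hz (by
    rw [map_mul, ka_spec hg, ka_spec hh, pw_add]; ring)

theorem ka_one {g : GQ} (hz : g ∈ Gz p) : ka p 1 g = 0 :=
  ka_eq (β := 1) one_ne_zero (one_pow p) hz (by simp)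

theorem ka_inv {b : Qb} (hb : b ≠ 0) {g : GQ} (hz : g ∈ Gz p) (hg : g b = b) :
    ka p b⁻¹ g = -ka p b g := by
  rw [eq_neg_iff_add_eq_zero, ← ka_mul (inv_ne_zero hb) hb hz (by rw [map_inv₀, hg]) hg,
    inv_mul_cancel₀ hb, ka_one hz]

theorem ka_div {b c : Qb} (hb : b ≠ 0) (hc : c ≠ 0) {g : GQ} (hz : g ∈ Gz p) (hg : g b = b)
    (hh : g c = c) : ka p (b / c) g = ka p b g - ka p c g := by
  rw [div_eq_mul_inv, ka_mul hb (inv_ne_zero hc) hz hg (by rw [map_inv₀, hh]), ka_inv hc hz hh,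
    sub_eq_add_neg]

theorem ka_pow {b : Qb} (hb : b ≠ 0) {g : GQ} (hz : g ∈ Gz p) (hg : g b = b) (n : ℕ) :
    ka p (b ^ n) g = n * ka p b g := by
  induction n with
  | zero => simp [ka_one hz]
  | succ n ih =>
    rw [pow_succ, ka_mul (pow_ne_zero _ hb) hb hz (by rw [map_pow, hg]) hg, ih]
    push_cast; ring

theorem ka_zpow {b : Qb} (hb : b ≠ 0) {g : GQ} (hz : g ∈ Gz p) (hg : g b = b) (n : ℤ) :
    ka p (b ^ n) g = n * ka p b g := by
  obtain ⟨n, rfl | rfl⟩ := n.eq_nat_or_neg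
  · rw [zpow_natCast, ka_pow hb hz hg, Int.cast_natCast]
  · rw [zpow_neg, zpow_natCast, ka_inv (pow_ne_zero _ hb) hz (by rw [map_pow, hg]),
      ka_pow hb hz hg]
    simp

theorem ka_prod {ι : Type*} (s : Finset ι) {b : ι → Qb} {g : GQ} (hz : g ∈ Gz p)
    (hb : ∀ i ∈ s, b i ≠ 0 ∧ g (b i) = b i) : ka p (∏ i ∈ s, b i) g = ∑ i ∈ s, ka p (b i) g := by
  classical
  induction s using Finset.induction_on with
  | empty => simp [ka_one hz]
  | insert a s ha ih =>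
    have h := fun i hi => hb i (Finset.mem_insert_of_mem hi)
    rw [Finset.prod_insert ha, Finset.sum_insert ha, ← ih h,
      ka_mul (hb a (Finset.mem_insert_self _ _)).1 (Finset.prod_ne_zero_iff.2 fun i hi => (h i hi).1)
        hz (hb a (Finset.mem_insert_self _ _)).2
        (by rw [map_prod]; exact Finset.prod_congr rfl fun i hi => (h i hi).2)]

theorem ka_pp {y : Qb} (hy : y ≠ 0) {g : GQ} (hz : g ∈ Gz p) (hg : g y = y) :
    ka p (y ^ p) g = 0 := by rw [ka_pow hy hz hg, ZMod.natCast_self, zero_mul]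

/-- conjugation -/
theorem ka_conj {b : Qb} (hb : b ≠ 0) (g : GQ) {u : GQ} (hz : u ∈ Gz p) (hu : u b = b) :
    ka p (g b) (g * u * g⁻¹) = oz p g * ka p b u :=
  ka_eq (β := g (rt p b)) ((map_ne_zero g).2 hb) (by rw [← map_pow, rt_pow])
    (Gz_normal.conj_mem u hz g) (by
      rw [AlgEquiv.mul_apply, AlgEquiv.mul_apply, ← AlgEquiv.mul_apply g⁻¹, inv_mul_cancel,
        AlgEquiv.one_apply, ka_spec hu, map_mul, oz_pw])

theorem ka_ch {A : Subgroup GQ} (hA : A ≤ Gz p) {b : Qb} (hb : b ≠ 0) (h : ∀ g ∈ A, g b = b) :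
    Ch A (ka p b) := by
  obtain ⟨W, hW, e⟩ := ex_lv_fix (rt p b)
  exact ⟨fun g hg j hj => ka_add hb (hA hg) (h g hg) (h j hj), W, hW, fun w hw m =>
    (ka_eq_zero hb (rt_pow p b) (hA hw) (h w hw)).2 (e w m)⟩

/-- the Kummer cocycle on a subgroup which need not fix the roots of unity -/
theorem ka_lv {b : Qb} (hb : b ≠ 0) :
    ∃ W : Subgroup GQ, Lv ∅ W ∧ ∀ w ∈ W, w b = b ∧ ka p b w = 0 := by
  obtain ⟨W, hW, e⟩ := ex_lv_fix (rt p b)
  refine ⟨W ⊓ Gz p, hW.inf lv_Gz, fun w m => ?_⟩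
  have h : w b = b := by rw [← rt_pow p b, map_pow, e w m.1]
  exact ⟨h, (ka_eq_zero hb (rt_pow p b) m.2 h).2 (e w m.1)⟩

/-- a character extends to an open subgroup -/
theorem Ch.ext_open {k : Type} [Field k] {A : Subgroup GQ} {χ : GQ → k} (h : Ch A χ)
    {V : Subgroup GQ} (hV : IsOpen (V : Set GQ)) (hA : A ≤ V) :
    ∃ (B : Subgroup GQ) (ψ : GQ → k), IsOpen (B : Set GQ) ∧ A ≤ B ∧ B ≤ V ∧ Ch B ψ ∧
      ∀ g ∈ A, ψ g = χ g := by
  classical
  obtain ⟨W0, hW0, e⟩ := h.2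
  obtain ⟨W1, hW1, l1⟩ := ex_lv' hV
  have hW := hW0.inf hW1
  set W := W0 ⊓ W1
  haveI := hW.nrm
  have hB : ∀ g ∈ A ⊔ W, ∃ a ∈ A, a⁻¹ * g ∈ W := fun g hg => by
    obtain ⟨a, ha, w, hw, rfl⟩ := Subgroup.mem_sup_of_normal_right.1 hg
    exact ⟨a, ha, by simpa using hw⟩
  choose! a a1 a2 using hB
  have key : ∀ g ∈ A ⊔ W, ∀ c ∈ A, c⁻¹ * g ∈ W → χ (a g) = χ c := fun g hg c hc m => by
    have h1 : c⁻¹ * a g ∈ W := by simpa using mul_mem m (inv_mem (a2 g hg))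
    have h2 := h.1 c hc _ (mul_mem (inv_mem hc) (a1 g hg))
    rwa [mul_inv_cancel_left, e _ (mul_mem (inv_mem hc) (a1 g hg)) h1.1, add_zero] at h2
  refine ⟨A ⊔ W, fun g => χ (a g), Subgroup.isOpen_mono le_sup_right hW.opn, le_sup_left,
    sup_le hA (inf_le_right.trans l1), ⟨fun g hg j hj => ?_, W, hW, fun w hw m => ?_⟩,
    fun g hg => key g (Subgroup.mem_sup_left hg) g hg (by simp)⟩
  · beta_reduce
    rw [← h.1 _ (a1 g hg) _ (a1 j hj)]
    refine key _ (mul_mem hg hj) _ (mul_mem (a1 g hg) (a1 j hj)) ?_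
    have := mul_mem (hW.nrm.conj_mem _ (a2 g hg) (a j)⁻¹) (a2 j hj)
    convert this using 1
    group
  · beta_reduce
    rw [key w hw 1 (one_mem _) (by simpa using m), h.one]

/-- Lagrange resolvents -/
theorem surj {A : Subgroup GQ} (hA : A ≤ Gz p) {χ : GQ → ZMod p} (hχ : Ch A χ) :
    ∃ β : Qb, β ≠ 0 ∧ ∀ g ∈ A, g β = zt p ^ (χ g).val * β := by
  obtain ⟨Δ, φ, hΔ, l1, l2, ha, e⟩ := hχ.ext_open Gz_open hA
  suffices H : ∃ β : Qb, β ≠ 0 ∧ ∀ g ∈ Δ, g β = zt p ^ (φ g).val * β from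
    H.imp fun β h => ⟨h.1, fun g hg => by rw [h.2 g (l1 hg), e g hg]⟩
  by_cases h : ∀ s ∈ Δ, φ s = 0
  · exact ⟨1, one_ne_zero, fun g hg => by rw [h g hg]; simp⟩
  push Not at h
  obtain ⟨s, hs, s1⟩ : ∃ s ∈ Δ, φ s = 1 := by
    obtain ⟨s, hs, e⟩ := h
    exact ⟨s ^ (φ s)⁻¹.val, Δ.pow_mem hs _, by
      rw [ha.pow hs, ZMod.natCast_zmod_val, inv_mul_cancel₀ e]⟩
  have hc : IsClosed (ha.ker : Set GQ) := by
    obtain ⟨W, hW, e⟩ := ha.le_ker
    exact Subgroup.isClosed_of_isOpen _ (Subgroup.isOpen_mono (H₁ := Δ ⊓ W)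
      (fun w m => e w m.1 m.2) (hΔ.inter hW.opn))
  let K := IntermediateField.fixedField ha.ker
  have hK : ∀ x : K, ∀ g ∈ Δ, ∀ g' ∈ Δ, φ g = φ g' → g x = g' x := fun x g hg g' hg' e => by
    have h1 : g'⁻¹ * g ∈ ha.ker := ⟨Δ.mul_mem (Δ.inv_mem hg') hg, by
      rw [ha.1 _ (Δ.inv_mem hg') _ hg, ha.inv hg', e, neg_add_cancel]⟩
    have h2 := (IntermediateField.mem_fixedField_iff _ _).1 x.2 _ h1
    have h3 := congrArg g' h2
    rwa [← AlgEquiv.mul_apply, mul_inv_cancel_left] at h3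
  have sv : ∀ a : ZMod p, φ (s ^ a.val) = a := fun a => by
    rw [ha.pow hs, s1, mul_one, ZMod.natCast_zmod_val]
  let t : ZMod p → (K →* Qb) := fun a =>
    ((s ^ a.val : GQ) : Qb →* Qb).comp (algebraMap K Qb : K →* Qb)
  have ht : ∀ a (x : K), t a x = (s ^ a.val) x := fun _ _ => rfl
  have ti : Function.Injective t := fun a b e => by
    by_contra ne
    obtain ⟨θ, t1, t2⟩ := sep _ hc (s := (s ^ b.val)⁻¹ * s ^ a.val) fun k => by
      have := k.2
      rw [ha.1 _ (Δ.inv_mem (Δ.pow_mem hs _)) _ (Δ.pow_mem hs _), ha.inv (Δ.pow_mem hs _), sv, sv,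
        neg_add_eq_zero] at this
      exact ne this.symm
    have := DFunLike.congr_fun e ⟨θ, (IntermediateField.mem_fixedField_iff _ _).2 t1⟩
    rw [ht, ht] at this
    apply t2
    rw [AlgEquiv.mul_apply]
    show (s ^ b.val)⁻¹ ((s ^ a.val) θ) = θ
    rw [show (s ^ a.val) θ = (s ^ b.val) θ from this, ← AlgEquiv.mul_apply, inv_mul_cancel]
    rfl
  have li := Fintype.linearIndependent_iff.1 ((linearIndependent_monoidHom K Qb).comp t ti)
    fun a => zt p ^ (-a).val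
  obtain ⟨θ, hθ⟩ : ∃ θ : K, ∑ a : ZMod p, zt p ^ (-a).val * (s ^ a.val) θ ≠ 0 := by
    by_contra! c
    refine pow_ne_zero _ zt_ne (li (funext fun θ => ?_) 0)
    rw [Finset.sum_apply]
    exact c θ
  refine ⟨_, hθ, fun g hg => ?_⟩
  rw [map_sum, Finset.mul_sum]
  refine Fintype.sum_equiv (Equiv.addLeft (φ g)) _ _ fun a => ?_
  show _ = zt p ^ (φ g).val * (zt p ^ (-(φ g + a)).val * (s ^ (φ g + a).val) θ)
  rw [map_mul, map_pow, mem_Gz'.1 (l2 hg), ← AlgEquiv.mul_apply, ← mul_assoc,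
    ← pw_add, neg_add, add_neg_cancel_left,
    hK θ _ (Δ.mul_mem hg (Δ.pow_mem hs _)) _ (Δ.pow_mem hs (φ g + a).val)
      (by rw [ha.1 _ hg _ (Δ.pow_mem hs _), sv, sv])]

/-- **Kummer theory** -/
theorem kum (p : ℕ) [Fact p.Prime] : KUM p := by
  refine fun A hA => ⟨fun χ hχ => ?_, fun b hb h => ⟨ka_ch hA hb h, fun H => ?_, ?_⟩⟩
  · obtain ⟨β, h0, hβ⟩ := surj hA hχ
    exact ⟨β ^ p, pow_ne_zero _ h0, fun g hg => by rw [map_pow, hβ g hg, mul_pow, pw_pow, one_mul],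
      fun g hg => (ka_eq (pow_ne_zero _ h0) rfl (hA hg) (hβ g hg)).symm⟩
  · exact ⟨rt p b, fun g hg => (ka_eq_zero hb (rt_pow p b) (hA hg) (h g hg)).1 (H g hg),
      rt_pow p b⟩
  · rintro ⟨y, hy, e⟩ g hg
    exact (ka_eq_zero hb e (hA hg) (h g hg)).2 (hy g hg)

end Vale.Agent.P022K.G2
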