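import Vale.Agent.P022K.G2.Plc
import Vale.Agent.P022K.G2.Kum
import Vale.Agent.P022K.Cheb.Main

/-!
# P022K, block G2: local conditions on cocycles; rows `LG`, `SH1`, `ENL` (helper42)
-/

set_option linter.all false

noncomputable section

namespace Vale.Agent.P022K.G2

open NumberField Module
open Vale.Agent.P022 Vale.Agent.P022.C
open Vale.Agent.P027M.S (Inert)
open Vale.Agent.P022D.W (dec)
open Vale.Agent.P022E.GW (Ov Fb)
open scoped Pointwise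

namespace Hb

theorem in_conj {T : Set ℕ} {i : GQ} (h : i ∈ In T) (g : GQ) : g * i * g⁻¹ ∈ In T := by
  obtain ⟨l, a, P, b, c⟩ := h
  exact ⟨l, a, g • P, GW.ov_smul b g, GW.Pl.inert_conj c g⟩

theorem lv_core {T : Set ℕ} {Z : Subgroup GQ} (o : IsOpen (Z : Set GQ)) (h : In T ⊆ Z) :
    Lv (In T) Z.normalCore :=
  lv_of' inferInstance (GW.Pl.core_open o) fun _ hi g => h (in_conj hi g)

theorem le_open {I : Set GQ} {Γ : Subgroup GQ} (h : Le I ⊤ Γ) : IsOpen (Γ : Set GQ) :=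
  h.isOpen isOpen_univ

theorem le_in {I : Set GQ} {Γ : Subgroup GQ} (h : Le I ⊤ Γ) : I ⊆ Γ := fun i hi =>
  h.elim fun _ hW => hW.2 i trivial (hW.1.sub hi)

variable {k : Type} [Field k] {N : Type} [AddCommGroup N] [Module k N] {I J : Set GQ}
  {Γ : Subgroup GQ} {ρ : GQ → End k N} {c : GQ → N}

theorem rp_in (r : Rp I Γ ρ) {i : GQ} (hi : i ∈ I) (h : i ∈ Γ) : ρ i = 1 :=
  r.lv.elim fun _ hW => hW.2 i h (hW.1.sub hi)

theorem z1_in (r : c ∈ Z1 I Γ ρ) {i : GQ} (hi : i ∈ I) (h : i ∈ Γ) : c i = 0 :=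
  r.2.2.elim fun _ hW => hW.2 i h (hW.1.sub hi)

/-- the elements on which a cocycle is a given coboundary -/
def Zs (r : Rp I Γ ρ) (hc : c ∈ Z1 J Γ ρ) (n : N) : Subgroup GQ where
  carrier := {d | d ∈ Γ ∧ c d = d0 ρ n d}
  mul_mem' {a b} ha hb := ⟨mul_mem ha.1 hb.1, by
    rw [hc.1 a ha.1 b hb.1, ha.2, hb.2, d0_apply, d0_apply, d0_apply, r.mul' ha.1 hb.1, map_sub]
    abel⟩
  one_mem' := ⟨one_mem _, by rw [Z1.one hc r.one, d0_apply, r.one]; simp⟩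
  inv_mem' {a} ha := ⟨inv_mem ha.1, by
    have := hc.1 _ (inv_mem ha.1) a ha.1
    rw [inv_mul_cancel, Z1.one hc r.one, ha.2, d0_apply, map_sub, r.inv' ha.1] at this
    rw [d0_apply, ← sub_eq_zero, this]; abel⟩

theorem zs_open (r : Rp I Γ ρ) (hc : c ∈ Z1 J Γ ρ) (n : N) (o : IsOpen (Γ : Set GQ)) :
    IsOpen (Zs r hc n : Set GQ) := by
  obtain ⟨W, hW, e⟩ := r.lv
  obtain ⟨V, hV, f⟩ := hc.2.2
  exact Subgroup.isOpen_mono (H₁ := Γ ⊓ (W ⊓ V)) (fun w m => ⟨m.1, by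
    rw [f w m.1 m.2.2, d0_apply, e w m.1 m.2.1]; simp⟩) (o.inter (hW.opn.inter hV.opn))

/-- conjugation -/
theorem cj (r : Rp I Γ ρ) (hc : c ∈ Z1 J Γ ρ) {a e : GQ} (ha : a ∈ Γ) (he : e ∈ Γ) :
    c (a * e * a⁻¹) = c a + ρ a (c e) - ρ (a * e * a⁻¹) (c a) := by
  have := hc.1 _ (mul_mem (mul_mem ha he) (inv_mem ha)) a ha
  rw [inv_mul_cancel_right, hc.1 a ha e he] at this
  rw [this]; abel

theorem b1_conj (r : Rp I Γ ρ) (hc : c ∈ Z1 J Γ ρ) {x : Plc} {n : N}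
    (h : ∀ d ∈ Γ ⊓ St x, c d = d0 ρ n d) {a : GQ} (ha : a ∈ Γ) :
    ∀ d ∈ Γ ⊓ St (a • x), c d = d0 ρ (ρ a n - c a) d := fun d hd => by
  have m : a⁻¹ * d * a ∈ Γ ⊓ St x := ⟨Γ.mul_mem (Γ.mul_mem (Γ.inv_mem ha) hd.1) ha, by
    have : d • a • x = a • x := hd.2
    show (a⁻¹ * d * a) • x = x
    rw [mul_smul, mul_smul, this, inv_smul_smul]⟩
  have e := cj r hc ha m.1
  rw [h _ m, d0_apply, map_sub, ← r.mul' ha m.1, show a * (a⁻¹ * d * a) * a⁻¹ = d by group,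
    show a * (a⁻¹ * d * a) = d * a by group, r.mul' hd.1 ha] at e
  rw [e, d0_apply, map_sub]; abel

theorem loc {ι : Type} {S : Set Plc} {x : ι → Plc} (r : Rp I Γ ρ) (hc : c ∈ Z1 J Γ ρ)
    (hx : Reps Γ S x) (h : ∀ i, c ∈ B1 (Dv Γ x i) ρ) {y : Plc} (hy : y ∈ S) :
    c ∈ B1 (Γ ⊓ St y) ρ := by
  obtain ⟨i, a, ha, rfl⟩ := hx.ex y hy
  obtain ⟨n, hn⟩ := h i
  exact ⟨_, b1_conj r hc hn ha⟩

/-- a cocycle which vanishes on the inertia groups outside `T` -/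
theorem z1_up {T : Set ℕ} (l : Le (In T) ⊤ Γ) (r : Rp I Γ ρ) (hc : c ∈ Z1 J Γ ρ)
    (h : ∀ i ∈ In T, c i = 0) : c ∈ Z1 (In T) Γ ρ :=
  ⟨hc.1, hc.2.1, _, lv_core (zs_open r hc 0 (le_open l))
    (fun i hi => ⟨le_in l hi, by rw [h i hi, map_zero]; rfl⟩), fun w _ m => by
      have := (Subgroup.normalCore_le _ m).2
      rwa [map_zero] at this⟩

end Hb

open Hb

theorem lg (p : ℕ) [Fact p.Prime] : LG p := by
  classical
  intro Γ U H T₀ le uz nz oU oH pr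
  have oW := GW.Pl.core_open oU
  have lW := U.normalCore_le
  obtain ⟨R, R1, R2⟩ := P022E.GW.Hy.ex_ram oW
  obtain ⟨A, A1, A2⟩ := P022E.GW.Hy.ex_bg oU
  obtain ⟨B, B1, B2⟩ := P022E.GW.Hy.ex_bg oH
  choose l φ l1 l2 l3 l4 using fun q : GQ ⧸ U.normalCore =>
    Cheb.cheb U.normalCore inferInstance oW q.out (insert p R)
  have := fin_of_open oW
  have := Fintype.ofFinite (GQ ⧸ U.normalCore)
  have pt : ∀ a ∈ T₀ ∪ ({0, p} ∪ (R ∪ (A ∪ (B ∪ Finset.univ.image l)))), a = 0 ∨ a.Prime := by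
    intro a ha
    simp only [Finset.mem_union, Finset.mem_insert, Finset.mem_singleton, Finset.mem_image] at ha
    rcases ha with e | (e | rfl) | e | e | e | ⟨q, -, rfl⟩
    exacts [pr a e, .inl e, .inr Fact.out, .inr (R1 a e), .inr (A1 a e), .inr (B1 a e),
      .inr (l1 q)]
  refine ⟨_, Finset.subset_union_left, fun a ha _ => pt a ha, ⟨by simp, by simp, le, uz, nz,
    ⟨_, lv_of' inferInstance oW ?_, fun w _ m => lW m⟩, ⟨A2 _ fun a ha => by simp [ha], pt⟩,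
    fun g hg => ?_⟩, B2 _ fun a ha => by simp [ha], pt⟩
  · rintro i ⟨a, ha, P, o, hi⟩
    exact R2 a (fun m => ha (by simp [m])) P o i hi
  · obtain ⟨P, p1, p2, p3⟩ := l3 g
    have o : Ov (l g) P := ⟨l1 g, p1, p2⟩
    have hi : ∀ i, Inert P i → i ∈ U := fun i hi =>
      lW (R2 _ (fun m => l2 g (Finset.mem_insert_of_mem m)) P o i hi)
    have m : g⁻¹ * φ g ∈ U := by
      have := mul_mem (QuotientGroup.eq.1 (QuotientGroup.out_eq' (g : GQ ⧸ U.normalCore)).symm)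
        (l4 g)
      exact lW (by simpa [mul_assoc] using this)
    refine ⟨l g, by simp, P, φ g, ⟨o, fun e => l2 g (e ▸ Finset.mem_insert_self _ _), p3,
      fun d hd => ?_⟩, hi, m⟩
    obtain ⟨n, s, u, hs, hu, rfl⟩ := P022D.W.dec_gen o.1 p1 p2 p3 hd U oU
    exact mul_mem (mul_mem (le hu) (pow_mem (by simpa using mul_mem hg (le m)) n)) (le (hi s hs))

theorem sh1 (p : ℕ) [Fact p.Prime] (hS : SHU p) : SH1 p := by
  intro k _ _ _ N _ _ Γ U T ι x ρ c r L tri cy hx hc h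
  have hl := fun y hy => loc r hc hx h (y := y) hy
  have h0 : ∀ u ∈ U, c u = 0 := fun u hu => by
    letI : Algebra (ZMod p) k := ZMod.algebra k p
    letI : Module (ZMod p) N := Module.compHom N (algebraMap (ZMod p) k)
    refine (Module.forall_dual_apply_eq_zero_iff (ZMod p) (c u)).1 fun f => ?_
    refine hS U T (fun g => f (c g)) L.bg L.h0 ⟨fun a ha b hb => ?_, hc.2.2.imp fun W hW =>
      ⟨hW.1.mono (Set.empty_subset _), fun w hw m => ?_⟩⟩ (fun g hg m => ?_)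
      (fun y hy g hg => ?_) u hu
    · beta_reduce
      rw [hc.1 a (L.le ha) b (L.le hb), tri a ha, map_add]; rfl
    · beta_reduce
      rw [hW.2 w (L.le hw) m, map_zero]
    · beta_reduce
      rw [z1_in hc m (L.le hg), map_zero]
    · obtain ⟨n, hn⟩ := hl y hy
      beta_reduce
      rw [hn g ⟨L.le hg.1, hg.2⟩, d0_apply, tri g hg.1]; simp
  refine cy c (Z1.mono hc (Set.empty_subset _)) h0 fun g hg => ?_
  obtain ⟨l, hl', P, φ, t, -, m⟩ := L.rich g hg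
  obtain ⟨n, hn⟩ := hl (fp P) (mem_ab_fp.2 ⟨l, hl', t.ov⟩)
  have d := P022D.W.phi_mem t.ov.1 t.ov.2.1 t.fb
  have e := hn φ ⟨t.le d, by rwa [st_fp]⟩
  rw [← mul_inv_cancel_left g φ, hc.1 g hg _ (L.le m), h0 _ m, map_zero, add_zero, d0_apply,
    r.mul g hg _ (L.le m), tri _ m, mul_one] at e
  exact ⟨n, e.symm⟩

theorem enl : ENL := by
  classical
  intro k _ N _ _ Γ T T' ι ι' κ _ _ x x' l P ρ fin le h0 out lv r hx hx' _
  have o := le_open lv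
  choose i a ha e using fun j : {j // x' j ∈ Ab T} => hx.ex _ j.2
  have key : ∀ j : {j // x' j ∉ Ab T}, ∃ ψ ∈ Γ, ∀ W : Subgroup GQ, IsOpen (W : Set GQ) →
      In (T ∪ Set.range l) ⊆ W → ψ ∈ W → Dv Γ x' j ≤ W := fun j => by
    rcases Rps.self hx' j with ⟨q, hq, Q, ov, e⟩ | ⟨z, w, e⟩
    · obtain ⟨ψ, h1, h2⟩ := GW.frb.2.2.2 Γ q Q o ov
      refine ⟨ψ, h1.1, fun W oW hW m d hd => ?_⟩
      obtain ⟨n, hn⟩ := h2 W oW (fun s _ hs => hW ⟨q, by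
        rintro (t | ⟨t, rfl⟩)
        exacts [j.2 (e ▸ mem_ab_fp.2 ⟨q, t, ov⟩), out t hq], Q, ov, hs⟩) d
        ⟨hd.1, by rw [← st_fp, ← e]; exact hd.2⟩
      simpa using mul_mem (pow_mem m n) hn
    · exact absurd (e ▸ mem_ab_ip.2 (h0 z)) j.2
  choose ψ p1 p2 using key
  let V := TQ T Γ (Dv Γ x) l P ρ
  let E := {j // x' j ∉ Ab T} → N
  let pr : GQ → (V × E →ₗ[k] N) := fun g =>
    .proj g ∘ₗ .fst _ _ _ ∘ₗ V.subtype ∘ₗ .fst _ _ _
  let G : V × E →ₗ[k] E := .pi fun j => pr (ψ j) - (ρ (ψ j) - 1) ∘ₗ .proj j ∘ₗ .snd _ _ _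
  let f : ι' → (V × E →ₗ[k] N) := fun j =>
    if h : x' j ∈ Ab T then ρ (a ⟨j, h⟩) ∘ₗ .proj (i ⟨j, h⟩) ∘ₗ .snd _ _ _ ∘ₗ V.subtype ∘ₗ
      .fst _ _ _ - pr (a ⟨j, h⟩) else .proj ⟨j, h⟩ ∘ₗ .snd _ _ _
  let F : V × E →ₗ[k] (GQ → N) × (ι' → N) := .prod (.pi pr) (.pi f)
  have F1 : ∀ v, (F v).1 = v.1.1.1 := fun _ => rfl
  have F2 : ∀ v (j : {j // x' j ∈ Ab T}), (F v).2 j = ρ (a j) (v.1.1.2 (i j)) - v.1.1.1 (a j) :=
    fun v j => LinearMap.congr_fun (show f j = _ from dif_pos j.2) v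
  have F3 : ∀ v (j : {j // x' j ∉ Ab T}), (F v).2 j = v.2 j :=
    fun v j => LinearMap.congr_fun (show f j = _ from dif_neg j.2) v
  have inj : Function.Injective F := by
    refine (injective_iff_map_eq_zero F).2 fun v hv => ?_
    have c0 : v.1.1.1 = 0 := by rw [← F1, hv]; rfl
    refine Prod.ext (Subtype.ext (Prod.ext c0 (funext fun s => ?_))) (funext fun j => ?_)
    · obtain ⟨j, b, hb, eb⟩ := hx'.ex _ (Ab_mono (Finset.coe_subset.2 le) (Rps.self hx s))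
      have m : x' j ∈ Ab T := by
        have := Plc.ab_smul (Rps.self hx s) b⁻¹
        rwa [eb, inv_smul_smul] at this
      obtain rfl : i ⟨j, m⟩ = s := hx.un _ _ _ (mul_mem hb (ha ⟨j, m⟩)) (by
        rw [mul_smul, ← e ⟨j, m⟩]; exact eb)
      have := F2 v ⟨j, m⟩
      rw [hv, c0, Pi.zero_apply, sub_zero] at this
      rw [← r.inv' (ha ⟨j, m⟩) (v.1.1.2 _), ← this]
      exact map_zero _
    · rw [← F3, hv]; rfl
  have mem : ∀ v ∈ LinearMap.ker G, F v ∈ TQ T' Γ (Dv Γ x') l P ρ := fun v hv => by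
    obtain ⟨⟨z, t⟩, u⟩ := v.1.2
    refine ⟨⟨Z1.mono z (In_anti (Set.union_subset_union_left _ (Finset.coe_subset.2 le))),
      fun j d hd => ?_⟩, fun q hq => u q fun m => hq (le m)⟩
    rw [F1]
    by_cases h : x' j ∈ Ab T
    · rw [F2 v ⟨j, h⟩]
      exact b1_conj r z (t _) (ha _) d (by rw [← e ⟨j, h⟩]; exact hd)
    · rw [F3 v ⟨j, h⟩]
      refine (p2 ⟨j, h⟩ (Zs r z (v.2 ⟨j, h⟩)) (zs_open r z _ o) (fun s hs => ?_)
        ⟨p1 _, sub_eq_zero.1 (congrFun (LinearMap.mem_ker.1 hv) ⟨j, h⟩)⟩ hd).2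
      have m := In_anti Set.subset_union_left hs
      exact ⟨le_in lv m, by
        rw [z1_in z hs (le_in lv m), d0_apply, rp_in r m (le_in lv m)]; simp⟩
  have h1 := G.rank_range_add_rank_ker
  have h2 : Module.rank k (LinearMap.ker G) ≤ rk (TQ T' Γ (Dv Γ x') l P ρ) :=
    LinearMap.rank_le_of_injective (F.restrict mem) fun a b h =>
      Subtype.ext (inj (congrArg Subtype.val h))
  rw [rank_prod'] at h1
  refine (Cardinal.add_le_add_iff_of_lt_aleph0 (Module.rank_lt_aleph0 k E)).1 ?_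
  rw [← h1, add_comm]
  exact add_le_add h2 (Submodule.rank_le _)

end Vale.Agent.P022K.G2
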