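import Vale.Agent.P022K.G2.StbA

/-!
# P022K, block G2: the Steinberg complement (row `STB`)
-/

set_option linter.all false

noncomputable section

namespace Vale.Agent.P022K.G2

open Module

namespace Sb

variable {G : Type} [Group G] {k : Type} [Field k] {N : Type}
  [AddCommGroup N] [Module k N] {I : Set G} {Γ A B H U : Subgroup G} {ρ : G → End k N}
  {Q : Type} {a : G → Equiv.Perm Q} {q₀ : Q}

/-- the action on the cosets -/
theorem exists_act (f : B.relIndex Γ ≠ 0) : ∃ (Q : Type) (_ : Fintype Q) (a : G → Equiv.Perm Q)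
    (q₀ : Q), Act Γ a ∧ Fintype.card Q = B.relIndex Γ ∧ (∀ x, ∃ g ∈ Γ, a g q₀ = x) ∧
      ∀ g ∈ Γ, a g q₀ = q₀ ↔ g ∈ B := by
  classical
  have : Finite (Γ ⧸ B.subgroupOf Γ) := Nat.finite_of_card_ne_zero f
  let a : G → Equiv.Perm (Γ ⧸ B.subgroupOf Γ) := fun g =>
    if h : g ∈ Γ then MulAction.toPerm (⟨g, h⟩ : Γ) else 1
  have e : ∀ g (h : g ∈ Γ) x, a g x = (⟨g, h⟩ : Γ) • x := fun g h x => by simp [a, h]
  refine ⟨_, Fintype.ofFinite _, a, QuotientGroup.mk 1, ⟨fun x => ?_, fun g hg h hh x => ?_⟩,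
    (@Nat.card_eq_fintype_card _ (_)).symm, ?_, fun g hg => ?_⟩
  · rw [e 1 (one_mem _)]
    exact one_smul Γ x
  · rw [e _ (mul_mem hg hh), e g hg, e h hh, ← mul_smul]
    rfl
  · rintro ⟨g, hg⟩
    exact ⟨g, hg, (e g hg _).trans (congrArg QuotientGroup.mk (mul_one _))⟩
  · rw [e g hg, eq_comm, MulAction.Quotient.smul_mk, QuotientGroup.eq, Subgroup.mem_subgroupOf]
    simp

theorem exists_tv (f : U.relIndex H ≠ 0) : ∃ R, Tv H U R := by
  classical
  have : Finite (H ⧸ U.subgroupOf H) := Nat.finite_of_card_ne_zero f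
  have := Fintype.ofFinite (H ⧸ U.subgroupOf H)
  refine ⟨Finset.univ.image fun q : H ⧸ U.subgroupOf H => (q.out : G), ?_, fun g hg => ?_, ?_⟩
  · simp
  · exact ⟨_, Finset.mem_image_of_mem _ (Finset.mem_univ (QuotientGroup.mk ⟨g, hg⟩)),
      (QuotientGroup.eq (s := U.subgroupOf H) (b := ⟨g, hg⟩)).1 (Quotient.out_eq _)⟩
  · simp only [Finset.mem_image, Finset.mem_univ, true_and]
    rintro _ ⟨q, rfl⟩ _ ⟨q', rfl⟩ e
    rw [q.out_eq.symm.trans (((QuotientGroup.eq (s := U.subgroupOf H)).2 e).trans q'.out_eq)]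

variable [Fintype Q]

variable (k Q N) in
/-- the functions with sum zero -/
def St : Submodule k (Q → N) := LinearMap.ker (∑ x, LinearMap.proj x : (Q → N) →ₗ[k] N)

theorem mem_St {f : Q → N} : f ∈ St k N Q ↔ ∑ x, f x = 0 := by simp [St]

/-- the action on the functions with sum zero -/
def xi (ρ : G → End k N) (a : G → Equiv.Perm Q) (g : G) : End k (St k N Q) :=
  (pm ρ a g).restrict fun f hf => mem_St.2 (by
    simp only [pm_apply]
    rw [← map_sum, Equiv.sum_comp (a g⁻¹) f, mem_St.1 hf, map_zero])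

theorem xi_apply (g : G) (f : St k N Q) (x : Q) : (xi ρ a g f).1 x = ρ g (f.1 (a g⁻¹ x)) := rfl

theorem xi_one {g : G} (h : ρ g = 1) (e : ∀ x, a g⁻¹ x = x) : xi ρ a g = 1 :=
  LinearMap.ext fun f => Subtype.ext (funext fun x => by rw [xi_apply, h, e]; rfl)

theorem exists_eqv (c : (Fintype.card Q : k) ≠ 0) : ∃ e : (N × St k N Q) ≃ₗ[k] (Q → N),
    ∀ g n y, pm ρ a g (e (n, y)) = e (ρ g n, xi ρ a g y) := by
  refine ⟨.ofBijective ((LinearMap.pi fun _ => .id).coprod (St k N Q).subtype)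
    ⟨(injective_iff_map_eq_zero _).2 fun ⟨n, y⟩ h => ?_, fun f =>
      ⟨((Fintype.card Q : k)⁻¹ • ∑ x, f x, ⟨f - fun _ => (Fintype.card Q : k)⁻¹ • ∑ x, f x, ?_⟩),
        funext fun x => add_sub_cancel _ _⟩⟩, fun g n y => funext fun x => map_add (ρ g) _ _⟩
  · have e : ∀ x, n + y.1 x = 0 := congrFun h
    have := Finset.sum_congr rfl fun x (_ : x ∈ Finset.univ) => e x
    rw [Finset.sum_add_distrib, mem_St.1 y.2, add_zero, Finset.sum_const_zero, Finset.sum_const,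
      Finset.card_univ, ← Nat.cast_smul_eq_nsmul k, smul_eq_zero_iff_right c] at this
    exact Prod.ext this (Subtype.ext (funext fun x => by simpa [this] using e x))
  · simp [mem_St, ← Nat.cast_smul_eq_nsmul k, smul_smul, c]

variable [TopologicalSpace G]

theorem rp_xi (r : Rp I A ρ) (h : Act A a) (tv : ∃ W, Lv I W ∧ ∀ w ∈ A, w ∈ W → ∀ x, a w x = x) :
    Rp I A (xi ρ a) := by
  obtain ⟨W, hW, w1⟩ := tv
  obtain ⟨V, hV, v1⟩ := r.lv
  exact ⟨xi_one r.one fun x => by rw [inv_one, h.one], fun g hg j hj => LinearMap.ext fun f =>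
    Subtype.ext (funext fun x => by
      rw [xi_apply, mul_inv_rev, h.mul _ (inv_mem hj) _ (inv_mem hg), r.mul' hg hj]; rfl),
    _, hW.inf hV, fun w hw m => xi_one (v1 w hw m.2) (w1 _ (inv_mem hw) (inv_mem m.1))⟩

/-- an action which is free outside a fixed point -/
theorem prj_xi (r : Rp I H ρ) (h : Act H a) (f : U.relIndex H ≠ 0) (le : U ≤ H)
    (u : ∀ u ∈ U, ρ u = 1) (v : ∀ u ∈ U, ∀ x, a u x = x) (fx : ∀ g ∈ H, a g q₀ = q₀)
    (fr : ∀ g ∈ H, ∀ x ≠ q₀, a g x = x → g ∈ U) : Prj H U (xi ρ a) := by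
  classical
  obtain ⟨R, hR⟩ := exists_tv f
  have : Nonempty Q := ⟨q₀⟩
  let t : Q → Q := fun x => Classical.epsilon fun y => ∃ g ∈ H, a g y = x
  have t1 : ∀ x, ∃ g ∈ H, a g (t x) = x := fun x =>
    Classical.epsilon_spec (p := fun y => ∃ g ∈ H, a g y = x) ⟨x, 1, one_mem _, h.one x⟩
  have t2 : ∀ g ∈ H, ∀ x, t (a g x) = t x := fun g hg x => congrArg Classical.epsilon
    (funext fun y => propext ⟨fun ⟨j, hj, e⟩ => ⟨_, mul_mem (inv_mem hg) hj, by
      rw [h.mul _ (inv_mem hg) j hj, e, h.inv' hg]⟩, fun ⟨j, hj, e⟩ => ⟨_, mul_mem hg hj, by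
      rw [h.mul g hg j hj, e]⟩⟩)
  let χ : St k N Q →ₗ[k] Q → N :=
    { toFun := fun f x => if t x = x then f.1 x else 0
      map_add' := fun _ _ => funext fun x => by by_cases e : t x = x <;> simp [e]
      map_smul' := fun _ _ => funext fun x => by by_cases e : t x = x <;> simp [e] }
  let φ : End k (St k N Q) := (χ - (LinearMap.single k (fun _ => N) q₀).comp
    ((∑ x, LinearMap.proj x : (Q → N) →ₗ[k] N).comp χ)).codRestrict _ fun f => by simp [mem_St]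
  have ne : ∀ g ∈ H, ∀ x ≠ q₀, a g⁻¹ x ≠ q₀ := fun g hg x hx e =>
    hx (by rw [← h.inv hg x, e, fx g hg])
  refine ⟨R, φ, hR, fun w _ hw => by
    rw [xi_one (u w hw) (v _ (inv_mem hw)), mul_one, one_mul], LinearMap.ext fun f => ?_⟩
  have key : ∀ x ≠ q₀, ((∑ r ∈ R, xi ρ a r * φ * xi ρ a r⁻¹) f).1 x = f.1 x := fun x hx => by
    obtain ⟨g, hg, e⟩ := t1 x
    obtain ⟨s, hs, m⟩ := hR.ex g hg
    have e1 : a s⁻¹ x = t x := by
      rw [← congrArg (a s⁻¹) e, ← h.mul _ (inv_mem (hR.mem s hs)) g hg, v _ m]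
    have e2 : ∀ s ∈ R, ((xi ρ a s * φ * xi ρ a s⁻¹) f).1 x =
        if t x = a s⁻¹ x then f.1 x else 0 := fun s hs => by
      have m := hR.mem s hs
      change ρ s (χ _ _ - Pi.single (M := fun _ => N) q₀ _ _) = _
      rw [Pi.single_eq_of_ne (ne s m x hx), sub_zero]
      change ρ s (if _ then ρ _ (f.1 (a _ _)) else 0) = _
      rw [t2 _ (inv_mem m), inv_inv, h.inv m]
      split_ifs
      exacts [r.inv m _, map_zero _]
    rw [LinearMap.sum_apply, Submodule.coe_sum, Finset.sum_apply, Finset.sum_congr rfl e2,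
      Finset.sum_eq_single_of_mem s hs fun s' hs' n => if_neg fun e => n (hR.un _ hs' _ hs (fr _
        (mul_mem (inv_mem (hR.mem _ hs')) (hR.mem _ hs)) _ (ne s (hR.mem _ hs) x hx) (by
          rw [h.mul _ (inv_mem (hR.mem _ hs')) _ (hR.mem _ hs), h.inv (hR.mem _ hs), ← e, e1]))),
      if_pos e1.symm]
  refine Subtype.ext (funext fun x => ?_)
  by_cases hx : x = q₀
  · have := (mem_St.1 ((∑ r ∈ R, xi ρ a r * φ * xi ρ a r⁻¹) f).2).trans (mem_St.1 f.2).symm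
    rw [← Finset.add_sum_erase _ _ (Finset.mem_univ q₀), ← Finset.add_sum_erase _ f.1
      (Finset.mem_univ q₀), Finset.sum_congr rfl fun x hx => key x (Finset.ne_of_mem_erase hx),
      add_left_inj] at this
    exact hx ▸ this
  · exact key x hx

omit [Fintype Q] in
/-- the double cosets -/
theorem mackey (r : Rp I Γ ρ) (le : B ≤ Γ) (h : Act Γ a) (tr : ∀ x, ∃ g ∈ Γ, a g q₀ = x)
    (st : ∀ g ∈ Γ, a g q₀ = q₀ ↔ g ∈ B) {Ω ι ι' : Type} [MulAction G Ω] {S : Set Ω} {x : ι → Ω}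
    {y : ι' → Ω} (hx : Reps Γ S x) (hy : Reps B S y) :
    ∃ (t : ι' → ι) (D : ι' → Subgroup G) (q : ι' → Q),
      (∀ j, rk (Z1 ∅ (D j) ρ) = rk (Z1 ∅ (Dv B y j) ρ)) ∧
      (∀ ω, Mu Γ ω → ∀ j, rk (Hm (D j) ρ ω) = rk (Hm (Dv B y j) ρ ω)) ∧
      ∀ i, ∃ o s, Orb (Dv Γ x i) a (fun j : {j // t j = i} => q j) (fun j => D j) o s := by
  choose t γ hγ e using fun j => hx.ex _ (Rps.self hy j)
  let D : ι' → Subgroup G := fun j => (Dv B y j).comap (MulAut.conj (γ j)).toMonoidHom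
  have d1 : ∀ j g, g ∈ D j ↔ (γ j)⁻¹⁻¹ * g * (γ j)⁻¹ ∈ Dv B y j := fun j g => by
    rw [inv_inv]; rfl
  have d2 : ∀ j g, g ∈ Dv B y j ↔ (γ j)⁻¹ * g * γ j ∈ D j := fun j g => by
    simp [d1, mul_assoc]
  have l1 : ∀ j, Dv B y j ≤ Γ := fun j => (Dv_le _ _ _).trans le
  have l2 : ∀ j, D j ≤ Γ := fun j g m => by
    simpa [mul_assoc] using mul_mem (mul_mem (inv_mem (hγ j)) (l1 j ((d1 j g).1 m))) (hγ j)
  have s2 : ∀ i j, ∀ g ∈ Γ, a g (a (γ i)⁻¹ q₀) = a (γ j)⁻¹ q₀ ↔ γ j * g * (γ i)⁻¹ ∈ B :=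
    fun i j g hg => by
      rw [← st _ (mul_mem (mul_mem (hγ j) hg) (inv_mem (hγ i))), h.mul _ (mul_mem (hγ j) hg) _
        (inv_mem (hγ i)), h.mul _ (hγ j) g hg, ← (a (γ j)).injective.eq_iff, h.inv (hγ j)]
  refine ⟨t, D, fun j => a (γ j)⁻¹ q₀, fun j => le_antisymm (cj_z r (hγ j) (l2 j) (d2 j))
    (cj_z r (inv_mem (hγ j)) (l1 j) (d1 j)), fun ω u j => le_antisymm
      (cj_h r u (hγ j) (l2 j) (d2 j)) (cj_h r u (inv_mem (hγ j)) (l1 j) (d1 j)), fun i =>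
    exists_orb (h.mono (Dv_le _ _ _)) ?_ (fun z => ?_) ?_⟩
  · rintro ⟨j, rfl⟩ g
    refine ⟨fun m => ⟨⟨l2 j m, ?_⟩, (s2 j j g (l2 j m)).2 m.1⟩, fun m =>
      ⟨(s2 j j g m.1.1).1 m.2, ?_⟩⟩
    · simpa [e j, mul_smul] using show (γ j * g * (γ j)⁻¹) • y j = y j from m.2
    · simpa [e j, mul_smul] using show g • x (t j) = x (t j) from m.1.2
  · obtain ⟨g, hg, rfl⟩ := tr z
    obtain ⟨j, b, hb, w⟩ := hy.ex _ (hx.mem i _ (inv_mem hg))
    rw [e j, inv_smul_eq_iff, ← mul_smul, ← mul_smul] at w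
    have m := mul_mem (mul_mem hg (le hb)) (hγ j)
    obtain rfl := hx.un _ _ _ m w
    refine ⟨⟨j, rfl⟩, _, ⟨m, w.symm⟩, ?_⟩
    rw [h.mul _ (mul_mem hg (le hb)) _ (hγ j), h.inv (hγ j), h.mul g hg b (le hb),
      (st b (le hb)).2 hb]
  · rintro ⟨j, rfl⟩ ⟨j', hj⟩ g hg w
    refine Subtype.ext (hy.un _ _ _ ((s2 j j' g hg.1).1 w) ?_)
    rw [e j, e j', hj, mul_smul, inv_smul_smul, mul_smul, show g • x (t j) = x (t j) from hg.2]

end Sb

open Sb

theorem stb (pr0 : PR0) (prt : PRT) : STB := by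
  intro p _ G _ _ k _ _ N _ _ I Γ B H U ρ fin r c l u
  classical
  have hg := c.hb.trans c.bg
  have ug := c.uh.trans hg
  obtain ⟨Q, _, a, q₀, h, cd, tr, st⟩ := exists_act (l.up (c.uh.trans c.hb)).relIndex
  have v : ∀ w ∈ U, ∀ x, a w x = x := fun w hw x => by
    obtain ⟨g, m, rfl⟩ := tr x
    have := c.nu.conj' m hw
    rw [← h.mul _ (ug hw) g m, show w * g = g * (g⁻¹ * w * g) by group, h.mul g m _ (ug this),
      (st _ (ug this)).2 (c.hb (c.uh this))]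
  have tv : ∃ W, Lv I W ∧ ∀ w ∈ Γ, w ∈ W → ∀ x, a w x = x :=
    l.imp fun W hW => ⟨hW.1, fun w hw m => v w (hW.2 w hw m)⟩
  have rx := rp_xi r h tv
  obtain ⟨e, he⟩ := exists_eqv (ρ := ρ) (a := a) (by
    rw [cd, Ne, CharP.cast_eq_zero_iff k p]; exact c.ib)
  have rr : Fintype.card Q * Module.rank k N = Module.rank k N + Module.rank k (St k N Q) := by
    rw [← rank_prod', e.rank_eq, rk_pi, Finset.sum_const, nsmul_eq_mul, Finset.card_univ]
  obtain ⟨o, s, ob⟩ := exists_orb (q := fun _ : Unit => q₀) (D := fun _ => B) h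
    (fun _ g => ⟨fun m => ⟨c.bg m, (st g (c.bg m)).2 m⟩, fun m => (st g m.1).1 m.2⟩)
    (fun x => ⟨(), tr x⟩) fun _ _ _ _ _ => rfl
  refine ⟨St k N Q, inferInstance, inferInstance, xi ρ a, inferInstance, rx,
    fun w hw => xi_one (u w hw) (v _ (inv_mem hw)), prt G k _ I Γ H U _ rx c.uh hg
      (pr0 G k _ I Γ H _ rx ?_) (prj_xi (q₀ := q₀) (r.mono subset_rfl hg) (h.mono hg)
        (l.mono subset_rfl hg).relIndex c.uh u v (fun g m => (st g (hg m)).2 (c.hb m))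
        fun g m x hx w => ?_), ?_, fun ω hω => ?_, fun Ω ι ι' _ _ _ S x y hx hy => ?_⟩
  · rw [Ne, CharP.cast_eq_zero_iff k p, ← Subgroup.relIndex_mul_relIndex H B Γ c.hb c.bg,
      (Fact.out : p.Prime).dvd_mul]
    exact not_or.2 ⟨c.ih, c.ib⟩
  · obtain ⟨j, hj, rfl⟩ := tr x
    refine c.ti _ (inv_mem hj) (fun b => hx ((st j hj).2 (inv_mem_iff.1 b))) g m ?_
    rw [inv_inv, ← st _ (mul_mem (mul_mem (inv_mem hj) (hg m)) hj), h.mul _
      (mul_mem (inv_mem hj) (hg m)) j hj, h.mul _ (inv_mem hj) g (hg m), w, h.inv' hj]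
  · have := ob.shz r tv
    rw [rr, Fintype.sum_unique, Fintype.card_unique, Nat.cast_one, one_mul,
      add_comm (Module.rank k N), ← add_assoc,
      Cardinal.add_right_inj_of_lt_aleph0 (Module.rank_lt_aleph0 k N)] at this
    exact (sum_z e fun g _ => he g).trans this
  · exact (sum_h e fun g _ => he g).trans ((ob.shh r hω).trans (Fintype.sum_unique _))
  · obtain ⟨t, D, q, d1, d2, hD⟩ := mackey r c.bg h tr st hx hy
    choose o s ob using hD
    have r' := fun i => r.mono (Set.empty_subset _) (Dv_le Γ x i)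
    refine ⟨?_, fun ω hω => ?_⟩
    · have := Finset.sum_congr rfl fun i (_ : i ∈ Finset.univ) => (ob i).shz (r' i) (tv.imp
        fun W hW => ⟨hW.1.mono (Set.empty_subset _), fun w hw => hW.2 w hw.1⟩)
      rw [Finset.sum_add_distrib, Finset.sum_add_distrib, ← Finset.sum_mul, ← Nat.cast_sum,
        ← Fintype.card_sigma, Fintype.card_congr (Equiv.sigmaFiberEquiv t), Finset.sum_const,
        nsmul_eq_mul, rr, Fintype.sum_fiberwise t fun j => rk (Z1 ∅ (D j) ρ),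
        Finset.sum_congr rfl fun j _ => d1 j] at this
      rw [← Finset.sum_add_distrib, Finset.sum_congr rfl fun i _ => sum_z e fun g _ => he g]
      exact this
    · rw [← Finset.sum_add_distrib, Finset.sum_congr rfl fun i _ => (sum_h e fun g _ => he g).trans
        ((ob i).shh (r' i) (hω.mono (Dv_le Γ x i))),
        Fintype.sum_fiberwise t fun j => rk (Hm (D j) ρ ω)]
      exact Finset.sum_congr rfl fun j _ => d2 ω hω j

end Vale.Agent.P022K.G2
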