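import Vale.Agent.P022K.G2.ChiA
import Vale.Agent.P022K.G2.Stb
import Vale.Agent.P022K.G2.Hb
import Vale.Agent.P022K.G2.Unr

/-!
# P022K, block G2: relations minus generators (rows `CHI0`, `CHI`, `LLB`, `LB`)
-/

set_option linter.all false

noncomputable section

namespace Vale.Agent.P022K.G2

open NumberField Module Cardinal Cn Sb Hb
open Vale.Agent.P022 Vale.Agent.P022.C
open Vale.Agent.P027M.S (Inert)
open Vale.Agent.P022D.W (dec dec_gen)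
open Vale.Agent.P022E.GW (Ov Fb)
open scoped Pointwise

namespace Cx

variable {p : ℕ} [Fact p.Prime] {k : Type} [Field k] [CharP k p] {N N₂ : Type} [AddCommGroup N]
  [Module k N] [AddCommGroup N₂] [Module k N₂] {Γ A B H U : Subgroup GQ} {T : Finset ℕ} {ι : Type}
  {x : ι → Plc} {ρ : GQ → End k N} {ρ₂ : GQ → End k N₂}

open Classical in
/-- the local degree -/
def eL (l : ℕ) (Γ : Subgroup GQ) (y : Plc) : ℕ := if y ∈ Ab {l} then Γ.relIndex (St y) else 0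

theorem eL_fp {l : ℕ} {P : Ideal (𝓞 Qb)} (o : Ov l P) (m : ℕ) [Decidable (l = m)] :
    eL m Γ (fp P) = if l = m then Γ.relIndex (dec P) else 0 := by
  rw [eL, st_fp]
  congr 1
  exact propext (mem_ab_fp.trans ⟨fun ⟨_, a, b⟩ => (GW.Pl.ov_uniq o b).trans a, fun e =>
    ⟨l, e, o⟩⟩)

open Classical in
theorem sum_loc [Fintype ι] (R : Cardinal → Cardinal → Prop) (R0 : ∀ a, R a a)
    (R1 : ∀ a b c d, R a b → R c d → R (a + c) (b + d))
    (R2 : ∀ a b c, c < ℵ₀ → R (a + c) (b + c) → R a b) (o : IsOpen (Γ : Set GQ))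
    (hx : Reps Γ (Ab T) x) (h0 : 0 ∈ T) (hp : p ∈ T) (f : Module.Finite k N) (r : Rp ∅ Γ ρ)
    (h : ∀ l P, Ov l P → R (rk (Hm (Γ ⊓ dec P) ρ (om p k)) +
      (1 + (if l = p then Γ.relIndex (dec P) else 0 : ℕ)) * Module.rank k N)
      (rk (Z1 ∅ (Γ ⊓ dec P) ρ))) :
    R (∑ i, rk (Hm (Dv Γ x i) ρ (om p k)) + Fintype.card ι * Module.rank k N)
      (∑ i, rk (Z1 ∅ (Dv Γ x i) ρ)) := by
  have e : ∀ l ∈ T, l = 0 ∨ l.Prime → ∑ i, (eL l Γ (x i) : Cardinal) * Module.rank k N =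
      Γ.index * Module.rank k N := fun l a b => by
    rw [← Finset.sum_mul, ← Nat.cast_sum, ← deg Γ T ι x l o hx a b]
    rfl
  have a : ∀ y ∈ Ab T, R (rk (Hm (Γ ⊓ St y) ρ (om p k)) + Module.rank k N +
      eL p Γ y * Module.rank k N) (rk (Z1 ∅ (Γ ⊓ St y) ρ) + eL 0 Γ y * Module.rank k N) := by
    rintro _ (⟨l, -, P, o, rfl⟩ | ⟨-, w, rfl⟩)
    · rw [eL_fp o, eL_fp o, if_neg o.1.ne_zero, Nat.cast_zero, zero_mul, add_zero, st_fp,
        add_assoc, ← one_add_mul]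
      exact h l P o
    · rw [eL, eL, if_pos ((mem_ab_ip (T := {0})).2 rfl),
        if_neg (mt (mem_ab_ip (T := {p})).1 (Fact.out : p.Prime).ne_zero.symm),
        inf p k N Γ w ρ f (r.mono subset_rfl inf_le_left), Nat.cast_zero, zero_mul, add_zero]
      exact R0 _
  have b : ∀ s : Finset ι, R (∑ i ∈ s, (rk (Hm (Dv Γ x i) ρ (om p k)) + Module.rank k N +
      eL p Γ (x i) * Module.rank k N))
      (∑ i ∈ s, (rk (Z1 ∅ (Dv Γ x i) ρ) + eL 0 Γ (x i) * Module.rank k N)) := fun s =>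
    Finset.induction_on s (R0 _) fun i s n ih => by
      rw [Finset.sum_insert n, Finset.sum_insert n]
      exact R1 _ _ _ _ (a _ (Rps.self hx i)) ih
  have := b Finset.univ
  rw [Finset.sum_add_distrib, Finset.sum_add_distrib, Finset.sum_add_distrib, e 0 h0 (.inl rfl),
    e p hp (.inr Fact.out), Finset.sum_const, nsmul_eq_mul] at this
  exact R2 _ _ _ (fin_cr f _) this

theorem pd_of (L : Lg p T Γ U) (f : Module.Finite k N) (r : Rp (In T) Γ ρ) (j : Prj Γ U ρ)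
    (t : ∀ u ∈ U, ρ u = 1) : Pd (In T) Γ U ρ (om p k) :=
  ⟨f, r, j, L.nz, L.lv.mono subset_rfl le_top, fun u _ => t u, mu_om k Γ,
    fun _ _ m => (om_eq_one k).2 (L.uz m)⟩

theorem pd_ch (L : Lg p T Γ U) (c : Chn p Γ B H U) (hz : H ≤ Gz p) {θ : GQ → k}
    (r : Rp (In T) B (ch θ)) (t : ∀ h ∈ H, θ h = 1) : Pd (In T) B H (ch θ) (om p k) :=
  ⟨inferInstance, r, pr0 GQ k k _ B H _ r (by rw [Ne, CharP.cast_eq_zero_iff k p]; exact c.ih),
    c.nh, (L.lv.mono subset_rfl le_top).up c.uh, fun h _ m => by rw [ch, t h m, one_smul],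
    mu_om k B, fun _ _ m => (om_eq_one k).2 (hz m)⟩

variable [Finite k]

theorem fin_all (h0 : CHI0 p) (L : Lg p T Γ U) (le : U ≤ A) (f : Module.Finite k N)
    (r : Rp (In T) A ρ) (t : ∀ u ∈ U, ρ u = 1) :
    rk (Z1 (In T) A ρ) < ℵ₀ ∧ ∀ y ∈ Ab T, rk (Z1 ∅ (A ⊓ St y) ρ) < ℵ₀ := by
  obtain ⟨ι, _, x, hx⟩ := plc U T (le_open L.lv)
  obtain ⟨-, a, b, -⟩ := h0 k k U U T ι x (tr GQ k) le_rfl L.uz L.bg L.h0 L.hp L.lv hx
    ⟨inferInstance, rp_tr _ _, pr0 GQ k k (In T) U U _ (rp_tr _ _) (by simp), L.nz.mono L.le,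
      Le.self _ _, fun _ _ _ => rfl, mu_om k U, fun _ _ m => (om_eq_one k).2 (L.uz m)⟩
  refine ⟨finz GQ k N _ A U ρ f r (L.lv.mono subset_rfl le_top) (fun u _ => t u)
    (by rwa [inf_eq_right.2 le]), fun y hy => finz GQ k N _ _ U ρ f
      (r.mono (Set.empty_subset _) inf_le_left) (L.lv.mono (Set.empty_subset _) le_top)
      (fun u _ => t u) ?_⟩
  obtain ⟨i, g, hg, rfl⟩ := hx.ex y hy
  rw [inf_right_comm, inf_eq_right.2 le]
  exact (cj_z (rp_tr ∅ U) (inv_mem hg) inf_le_left fun a => by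
    rw [inv_inv]; exact st_cj (x i) hg a).trans_lt (b i)

/-- a class of the cone which does not lift -/
theorem gains (hO : ONE p) (L : Lg p T Γ U) (c : Chn p Γ B H U) (hz : H ≤ Gz p)
    (hx : Reps B (Ab T) x) {θ : GQ → k} {i : k →ₗ[k] N} {π : N →ₗ[k] N₂}
    (S : Ses B (ch θ) ρ ρ₂ i π) (r : Rp (In T) B ρ) (tu : ∀ u ∈ U, ρ u = 1) (t : ∀ h ∈ H, θ h = 1)
    (e : ∀ b ∈ B, θ b = om p k b) {h : GQ} (hh : h ∈ H) {n : N} (hn : ρ h n - n = i 1) :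
    rq ((Zc (In T) B (Dv B x) ρ).map (pc π)) (Bc (In T) B (Dv B x) ρ₂) + 1 ≤
      hc (In T) B (Dv B x) ρ₂ := by
  have oU := le_open L.lv
  have oB := Subgroup.isOpen_mono (c.uh.trans c.hb) oU
  obtain ⟨l, hl, P₀, φ₀, ⟨o₀, lp, f₀, -⟩, i₀, m₀⟩ := L.rich h (c.bg (c.hb hh))
  obtain ⟨j, b, hb, w⟩ := hx.ex _ (mem_ab_fp.2 ⟨l, hl, o₀⟩)
  obtain ⟨P, hP⟩ : ∃ P, P = b⁻¹ • P₀ := ⟨_, rfl⟩
  have xj : x j = fp P := by rw [hP, ← smul_fp, w, inv_smul_smul]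
  have o : Ov l P := hP ▸ GW.ov_smul o₀ _
  have fb : Fb l P (b⁻¹ * φ₀ * b) := fun y => by
    rw [hP, mem_smul, inv_inv, smul_sub, ← mul_smul, ← mul_assoc, mul_inv_cancel_left, mul_smul,
      smul_pow']
    exact f₀ _
  have iU : ∀ s, Inert P s → s ∈ U := fun s hs => by
    have := GW.Pl.inert_conj hs b
    rw [hP, smul_inv_smul] at this
    simpa [mul_assoc] using c.nu.conj' (c.bg hb) (i₀ _ this)
  have h1 := c.nh.conj' hb hh
  have u1 := c.nu.conj' (c.bg hb) m₀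
  have eφ : b⁻¹ * φ₀ * b = b⁻¹ * h * b * (b⁻¹ * (h⁻¹ * φ₀) * b) := by group
  have e1 : ρ (b⁻¹ * φ₀ * b) (ρ b⁻¹ n) - ρ b⁻¹ n = i (θ b⁻¹) := by
    rw [eφ, r.mul' (c.hb h1) (c.hb (c.uh u1)), tu _ u1, End.one_apply, r.mul'
      (mul_mem (inv_mem hb) (c.hb hh)) hb, r.inv hb, r.mul' (inv_mem hb) (c.hb hh), ← map_sub, hn,
      ← S.eqi _ (inv_mem hb), ch_apply, mul_one]
  generalize ρ b⁻¹ n = m at e1
  generalize b⁻¹ * φ₀ * b = φ at fb e1 eφ
  obtain ⟨⟨q, hq⟩, -⟩ := ex_rs S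
  have r2 := (rp2 S r).mono subset_rfl c.hb
  have z1 : ∀ d ∈ H, π (ρ d m - m) = d0 ρ₂ (π m) d := fun d hd => by
    rw [map_sub, S.eqp d (c.hb hd), d0_apply]
  have zU : U ≤ Zs r2 (zero_mem (Z1 ∅ H ρ₂)) (π m) := fun u hu =>
    ⟨c.uh hu, by rw [← z1 u (c.uh hu), tu u hu]; simp⟩
  have φH : φ ∈ H := eφ ▸ mul_mem h1 (c.uh u1)
  have φz : φ ∈ Zs r2 (zero_mem (Z1 ∅ H ρ₂)) (π m) := ⟨φH, by rw [← z1 φ φH, e1, pi_i S]; rfl⟩
  have dz : dec P ≤ Zs r2 (zero_mem (Z1 ∅ H ρ₂)) (π m) := fun d hd => by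
    obtain ⟨a, s, u, hs, hu, rfl⟩ := dec_gen o.1 o.2.1 o.2.2 fb hd U oU
    exact mul_mem (mul_mem (zU hu) (pow_mem φz a)) (zU (iU s hs))
  have dH : dec P ≤ H := fun d hd => (dz hd).1
  have z2 : ∀ d ∈ dec P, π (ρ d m - m) = 0 := fun d hd => (z1 d (dH hd)).trans (dz hd).2.symm
  have eD : Dv B x j = dec P := by
    rw [Dv, xj]
    exact (congrArg (B ⊓ ·) (st_fp P)).trans (inf_eq_right.2 (dH.trans c.hb))
  have u0 : ∀ u ∈ U, q (ρ u m - m) = 0 := fun u hu => by rw [tu u hu]; simp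
  have cu : Ch (dec P) fun d => q (ρ d m - m) := ⟨fun g hg d hd => by
      have := rr S hq (c.hb (dH hg)) (z2 d hd)
      rw [ch_apply, t g (dH hg), one_mul] at this
      beta_reduce
      rw [← this, ← map_add, r.mul' (c.hb (dH hg)) (c.hb (dH hd)), map_sub (ρ g)]
      congr 1
      abel,
    L.lv.imp fun W hW => ⟨hW.1.mono (Set.empty_subset _), fun w _ m => u0 w (hW.2 w trivial m)⟩⟩
  have ct : Ch (dec P) fun g => ZMod.castHom (dvd_refl p) k (ka p l g) :=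
    (ka_ch (dH.trans hz) (Nat.cast_ne_zero.2 o.1.ne_zero) fun g _ => map_natCast g l).map
      (ZMod.castHom (dvd_refl p) k).toAddMonoidHom
  refine gain GQ k N N₂ _ B ι _ θ ρ ρ₂ i π j _ (fun d => q (ρ d m - m)) m (rp1 S r) r (rp2 S r) S
    (Dv_le B x) (eD ▸ ct) (fun d hd => (ir S hq (z2 d (eD ▸ hd))).symm) fun z hz' ho hj => ?_
  have ec : ∀ g ∈ B, ch (om p k) g = ch θ g := fun g hg => by rw [ch, ch, e g hg]
  have zz := Z2.congr (Z2.mono hz' (Set.empty_subset _) le_rfl) (fun _ _ _ _ => rfl) ec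
  have := hO k B z Unit (fun _ => l) (fun _ => P) (fun _ => φ) (fun _ d => q (ρ d m - m)) _
    (fun _ => 1) oB zz (fun _ => ⟨o, lp, fb, le_inf (dH.trans c.hb) (dH.trans hz)⟩)
    (fun _ _ _ _ _ => rfl) (fun _ => ⟨cu, ct, fun g hg => ⟨u0 g (iU g hg), (mul_one _).symm⟩,
      B2.congr (eD ▸ hj) (fun _ _ _ _ => rfl) fun g hg => by rw [ch, t g (dH hg), one_smul]; rfl⟩)
    fun y hy ny => ?_
  · rw [Fintype.sum_unique, mul_one, e1, hq] at this
    exact (rp1 S r).mu.ne (inv_mem hb) this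
  by_cases yT : y ∈ Ab T
  · obtain ⟨j', g, hg, rfl⟩ := hx.ex y yT
    exact B2.congr (loc2 (rp1 S r) hz' hg (ho j' fun w => ny () g hg (by rw [w, xj])))
      (fun _ _ _ _ => rfl) fun g m => ec g m.1
  · obtain ⟨l', -, P', o', rfl⟩ | ⟨-, w, rfl⟩ := hy
    · obtain ⟨W, hW, v⟩ := hz'.2
      rw [st_fp]
      exact unt p tr2 pr0 k B l' P' z oB o' (Z2.mono zz subset_rfl inf_le_left)
        fun g hg d hd s hs hi => v g hg.1 d hd.1 s hs
          (hW.sub ⟨l', fun a => yT (mem_ab_fp.2 ⟨l', a, o'⟩), P', o', hi⟩)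
    · exact absurd (mem_ab_ip.2 L.h0) yT

theorem chiB [Fintype ι] (h0 : CHI0 p) (hO : ONE p) (L : Lg p T Γ U) (c : Chn p Γ B H U)
    (hz : H ≤ Gz p) (bg : Bg H T) (hx : Reps B (Ab T) x) (t : Tri B H (om p k) N ρ) :
    Module.Finite k N → Rp (In T) B ρ → (∀ u ∈ U, ρ u = 1) →
    hc (In T) B (Dv B x) ρ + Module.rank k N ≤
      rk (Tn (In T) B (Dv B x) ρ) + rk (Hm B ρ (om p k)) := by
  have ub := c.uh.trans c.hb
  induction t with
  | nil N ρ h =>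
    intro _ _ _
    have : Subsingleton N := ⟨fun a b => (h a).trans (h b).symm⟩
    rw [rank_subsingleton', hc, rq_eq_zero.2 fun z _ => (Subsingleton.elim 0 z) ▸ zero_mem _,
      add_zero]
    exact bot_le
  | cons N ρ N₂ ρ₂ θ i π S t w _ ih =>
    intro f r tu
    have f2 := Module.Finite.of_surjective π S.sur
    have t2 := fun u hu => tri2 S (ub hu) (tu u hu)
    exact step_g S f r (Dv_le B x) (fin_all h0 L ub inferInstance (rp1 S r)
      fun u hu => tri1 S (ub hu) (tu u hu)).1 (fin_all h0 L ub f2 (rp2 S r) t2).1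
      (h0 k k B H T ι x _ c.hb hz bg L.h0 L.hp (L.lv.up c.uh) hx
        (pd_ch L c hz (rp1 S r) t)).2.2.2.2 (ih f2 (rp2 S r) t2) fun e => (w e).imp_right
          fun ⟨h, hh, n, hn⟩ => gains hO L c hz hx S r tu t e hh hn

open Classical in
theorem llbB (hL : LPC p) (hD : DIMT p) (L : Lg p T Γ U) (c : Chn p Γ B H U) (hz : H ≤ Gz p)
    {l : ℕ} {P : Ideal (𝓞 Qb)} (o : Ov l P) (t : Tri B H (om p k) N ρ) :
    Rp (In T) B ρ → rk (Hm (B ⊓ dec P) ρ (om p k)) +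
      (1 + (if l = p then B.relIndex (dec P) else 0 : ℕ)) * Module.rank k N ≤
      rk (Z1 ∅ (B ⊓ dec P) ρ) := by
  have oH := Subgroup.isOpen_mono c.uh (le_open L.lv)
  have oB := Subgroup.isOpen_mono c.hb oH
  induction t with
  | nil N ρ h =>
    intro _
    have : Subsingleton N := ⟨fun a b => (h a).trans (h b).symm⟩
    rw [rank_subsingleton' k N, mul_zero, add_zero]
    exact (rank_subsingleton' k (Hm (B ⊓ dec P) ρ (om p k))).trans_le bot_le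
  | cons N ρ N₂ ρ₂ θ i π S t _ _ ih =>
    intro r
    exact step_l (ses_mono S inf_le_left) (r.mono (Set.empty_subset _) inf_le_left)
      (hL k k B H l P _ oB oH hz o (pd_res (pd_ch L c hz (rp1 S r) t) inf_le_left))
      (ih (rp2 S r)) (hD k B l P θ oB o ((rp1 S r).mono (Set.empty_subset _) le_rfl))

end Cx

open Cx

theorem chi0 (p : ℕ) [Fact p.Prime] (hS : SHA p) (hG : GPC p) (hL : LPC p) : CHI0 p := by
  intro k _ _ _ N _ _ Γ U T ι _ x ρ le uz bg h0 hp lv hx d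
  have oU := le_open lv
  have := d.fin
  have oΓ := Subgroup.isOpen_mono le oU
  have s : sh (In T) Γ (Dv Γ x) ρ = 0 := rq_eq_zero.2 fun z hz => by
    refine tr2 GQ k N _ Γ U ρ z d.rp d.prj d.le hz.1 ?_
    rw [inf_eq_right.2 le]
    refine coord p GQ k N _ U {D | ∃ y ∈ Ab T, D = U ⊓ St y} ρ d.fin (fun g m => d.tri g (le m) m)
      (fun _ ⟨_, _, e⟩ => e ▸ inf_le_left) (fun w hw h => hS U T w bg uz h0 hp lv hw fun y hy =>
        h _ ⟨y, hy, rfl⟩) z (Z2.mono hz.1 subset_rfl le) ?_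
    rintro _ ⟨y, hy, rfl⟩
    obtain ⟨i, g, hg, rfl⟩ := hx.ex y hy
    exact B2.mono (loc2 d.rp hz.1 hg ((Submodule.mem_iInf _).1 hz.2 i)) subset_rfl
      (inf_le_inf_right _ le)
  have g := hG k N Γ U T ι x ρ le uz bg h0 hp lv hx d
  have l := sum_loc (· = ·) (fun _ => rfl) (fun _ _ _ _ => congrArg₂ _)
    (fun _ _ _ f => (add_right_inj_of_lt_aleph0 f).1) oΓ hx h0 hp d.fin
    (d.rp.mono (Set.empty_subset _) le_rfl) fun l P o =>
      (hL k N Γ U l P ρ oΓ oU uz o (pd_res d inf_le_left)).symm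
  have fm := sum_fin fun i => fin_hm (A := Dv Γ x i) (ρ := ρ) (ω := om p k) d.fin
  have fz := (self_le_add_right _ _).trans_lt
    (g.trans_lt (add_lt_aleph0 fm (Module.rank_lt_aleph0 k N)))
  have c := cone GQ k N _ Γ ι _ ρ d.rp (Dv_le Γ x)
  refine ⟨s, fz, fun i => (Finset.single_le_sum (fun _ _ => bot_le) (Finset.mem_univ i)).trans_lt
    (l.symm.trans_lt (add_lt_aleph0 fm (fin_cr d.fin _))), l.symm,
    (add_right_inj_of_lt_aleph0 (add_lt_aleph0 fm (fin_cr d.fin (Fintype.card ι)))).1 ?_⟩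
  rw [s, zero_add, ← l] at c
  calc _ = hc (In T) Γ (Dv Γ x) ρ + (∑ i, rk (Hm (Dv Γ x i) ρ (om p k)) + Module.rank k N) +
        Fintype.card ι * Module.rank k N := by ring
    _ = hc (In T) Γ (Dv Γ x) ρ + rk (Z1 (In T) Γ ρ) + Fintype.card ι * Module.rank k N +
        rk (Hm Γ ρ (om p k)) := by rw [← g]; ring
    _ = _ := by rw [c]; ring

theorem chi (p : ℕ) [Fact p.Prime] (h0 : CHI0 p) (hG : GPC p) (hO : ONE p) : CHI p := by
  intro k _ _ _ N _ _ Γ U T ι _ x ρ ⟨f, r, L, tu, alt⟩ hx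
  obtain ⟨f1, f2⟩ := fin_all h0 L L.le f r tu
  refine ⟨f1, fun i => f2 _ (Rps.self hx i), ?_⟩
  obtain j | ⟨B, H, c, hz, bg, t⟩ := alt
  · exact (h0 k N Γ U T ι x ρ L.le L.uz L.bg L.h0 L.hp L.lv hx (pd_of L f r j tu)).2.2.2.2.le
  have ub := c.uh.trans c.hb
  have l := L.lv.mono subset_rfl (le_top (a := Γ))
  have rB := r.mono subset_rfl c.bg
  obtain ⟨κ, _, y, hy⟩ := reps GQ Plc ι Γ B _ x hx c.bg (l.up ub).relIndex
  obtain ⟨X, _, _, ξ, fX, rX, tX, jX, s1, s2, s3⟩ := stb pr0 prt p GQ k N _ Γ B H U ρ f r c l tu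
  obtain ⟨s3, -⟩ := s3 Plc ι κ _ x y hx hy
  have d := pd_of L fX rX jX tX
  have g := hG k X Γ U T ι x ξ L.le L.uz L.bg L.h0 L.hp L.lv hx d
  have fB := (fin_all h0 L ub f rB tu).1
  have b := (ar_cone (cone GQ k N _ B κ _ ρ rB (Dv_le B y)) fB (fin_cr f _) (fin_tn f fB)).1
    (chiB h0 hO L c hz bg hy t f rB tu)
  have s := rsh tr2 pr0 cj2 GQ k N _ Γ B ρ Plc ι κ _ x y r c.bg
    (by rw [Ne, CharP.cast_eq_zero_iff k p]; exact c.ib) (l.up ub) hx hy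
  rw [(h0 k X Γ U T ι x ξ L.le L.uz L.bg L.h0 L.hp L.lv hx d).2.2.2.1] at s3
  refine (ar_cone (cone GQ k N _ Γ ι _ ρ r (Dv_le Γ x)) f1 (fin_cr f _) (fin_tn f f1)).2 (can
    (add_lt_aleph0 (add_lt_aleph0 (add_lt_aleph0 (sum_fin fun i => fin_hm (A := Dv Γ x i) (ρ := ξ)
      (ω := om p k) fX) (fin_cr fX (Fintype.card ι))) (fin_cr f (Fintype.card κ)))
      (Module.rank_lt_aleph0 k X)) ?_)
  rw [← s2 _ (mu_om k Γ)] at b
  calc _ = sh (In T) Γ (Dv Γ x) ρ + (∑ i, rk (Z1 ∅ (Dv Γ x i) ρ) + (∑ i, rk (Hm (Dv Γ x i) ξ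
        (om p k)) + Fintype.card ι * Module.rank k X) + Fintype.card κ * Module.rank k N +
        Module.rank k N + Module.rank k X) := by ring
    _ ≤ _ := add_le_add_left s _
    _ = sh (In T) B (Dv B y) ρ + ∑ j, rk (Z1 ∅ (Dv B y j) ρ) + Module.rank k N + (Fintype.card ι *
        (Module.rank k N + Module.rank k X) + Module.rank k X) := by rw [s3]; ring
    _ ≤ _ := add_le_add_left b _
    _ = rk (Z1 (In T) B ρ) + Module.rank k X + rk (Hm Γ ξ (om p k)) + (rk (Hm Γ ρ (om p k)) +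
        Fintype.card κ * Module.rank k N + Fintype.card ι * (Module.rank k N + Module.rank k X)) := by
      ring
    _ = rk (Z1 (In T) Γ ξ) + rk (Hm Γ ξ (om p k)) + (rk (Z1 (In T) Γ ρ) + rk (Hm Γ ρ (om p k)) +
        Fintype.card κ * Module.rank k N + Fintype.card ι * (Module.rank k N + Module.rank k X)) := by
      rw [← s1]; ring
    _ = _ := by rw [g]; ring

theorem llb (p : ℕ) [Fact p.Prime] (h0 : CHI0 p) (hL : LPC p) (hD : DIMT p) : LLB p := by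
  intro k _ _ _ N _ _ Γ U T ι _ x ρ ⟨f, r, L, tu, alt⟩ hx
  obtain j | ⟨B, H, c, hz, bg, t⟩ := alt
  · exact (h0 k N Γ U T ι x ρ L.le L.uz L.bg L.h0 L.hp L.lv hx (pd_of L f r j tu)).2.2.2.1.ge
  have ub := c.uh.trans c.hb
  have l := L.lv.mono subset_rfl (le_top (a := Γ))
  have rB := r.mono subset_rfl c.bg
  obtain ⟨κ, _, y, hy⟩ := reps GQ Plc ι Γ B _ x hx c.bg (l.up ub).relIndex
  obtain ⟨X, _, _, ξ, fX, rX, tX, jX, -, -, s3⟩ := stb pr0 prt p GQ k N _ Γ B H U ρ f r c l tu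
  obtain ⟨s3, s4⟩ := s3 Plc ι κ _ x y hx hy
  have b := sum_loc (· ≤ ·) le_refl (fun _ _ _ _ => add_le_add) (fun _ _ _ => can)
    (Subgroup.isOpen_mono ub (le_open L.lv)) hy L.h0 L.hp f (rB.mono (Set.empty_subset _) le_rfl)
    fun l P o => llbB hL hD L c hz o t rB
  rw [(h0 k X Γ U T ι x ξ L.le L.uz L.bg L.h0 L.hp L.lv hx (pd_of L fX rX jX tX)).2.2.2.1] at s3
  rw [← s4 _ (mu_om k Γ)] at b
  refine can (add_lt_aleph0 (add_lt_aleph0 (sum_fin fun i => fin_hm (A := Dv Γ x i) (ρ := ξ)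
    (ω := om p k) fX) (fin_cr fX (Fintype.card ι))) (fin_cr f (Fintype.card κ))) ?_
  rw [← add_assoc (∑ i, rk (Z1 ∅ (Dv Γ x i) ρ)), s3]
  exact le_of_eq_of_le (by ring) (add_le_add_left b _)

theorem lb (p : ℕ) [Fact p.Prime] (hC : CHI p) (hL : LLB p) : LB p := by
  intro k _ _ _ N _ _ Γ U T ι _ x ρ ok hx
  obtain ⟨f1, -, c⟩ := hC k N Γ U T ι x ρ ok hx
  refine can (fin_cr ok.fin (Fintype.card ι)) ?_
  calc _ = ∑ i, rk (Hm (Dv Γ x i) ρ (om p k)) + Fintype.card ι * Module.rank k N +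
        Module.rank k N := by ring
    _ ≤ _ := add_le_add_left ((hL k N Γ U T ι x ρ ok hx).trans (self_le_add_left _ _)) _
    _ ≤ _ := (ar_cone (cone GQ k N _ Γ ι _ ρ ok.rp (Dv_le Γ x)) f1 (fin_cr ok.fin _)
      (fin_tn ok.fin f1)).1 c
    _ = _ := by ring

end Vale.Agent.P022K.G2
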