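import Vale.Agent.P022K.G2.Prm
import Vale.Agent.P022K.G2.Kd
import Vale.Agent.P022K.G2.Tr2
import Vale.Agent.P022K.G2.Tam
import Vale.Agent.P022K.G2.Plc
import Vale.Agent.P022E.GW.Lat
import Vale.Agent.P022E.GW.Kc

/-!
# P022K, block G2: the global count for projective modules (row `GPC`)
-/

set_option linter.all false

noncomputable section

namespace Vale.Agent.P022K.G2

open NumberField Module IsDedekindDomain
open Vale.Agent.P022 Vale.Agent.P022.C
open Vale.Agent.P027M.S (Inert Pr)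
open Vale.Agent.P027M.S.Cls (ordv_mul ordv_pow val_eq)
open Vale.Agent.P022D.Sel (ov US el tU el_tU el_add mv Big)
open Vale.Agent.P022D.Sel.KillAux (el_inj el_ne el_val mk_el el_nsmul)
open Vale.Agent.P022E.GW (Ov)
open Vale.Agent.P022E.GW.Lt (pm pm_one pm_mul lat)
open scoped Pointwise

namespace Gpc

variable {L : Type} [Field L] [NumberField L] {j : L →+* Qb} {Γ : Subgroup GQ} {T : Finset ℕ}

/-- the action of the normaliser on the field -/
theorem ex_r (h : Nz Γ (GK j)) :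
    ∃ r : GQ → (L ≃ₐ[ℚ] L), ∀ g ∈ Γ, ∀ x, j (r g x) = g (j x) := by
  have hr : ∀ g ∈ Γ, ∀ x, ∃ y, j y = g (j x) := fun g hg x => H916.fixed j fun γ => by
    have := congrArg g (h.conj' hg γ.2 x)
    rwa [← AlgEquiv.mul_apply, ← mul_assoc, mul_inv_cancel_left, AlgEquiv.mul_apply] at this
  choose! f hf using hr
  have : ∀ g ∈ Γ, ∃ σ : L ≃ₐ[ℚ] L, ∀ x, j (σ x) = g (j x) := fun g hg =>
    ⟨AlgEquiv.ofRingEquiv (f :=
      { toFun := f g
        invFun := f g⁻¹
        left_inv := fun x => j.injective (by rw [hf _ (Γ.inv_mem hg), hf g hg]; simp)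
        right_inv := fun x => j.injective (by rw [hf g hg, hf _ (Γ.inv_mem hg)]; simp)
        map_mul' := fun x y => j.injective (by simp only [hf g hg, map_mul])
        map_add' := fun x y => j.injective (by simp only [hf g hg, map_add]) })
      fun q => j.injective (by
        show j (f g _) = _
        rw [hf g hg]; simp), hf g hg⟩
  choose! r hr using this
  exact ⟨r, hr⟩

section

variable {r : GQ → (L ≃ₐ[ℚ] L)} (hr : ∀ g ∈ Γ, ∀ x, j (r g x) = g (j x))
include hr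

theorem r_mul {g h : GQ} (hg : g ∈ Γ) (hh : h ∈ Γ) : r (g * h) = r g * r h :=
  AlgEquiv.ext fun x => j.injective (by
    rw [AlgEquiv.mul_apply, hr _ (Γ.mul_mem hg hh), hr g hg, hr h hh]; rfl)

theorem r_one {u : GQ} (hu : u ∈ Γ) (m : u ∈ GK j) : r u = 1 :=
  AlgEquiv.ext fun x => j.injective ((hr u hu x).trans (m x))

end

variable (L T) in
/-- the places of `L` above `T` -/
abbrev Jp : Type := ov L T ⊕ InfinitePlace L

/-- the action on the places -/
def pa (σ : L ≃ₐ[ℚ] L) : Jp L T → Jp L T := Sum.map (pm T σ) (σ • ·)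

theorem pa_one (z : Jp L T) : pa 1 z = z := by
  rcases z with v | w
  · exact congrArg Sum.inl (pm_one T v)
  · exact congrArg Sum.inr (one_smul _ w)

theorem pa_mul (σ τ : L ≃ₐ[ℚ] L) (z : Jp L T) : pa (σ * τ) z = pa σ (pa τ z) := by
  rcases z with v | w
  · exact congrArg Sum.inl (pm_mul T σ τ v)
  · exact congrArg Sum.inr (mul_smul _ _ w)

variable (j) in
/-- `z` lies below `x` -/
def Bl : Plc → Jp L T → Prop
  | .inl P, .inl v => P.IsPrime ∧ below j P = v.1.asIdeal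
  | .inr w, .inr v => w.comap j = v
  | _, _ => False

theorem bl_ex {x : Plc} (hx : x ∈ Ab T) : ∃ z : Jp L T, Bl j x z := by
  rcases hx with ⟨l, hl, P, hP, rfl⟩ | ⟨-, w, rfl⟩
  · exact ⟨.inl ⟨blw j hP, l, hl, hP.1.ne_zero, H20.l_mem_below j hP.2.2⟩, hP.2.1, rfl⟩
  · exact ⟨.inr _, rfl⟩

theorem bl_onto (h0 : 0 ∈ T) (hT : ∀ l ∈ T, l = 0 ∨ l.Prime) (z : Jp L T) :
    ∃ x ∈ Ab T, Bl j x z := by
  rcases z with ⟨v, l, hl, l0, m⟩ | w
  · obtain ⟨P, hP, e⟩ := H916.exists_above j v.asIdeal v.isPrime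
    exact ⟨fp P, mem_ab_fp.2 ⟨l, hl, (hT l hl).resolve_left l0, hP,
      (P022E.GW.Kc.nat_mem j e l).1 m⟩, hP, e⟩
  · obtain ⟨Φ, e⟩ := H916.exists_extend j w.embedding
    refine ⟨ip (InfinitePlace.mk Φ), mem_ab_ip.2 h0, ?_⟩
    show InfinitePlace.mk (Φ.comp j) = w
    rw [show Φ.comp j = w.embedding from RingHom.ext e, InfinitePlace.mk_embedding]

theorem bl_un {x : Plc} {z z' : Jp L T} (h : Bl j x z) (h' : Bl j x z') : z = z' := by
  rcases x with P | w <;> rcases z with v | v <;> rcases z' with v' | v'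
  · exact congrArg _ (Subtype.ext (HeightOneSpectrum.ext (h.2.symm.trans h'.2)))
  · exact h'.elim
  · exact h.elim
  · exact h.elim
  · exact h.elim
  · exact h.elim
  · exact h'.elim
  · exact congrArg _ (Eq.trans (Eq.symm h) h')

theorem bl_smul {g : GQ} {σ : L ≃ₐ[ℚ] L} (hσ : ∀ x, j (σ x) = g (j x)) {x : Plc} {z : Jp L T}
    (h : Bl j x z) : Bl j (g • x) (pa σ z) := by
  rcases x with P | w <;> rcases z with v | v
  · have := h.1
    refine ⟨Ideal.IsPrime.smul g, Ideal.ext fun y => ?_⟩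
    have e : g⁻¹ • RingOfIntegers.mapRingHom j y = RingOfIntegers.mapRingHom j
        (RingOfIntegers.mapRingEquiv σ.toRingEquiv.symm y) := by
      rw [inv_smul_eq_iff]
      apply RingOfIntegers.ext
      have h1 := hσ (σ.symm (y : L))
      rw [AlgEquiv.apply_symm_apply] at h1
      exact h1
    show RingOfIntegers.mapRingHom j y ∈ g • P ↔
      RingOfIntegers.mapRingEquiv σ.toRingEquiv.symm y ∈ v.1.asIdeal
    rw [mem_smul, e, ← h.2]
    rfl
  · exact h.elim
  · exact h.elim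
  · obtain rfl : w.comap j = v := h
    refine InfinitePlace.ext _ _ fun x => ?_
    show w (g.symm (j x)) = w (j (σ.symm x))
    congr 1
    rw [AlgEquiv.symm_apply_eq, ← hσ, AlgEquiv.apply_symm_apply]

theorem bl_tr {x x' : Plc} {z : Jp L T} (h : Bl j x z) (h' : Bl j x' z) :
    ∃ u ∈ GK j, x' = u • x := by
  rcases z with v | v <;> rcases x with P | w <;> rcases x' with P' | w'
  · obtain ⟨u, e⟩ := H916.exists_smul j h.1 h'.1 (h.2.trans h'.2.symm)
    exact ⟨u, u.2, congrArg fp e⟩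
  · exact h'.elim
  · exact h.elim
  · exact h.elim
  · exact h.elim
  · exact h.elim
  · exact h'.elim
  have key : ∀ Φ Φ' : Qb →+* ℂ, Φ.comp j = Φ'.comp j →
      ∃ u ∈ GK j, InfinitePlace.mk Φ' = u • InfinitePlace.mk Φ := fun Φ Φ' e => by
    obtain ⟨g, hg⟩ := GW.Pl.emb_trans Φ Φ'
    exact ⟨g, (GK j).inv_mem_iff.1 fun x =>
      Φ.injective ((hg _).trans (RingHom.congr_fun e x).symm),
      (congrArg InfinitePlace.mk (RingHom.ext fun x => (hg x).symm)).trans
        (InfinitePlace.smul_mk g Φ).symm⟩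
  have e : w.comap j = w'.comap j := Eq.trans h (Eq.symm h')
  rw [← w.mk_embedding, ← w'.mk_embedding, InfinitePlace.comap_mk, InfinitePlace.comap_mk,
    InfinitePlace.mk_eq_iff] at e
  rcases e with e | e
  · obtain ⟨u, hu, k⟩ := key _ _ e
    rw [w.mk_embedding, w'.mk_embedding] at k
    exact ⟨u, hu, congrArg ip k⟩
  · obtain ⟨u, hu, k⟩ := key (ComplexEmbedding.conjugate w.embedding) _ e
    rw [InfinitePlace.mk_conjugate_eq, w.mk_embedding, w'.mk_embedding] at k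
    exact ⟨u, hu, congrArg ip k⟩

theorem fin_kp {m : ℕ} (hm : m ≠ 0) : Finite (Kp m (US L T)) := by
  classical
  refine Set.Finite.to_subtype (Set.Finite.of_finite_image (f := el)
    ((Polynomial.nthRoots m (1 : L)).toFinset.finite_toSet.subset ?_) fun a _ b _ h => el_inj h)
  rintro _ ⟨z, hz, rfl⟩
  rw [Finset.mem_coe, Multiset.mem_toFinset, Polynomial.mem_nthRoots hm.bot_lt, ← el_nsmul,
    show m • z = 0 from hz]
  rfl

theorem mk_ord {y : L} (hy : y ≠ 0) (h : ∀ v ∉ ov L T, ordv v y = 0) : ∃ a : US L T, el a = y :=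
  mk_el y hy fun v hv => by rw [val_eq v hy, h v hv]; rfl

theorem ord_el (a : US L T) {v : Pr L} (hv : v ∉ ov L T) : ordv v (el a) = 0 := by
  rw [ordv, el_val a v hv]; rfl

variable {p : ℕ} [Fact p.Prime]

theorem mk_root {y : L} {a : US L T} (h : y ^ p = el a) : ∃ b : US L T, el b = y := by
  have y0 : y ≠ 0 := fun e => el_ne a (by rw [← h, e, zero_pow (Fact.out : p.Prime).ne_zero])
  refine mk_ord y0 fun v hv => ?_
  have := ord_el a hv
  rw [← h, ordv_pow v y0] at this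
  exact (mul_eq_zero.1 this).resolve_left (Int.natCast_ne_zero.2 (Fact.out : p.Prime).ne_zero)

theorem j_ne (a : US L T) : j (el a) ≠ 0 := (map_ne_zero j).2 (el_ne a)

open Classical in
/-- the Kummer map -/
def kp (hz : GK j ≤ Gz p) : US L T →+ GQ → ZMod p :=
  AddMonoidHom.mk' (fun a u => if u ∈ GK j then ka p (j (el a)) u else 0) fun a b =>
    funext fun u => by
      by_cases hu : u ∈ GK j
      · simp only [Pi.add_apply, if_pos hu]
        rw [el_add, map_mul, ka_mul (j_ne a) (j_ne b) (hz hu) (hu _) (hu _)]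
      · simp only [Pi.add_apply, if_neg hu, add_zero]

variable (hz : GK j ≤ Gz p)

theorem kp_pos (a : US L T) {u : GQ} (hu : u ∈ GK j) : kp hz a u = ka p (j (el a)) u := if_pos hu

theorem kp_neg (a : US L T) {u : GQ} (hu : u ∉ GK j) : kp hz a u = 0 := if_neg hu

theorem p_fun (f : GQ → ZMod p) : p • f = 0 := funext fun u => by
  rw [Pi.smul_apply, nsmul_eq_mul, ZMod.natCast_self, zero_mul]; rfl

theorem kp_zero (a : US L T) : kp hz a = 0 ↔ ∃ b, a = p • b := by
  refine ⟨fun e => ?_, by rintro ⟨b, rfl⟩; rw [map_nsmul, p_fun]⟩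
  obtain ⟨y, h1, h2⟩ := ((kum p _ hz).2 _ (j_ne a) fun g hg => hg _).2.1 fun g hg => by
    rw [← kp_pos hz a hg, e]; rfl
  obtain ⟨y, rfl⟩ := H916.fixed j (x := y) fun g => h1 g g.2
  have e' : y ^ p = el a := j.injective (by rw [map_pow, h2])
  obtain ⟨b, rfl⟩ := mk_root e'
  exact ⟨b, el_inj (by rw [el_nsmul, e'])⟩

theorem kp_mem (hp : p ∈ T) (hT : ∀ l ∈ T, l = 0 ∨ l.Prime) (hI : In T ⊆ GK j) (a : US L T) :
    kp hz a ∈ Z1 (In T) (GK j) (tp p) := by
  have c := ka_ch hz (j_ne a) fun g hg => hg _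
  refine ⟨fun g hg h hh => ?_, fun g hg => kp_neg hz a hg, c.ker.normalCore,
    lv_of' inferInstance (GW.Pl.core_open (c.le_ker.isOpen (H916.isOpen_GK j))) ?_,
    fun w hw m => (kp_pos hz a hw).trans (Subgroup.normalCore_le _ m).2⟩
  · rw [kp_pos hz a hg, kp_pos hz a hh, kp_pos hz a (mul_mem hg hh), c.1 g hg h hh]; rfl
  · rintro i ⟨l, hl, P, hP, hi⟩ g
    have o := GW.ov_smul hP g
    have n := GW.Pl.inert_conj hi g
    have m := hI ⟨l, hl, _, o, n⟩
    refine ⟨m, ka_of_dvd j o (fun e => hl (e ▸ hp)) (v := blw j o) rfl (el_ne a) ?_ m n⟩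
    rw [ord_el a (P022E.GW.Kc.not_ov hT hP.1 hl (H20.l_mem_below j o.2.2))]
    exact dvd_zero _

theorem kp_onto (hB : Big L T) {χ : GQ → ZMod p} (h : χ ∈ Z1 (In T) (GK j) (tp p)) :
    ∃ a : US L T, kp hz a = χ := by
  classical
  obtain ⟨b, b0, h1, h2⟩ := (kum p _ hz).1 χ (Z1.ch h)
  obtain ⟨b, rfl⟩ := H916.fixed j (x := b) fun g => h1 g g.2
  have b0' : b ≠ 0 := (map_ne_zero j).1 b0
  have dv : ∀ v ∉ ov L T, (p : ℤ) ∣ ordv v b := fun v hv => by
    obtain ⟨l, P, o, rfl⟩ := GW.Pl.dn_onto j v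
    refine dvd_ordv j o rfl b0' fun g hg hi => ⟨hz hg, (h2 g hg).symm.trans ?_⟩
    obtain ⟨W, hW, e⟩ := h.2.2
    exact e g hg (hW.sub ⟨l, fun k => hv ⟨l, k, o.1.ne_zero, H20.l_mem_below j o.2.2⟩, P, o, hi⟩)
  obtain ⟨z, z0, e⟩ := P022E.GW.Kc.ex_ord hB (P022E.GW.Kc.fin_ord b0').toFinset
    fun v => -(ordv v b / p)
  obtain ⟨a, ha⟩ := mk_ord (T := T) (mul_ne_zero b0' (pow_ne_zero p z0)) fun v hv => by
    rw [ordv_mul v b0' (pow_ne_zero p z0), ordv_pow v z0, e v hv]
    split_ifs with c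
    · rw [mul_neg, Int.mul_ediv_cancel' (dv v hv), add_neg_cancel]
    · rw [Set.Finite.mem_toFinset, Set.mem_setOf_eq, not_not] at c
      rw [c, mul_zero, add_zero]
  refine ⟨a, funext fun u => ?_⟩
  by_cases hu : u ∈ GK j
  · have j0 := (map_ne_zero j).2 z0
    rw [kp_pos hz a hu, ha, map_mul, map_pow, ka_mul b0 (pow_ne_zero p j0) (hz hu) (hu _)
      (by rw [map_pow, hu]), ka_pp j0 (hz hu) (hu _), add_zero, h2 u hu]
  · rw [kp_neg hz a hu, h.2.1 u hu]

include hz in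
/-- the roots of unity -/
theorem ex_mu : ∃ a : Kp p (US L T), ∀ n : ℤ, j (el (n • a).1) = zt p ^ n := by
  obtain ⟨z, e⟩ := H916.fixed j (x := zt p) fun g => mem_Gz'.1 (hz g.2)
  have e' : z ^ p = el (0 : US L T) := j.injective (by rw [map_pow, e, zt_pow]; exact (map_one j).symm)
  obtain ⟨b, rfl⟩ := mk_root e'
  refine ⟨⟨b, el_inj ((el_nsmul b p).trans e')⟩, fun n => ?_⟩
  rw [← e, ← map_zpow₀]
  exact congrArg j (Units.val_zpow_eq_zpow_val _ _)

end Gpc

open Gpc Prm Hq in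
theorem gpc (p : ℕ) [Fact p.Prime] : GPC p := by
  rintro k _ _ N _ _ Γ _ T ι _ x ρ le hz ⟨⟨L, _, _, j, rfl, hB⟩, hT⟩ h0 hp lv hx h
  have pp : p.Prime := Fact.out
  have inf : Γ ⊓ GK j = GK j := inf_eq_right.2 le
  obtain ⟨r, hr⟩ := ex_r h.nz
  let α : GQ → US L T →+ US L T := fun g => tU (r g).toRingEquiv T
  have jα : ∀ g ∈ Γ, ∀ a, j (el (α g a)) = g (j (el a)) := fun g hg a => hr g hg _
  have hα : Ac Γ (GK j) α :=
    ⟨fun g hg g' hg' a => el_inj (DFunLike.congr_fun (r_mul hr hg hg') _),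
      fun u hu m a => el_inj (DFunLike.congr_fun (r_one hr hu m) _)⟩
  have hπ : Pa Γ (GK j) fun g => pa (T := T) (r g) :=
    ⟨fun g hg g' hg' z => by rw [r_mul hr hg hg', pa_mul],
      fun u hu m z => by rw [r_one hr hu m, pa_one]⟩
  obtain ⟨Y, V, e, M, M0, e0, hY, hV, he, rel, hM⟩ := lat ℚ L T
  haveI := fin_kp (L := L) (T := T) M0
  haveI := fin_kp (L := L) (T := T) pp.ne_zero
  have hM' : ∀ a, ∃ c : Jp L T → ℤ, ∑ z, c z • Sum.elim Y V z = M • a := fun a => by
    obtain ⟨c, d, e⟩ := hM a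
    exact ⟨Sum.elim c d, (Fintype.sum_sum_type _).trans e⟩
  have e1 := herb p h hα hπ (Sum.elim Y V)
    (by rintro g - (v | w); exacts [hY _ v, hV _ w]) (Sum.elim 0 e)
    (by rintro g - (v | w); exacts [rfl, he _ w])
    (fun c => (e0 (Classical.arbitrary _)).ne' (congrFun c (.inr _)))
    (fun c => by
      rw [Fintype.sum_sum_type]
      refine (rel (fun v => c (.inl v)) fun w => c (.inr w)).trans ⟨?_, ?_⟩
      · rintro ⟨a, t, b⟩
        refine ⟨t, funext ?_⟩
        rintro (v | w)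
        · exact (congrFun a v).trans (mul_zero t).symm
        · exact congrFun b w
      · rintro ⟨t, rfl⟩
        exact ⟨funext fun _ => mul_zero t, t, rfl⟩) M0 hM'
  choose z hz' using fun i => bl_ex (j := j) (T := T) (Rps.self hx i)
  have e2 := shap h hπ z (Dv Γ x)
    (fun i d hd => ⟨hd.1, bl_un (bl_smul (hr d hd.1) (hz' i))
      (by rw [show d • x i = x i from hd.2]; exact hz' i)⟩)
    (fun w => by
      obtain ⟨y, hy, b⟩ := bl_onto (j := j) h0 hT w
      obtain ⟨i, g, hg, rfl⟩ := hx.ex y hy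
      exact ⟨i, g, hg, bl_un b (bl_smul (hr g hg) (hz' i))⟩)
    fun i i' g hg e => by
      obtain ⟨u, hu, k⟩ := bl_tr (bl_smul (hr g hg) (hz' i)) (e ▸ hz' i')
      rw [← mul_smul] at k
      have m := Γ.mul_mem (le hu) hg
      obtain rfl := hx.un i i' _ m k
      exact ⟨rfl, u, le hu, hu, m, k.symm⟩
  obtain ⟨a, ha⟩ := ex_mu (T := T) hz
  have ej : ∀ b b' : Kp p (US L T), j (el b.1) = j (el b'.1) → b = b' := fun _ _ e =>
    Subtype.ext (el_inj (j.injective e))
  have e3 := cyc (Γ := Γ) (ρ := ρ) (ω := om p k) (α := tor p α) p (a := a)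
    (fun b => by
      obtain ⟨c, e⟩ := pw_ex (p := p) (x := j (el b.1)) (by
        rw [← map_pow, ← el_nsmul, show p • b.1 = 0 from b.2]; exact map_one j)
      exact ⟨c.val, ej _ _ (by rw [ha, e, zpow_natCast])⟩)
    (fun n hn => ((zt_prim p).zpow_eq_one_iff_dvd n).1 (by rw [← ha, hn]; exact map_one j))
    (fun g => (oz p g).val)
    (fun g hg => ej _ _ (by
      have := ha 1
      rw [one_zsmul, zpow_one] at this
      rw [ha, zpow_natCast, ← oz_spec, ← this]
      exact jα g hg _)) (fun _ => 1) fun g hg => by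
      have e : (((oz p g).val : ℤ) : k) = om p k g := by
        rw [Int.cast_natCast, om, ← map_natCast (ZMod.castHom (dvd_refl p) k),
          ZMod.natCast_zmod_val]
      rw [e, mul_one]
      exact ⟨h.mu.ne hg, rfl⟩
  have hI : In T ⊆ GK j := fun i hi => lv.elim fun _ hW => hW.2 i trivial (hW.1.sub hi)
  haveI := fg_of _ hM'
  have e4 := kd prd p GQ k N (In T) Γ (GK j) ρ (oz p) (US L T) α (kp hz) h hα
    (fun χ => by
      rw [inf]
      exact ⟨kp_onto hz hB, by rintro ⟨a, rfl⟩; exact kp_mem hz hp hT hI a⟩)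
    (kp_zero hz)
    (fun g hg u hu a => by
      rw [kp_pos hz _ (h.nz g hg u hu.2), kp_pos hz _ hu.2, jα g hg,
        ka_conj (j_ne a) g (hz hu.2) (hu.2 _)])
    (AddCommGroup.finite_of_fg_torsion _ fun f =>
      isOfFinAddOrder_iff_nsmul_eq_zero.2 ⟨p, pp.pos, Subtype.ext (p_fun f.1)⟩)
  have e5 := eqv GQ k N (In T) Γ (GK j) ρ h.rp h.prj h.nz h.tri h.le
  have e6 := prd GQ k N (In T) Γ (GK j) ρ (fun _ => 1) h.fin h.rp h.prj h.nz h.tri
    ⟨rfl, fun _ _ _ _ => (one_mul _).symm⟩ fun _ _ _ => rfl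
  haveI := h.fin
  refine (Cardinal.add_right_inj_of_lt_aleph0 (γ := rk (H0 Γ ρ fun _ => 1))
    ((Submodule.rank_le _).trans_lt (Module.rank_lt_aleph0 k N))).1 ?_
  rw [add_right_comm, e5, e4, add_right_comm]
  refine (congrArg (· + Module.rank k N) e1).trans ?_
  rw [e2, e3, e6, add_right_comm]

end Vale.Agent.P022K.G2
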