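import Vale.Agent.P022K.G2.Rec

/-!
# P022K, block G2: the bound for the relative tangent space (row `TWL`; helper42)
-/

set_option linter.all false

noncomputable section

namespace Vale.Agent.P022K.G2

open NumberField Module
open Vale.Agent.P022 Vale.Agent.P022.C
open Vale.Agent.P027M.S (Inert)
open Vale.Agent.P022D.W (dec)
open Vale.Agent.P022E.GW (Ov Fb)
open scoped Pointwise

namespace Hb

variable {k : Type} [Field k]

theorem rk_pi {ι : Type} [Fintype ι] (V : ι → Type) [∀ i, AddCommGroup (V i)]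
    [∀ i, Module k (V i)] [∀ i, Module.Finite k (V i)] :
    Module.rank k ((i : ι) → V i) = ∑ i, Module.rank k (V i) := by
  simp only [← finrank_eq_rank, finrank_pi_fintype, Nat.cast_sum]

/-- orthogonality -/
theorem orth {K Z : Type} [AddCommGroup K] [Module k K] [AddCommGroup Z] [Module k Z]
    [Module.Finite k K] (b : Z →ₗ[k] Dual k K) (S : Submodule k K)
    (h : ∀ z, ∀ s ∈ S, b z s = 0) :
    rk S + Module.rank k Z ≤ Module.rank k K + rk (LinearMap.ker b) := by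
  have h1 : LinearMap.range b ≤ S.dualAnnihilator := by
    rintro _ ⟨z, rfl⟩
    exact (Submodule.mem_dualAnnihilator _).2 (h z)
  rw [← b.rank_range_add_rank_ker, ← add_assoc, ← S.rank_quotient_add_rank,
    (Subspace.quotEquivAnnihilator S).rank_eq, add_comm (rk S)]
  exact add_le_add_left (add_le_add_left (Submodule.rank_mono h1) _) _

variable {N M : Type} [AddCommGroup N] [Module k N] [AddCommGroup M] [Module k M] {I J : Set GQ}
  {Γ A : Subgroup GQ} {ρ : GQ → End k N} {σ : GQ → End k M} {ω : GQ → k}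
  {β : N →ₗ[k] Dual k M}

theorem pf_fix (f : Pf Γ ρ σ ω β) (s : Rp I Γ σ) {g : GQ} (hg : g ∈ Γ) {n : N}
    (h : ∀ m, β n (σ g m) = ω g * β n m) : ρ g n = n :=
  f.bij.1 (LinearMap.ext fun m => by rw [← s.inv hg m, f.eqv g hg, h])

theorem hm_h0 (f : Pf Γ ρ σ ω β) (s : Rp I Γ σ) (le : A ≤ Γ) :
    rk (Hm A σ ω) = rk (H0 A ρ 1) := by
  have : Hm A σ ω = (H0 A ρ 1).map β := Submodule.ext fun x => by
    obtain ⟨n, rfl⟩ := f.bij.2 x
    rw [← Submodule.mem_comap (p := Submodule.map _ _), Submodule.comap_map_eq_of_injective f.bij.1]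
    refine forall₂_congr fun g hg => ?_
    rw [Pi.one_apply, one_smul]
    exact ⟨pf_fix f s (le hg), fun e m => by rw [← f.eqv g (le hg), e]⟩
  rw [this]
  exact (Submodule.equivMapOfInjective β f.bij.1 _).rank_eq.symm

/-- the tangent space when there are no locally trivial classes -/
theorem tn_le [Module.Finite k N] {ι : Type} [Fintype ι] {D : ι → Subgroup GQ}
    (le : ∀ i, D i ≤ Γ)
    (h : ∀ c ∈ Z1 I Γ ρ, (∀ i, c ∈ B1 (D i) ρ) → c ∈ B1 Γ ρ) :
    rk (Tn I Γ D ρ) + rk (H0 Γ ρ 1) ≤ ∑ i, rk (H0 (D i) ρ 1) + Module.rank k N := by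
  classical
  let F : ((i : ι) → H0 (D i) ρ 1) × N →ₗ[k] (GQ → N) × (ι → N) :=
    .prod (.pi fun g => (if g ∈ Γ then ρ g - 1 else 0) ∘ₗ .snd _ _ _)
      (.pi fun i => (H0 (D i) ρ 1).subtype ∘ₗ .proj i ∘ₗ .fst _ _ _ + .snd _ _ _)
  have F1 : ∀ v g, (F v).1 g = (if g ∈ Γ then ρ g - 1 else 0) v.2 := fun _ _ => rfl
  have F2 : ∀ v i, (F v).2 i = v.1 i + v.2 := fun _ _ => rfl
  have a : Tn I Γ D ρ ≤ LinearMap.range F := by
    rintro ⟨c, m⟩ ⟨c1, c2⟩
    obtain ⟨n, hn⟩ := h c c1 fun i => ⟨_, c2 i⟩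
    refine ⟨(fun i => ⟨m i - n, fun d hd => ?_⟩, n), Prod.ext (funext fun g => ?_)
      (funext fun i => ?_)⟩
    · have := (c2 i d hd).symm.trans (hn d (le i hd))
      rw [d0_apply, d0_apply, sub_eq_sub_iff_sub_eq_sub] at this
      rw [map_sub, Pi.one_apply, one_smul, this]
    · rw [F1]
      split_ifs with e
      exacts [(hn g e).symm, (c1.2.1 g e).symm]
    · rw [F2]; exact sub_add_cancel _ _
  let e : H0 Γ ρ 1 →ₗ[k] ((i : ι) → H0 (D i) ρ 1) × N :=
    .prod (-.pi fun i => Submodule.inclusion fun n hn d hd => hn d (le i hd)) (Submodule.subtype _)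
  have b : rk (H0 Γ ρ 1) ≤ rk (LinearMap.ker F) :=
    LinearMap.rank_le_of_injective (e.codRestrict _ fun n => Prod.ext (funext fun g => by
      rw [F1]
      split_ifs with m
      exacts [sub_eq_zero.2 ((n.2 g m).trans (one_smul _ _)), rfl]) (funext fun i => by
        rw [F2]; exact neg_add_cancel _))
      fun x y h => Subtype.ext (congrArg (fun z => z.1.2) h)
  refine (add_le_add (Submodule.rank_mono a) b).trans_eq ?_
  rw [F.rank_range_add_rank_ker, rank_prod', rk_pi]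

end Hb

open Hb

theorem twl (p : ℕ) [Fact p.Prime] (hL : LB p) (hR : REC p) (hS : SH1 p) (hT : TAM p) :
    TWL p := by
  classical
  intro k _ _ _ N M _ _ _ _ Γ U T ι κ _ _ x l P φ ρ σ β ok r tri cy pf hx aq
  have := ok.fin
  have : Module.Finite k N := Module.Finite.of_injective β pf.bij.1
  have lv : Le (In T) ⊤ Γ := ok.lg.lv.up ok.lg.le
  have dl : ∀ j, dec (P j) ≤ Γ := fun j => (aq.tm j).le.trans inf_le_left
  have fd : ∀ j, φ j ∈ dec (P j) := fun j =>
    P022D.W.phi_mem (aq.tm j).ov.1 (aq.tm j).ov.2.1 (aq.tm j).fb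
  have ii : ∀ j g, Inert (P j) g → g ∈ In T := fun j g hg =>
    ⟨l j, aq.out j, P j, (aq.tm j).ov, hg⟩
  -- the unramified part
  have h1 : rk (Tn (In T) Γ (Dv Γ x) ρ) ≤ rk (Z1 (In T) Γ σ) := by
    have a := tn_le (Dv_le Γ x) fun c hc => hS k N Γ U T ι x ρ c r ok.lg tri cy hx hc
    have b := hL k M Γ U T ι x σ ok hx
    simp only [hm_h0 pf ok.rp (Dv_le Γ x _), hm_h0 pf ok.rp le_rfl] at b
    rw [(LinearEquiv.ofBijective β pf.bij).rank_eq, ← (Basis.ofVectorSpace k M).toDualEquiv.rank_eq]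
      at a
    exact (Cardinal.add_le_add_iff_of_lt_aleph0 (Module.rank_lt_aleph0 k _)).1 (a.trans b)
  -- the residues
  choose τ t1 t2 using fun j => (hT _ _ (aq.tm j).ov (aq.tm j).ne).2.1
  let V := TQ T Γ (Dv Γ x) l P ρ
  have tm : ∀ (v : V) j g, Inert (P j) g →
      v.1.1 g = ZMod.castHom (dvd_refl p) k (ka p (l j) g) • v.1.1 (τ j) := fun v j g hg => by
    obtain ⟨n, hn⟩ := (hT _ _ (aq.tm j).ov (aq.tm j).ne).2.2 k N v.1.1 (fun a b ha hb => by
      rw [v.2.1.1.1 a (le_in lv (ii j a ha)) b (le_in lv (ii j b hb)),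
        rp_in r (ii j a ha) (le_in lv (ii j a ha))]; rfl)
      (v.2.1.1.2.2.imp fun W hW => ⟨hW.1.mono (Set.empty_subset _), fun w m a =>
        hW.2 w (le_in lv (ii j w a)) m⟩)
    rw [hn g hg, hn _ (t1 j), t2, map_one, one_smul]
  let K := (j : κ) → LinearMap.ker (ρ (φ j) - 1)
  let R : V →ₗ[k] K := .pi fun j => LinearMap.codRestrict _
    (.proj (τ j) ∘ₗ .fst _ _ _ ∘ₗ V.subtype) fun v =>
      sub_eq_zero.2 (fix_n hT (aq.tm j) (aq.out j) r v.2.1.1 (tm v j) (fd j))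
  have h2 : rk (LinearMap.ker R) ≤ rk (Tn (In T) Γ (Dv Γ x) ρ) := by
    refine LinearMap.rank_le_of_injective ((V.subtype ∘ₗ (LinearMap.ker R).subtype).codRestrict _
      fun v => ⟨z1_up lv r v.1.2.1.1 ?_, v.1.2.1.2⟩) fun a b h =>
        Subtype.ext (Subtype.ext (Subtype.ext_iff.1 h :))
    rintro i ⟨q, hq, Q, ov, hi⟩
    by_contra ne
    have : ¬ ∀ j, ∀ g ∈ Γ, Q ≠ g • P j := fun h => ne (v.1.2.2 q hq Q ov h i hi)
    push Not at this
    obtain ⟨j, g, hg, rfl⟩ := this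
    have a := GW.Pl.inert_conj hi g⁻¹
    rw [inv_smul_smul] at a
    have m : i ∈ In T := ⟨q, hq, _, ov, hi⟩
    have e := cj r v.1.2.1.1 hg (le_in lv (ii j _ a))
    rw [tm v.1 j _ a, show v.1.1.1 (τ j) = 0 from
      congrArg Subtype.val (congrFun (LinearMap.mem_ker.1 v.2) j),
      show g * (g⁻¹ * i * g⁻¹⁻¹) * g⁻¹ = i by group, rp_in r m (le_in lv m)] at e
    exact ne (by simpa using e)
  -- the pairing
  let b : Z1 (In T) Γ σ →ₗ[k] Dual k K := ∑ j, LinearMap.flip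
    (β ∘ₗ (LinearMap.ker (ρ (φ j) - 1)).subtype ∘ₗ .proj j) ∘ₗ .proj (φ j) ∘ₗ Submodule.subtype _
  have hb : ∀ y s, b y s = ∑ j, β (s j) (y.1 (φ j)) := fun y s => by
    simp only [b, LinearMap.sum_apply]; rfl
  have h3 := orth b (LinearMap.range R) (by
    rintro y _ ⟨v, rfl⟩
    rw [hb]
    exact hR k N M Γ T ι κ x l P φ ρ σ β v.1 (fun j => v.1.1 (τ j)) y.1 lv ok.lg.h0 ok.lg.hp r
      ok.rp pf.eqv hx aq v.2 (tm v) y.2)
  have h4 : rk (LinearMap.ker b) ≤ rk (Yq (In T) Γ φ σ) := by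
    refine LinearMap.rank_le_of_injective ((Submodule.subtype _ ∘ₗ
      (LinearMap.ker b).subtype).codRestrict _ fun y => ⟨y.1.2, fun j => ?_⟩) fun a b h =>
        Subtype.ext (Subtype.ext (Subtype.ext_iff.1 h :))
    refine (Subspace.forall_mem_dualAnnihilator_apply_eq_zero_iff _ _).1 fun f hf => ?_
    obtain ⟨n, rfl⟩ := pf.bij.2 f
    have m : n ∈ LinearMap.ker (ρ (φ j) - 1) := sub_eq_zero.2 (pf_fix pf ok.rp (dl j (fd j))
      fun m => by
        have := (Submodule.mem_dualAnnihilator _).1 hf _ ⟨m, rfl⟩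
        rw [(om_eq_one k).2 ((aq.tm j).le (fd j)).2, one_mul, ← sub_eq_zero, ← map_sub]
        exact this)
    have := hb y.1 (Pi.single j ⟨n, m⟩)
    rw [LinearMap.mem_ker.1 y.2, Finset.sum_eq_single j (fun i _ e => by simp [e]) (by simp),
      Pi.single_eq_same] at this
    exact this.symm
  rw [rk_pi] at h3
  refine R.rank_range_add_rank_ker.symm.trans_le ?_
  exact (add_le_add_right (h2.trans h1) _).trans (h3.trans (add_le_add_right h4 _))

end Vale.Agent.P022K.G2
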