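import Vale.Agent.P022K.G2.Glo
import Vale.Agent.P022K.G2.Twl
import Vale.Agent.P022K.G2.Tam
import Vale.Agent.P022K.G2.Unr
import Vale.Agent.P022K.G2.Chi
import Vale.Agent.P022K.G2.Dim
import Vale.Agent.P022K.G2.Gpc
import Vale.Agent.P022K.G2.Lpc
import Vale.Agent.P022E.GW.OneC
import Vale.Agent.P022E.GW.Sha
import Vale.Agent.P022E.GW.HnH56

/-!
# P022K, block G2: the rows for the prime two, closed (helper42)
-/

namespace Vale.Agent.P022K.G2

theorem hasse2 : HASSE 2 := hasse P022E.GW.hasseCC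

theorem one2 : ONE 2 := one P022E.GW.oneC (uch 2) (tam 2)

theorem shu2 : SHU 2 := shu fun _ _ _ j _ hB _ H => P022E.GW.Sha.adm0 j hB H

theorem sha2 : SHA 2 := sha 2 hasse2 (unr 2) fix

theorem rec2 : REC 2 := rec' 2 one2 unt_two (tam 2)

theorem sh12 : SH1 2 := sh1 2 shu2

theorem nil2 : NIL 2 := nil P022E.GW.H56.nil

theorem dimt2 : DIMT 2 := dimt nil2 (dim1 nil2 gys)

theorem chi02 : CHI0 2 := chi0 2 sha2 (gpc 2) (lpc 2)

theorem chi2 : CHI 2 := chi 2 chi02 (gpc 2) one2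

theorem lb2 : LB 2 := lb 2 chi2 (llb 2 chi02 (lpc 2) dimt2)

theorem twl2 : TWL 2 := twl 2 lb2 rec2 sh12 (tam 2)

end Vale.Agent.P022K.G2
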