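import Vale.Agent.P022K.G2.SpecG

/-!
# P022K, block G2: elementary lemmas on cochains
-/

set_option linter.all false

noncomputable section

namespace Vale.Agent.P022K.G2

open Module

variable {G : Type} [Group G] [TopologicalSpace G] {k : Type} [Field k] {N : Type}
  [AddCommGroup N] [Module k N] {I J : Set G} {Γ A U : Subgroup G} {ρ σ : G → End k N}

theorem Le.mono (h : Le I Γ U) (e : J ⊆ I) (a : A ≤ Γ) : Le J A U :=
  h.imp fun W hW => ⟨hW.1.mono e, fun w hw => hW.2 w (a hw)⟩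

theorem Le.up {V : Subgroup G} (h : Le I Γ U) (e : U ≤ V) : Le I Γ V :=
  h.imp fun W hW => ⟨hW.1, fun w hw m => e (hW.2 w hw m)⟩

theorem Le.inf {V : Subgroup G} (h : Le I Γ U) (h' : Le I Γ V) : Le I Γ (U ⊓ V) := by
  obtain ⟨W, hW, e⟩ := h
  obtain ⟨W', hW', e'⟩ := h'
  exact ⟨W ⊓ W', hW.inf hW', fun w hw m => ⟨e w hw m.1, e' w hw m.2⟩⟩

theorem Le.self (I : Set G) (Γ : Subgroup G) : Le I Γ Γ := ⟨⊤, Lv.top I, fun _ h _ => h⟩

theorem Le.trans {V : Subgroup G} (h : Le I Γ U) (h' : Le I U V) : Le I Γ V := by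
  obtain ⟨W, hW, e⟩ := h
  obtain ⟨W', hW', e'⟩ := h'
  exact ⟨W ⊓ W', hW.inf hW', fun w hw m => e' w (e w hw m.1) m.2⟩

theorem Le.relIndex (h : Le I Γ U) : U.relIndex Γ ≠ 0 := by
  obtain ⟨W, hW, e⟩ := h
  haveI := hW.fin
  intro h0
  have h1 : (W ⊓ Γ).relIndex Γ = 0 :=
    Subgroup.relIndex_eq_zero_of_le_left (K := U) (fun w m => e w m.2 m.1) h0
  rw [Subgroup.inf_relIndex_right] at h1
  exact Subgroup.FiniteIndex.index_ne_zero (H := W.subgroupOf Γ) h1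

omit [TopologicalSpace G] in
theorem Nz.mono (h : Nz Γ U) (a : A ≤ Γ) : Nz A U := fun g hg => h g (a hg)

omit [TopologicalSpace G] in
theorem Nz.conj' (h : Nz Γ U) {g u : G} (hg : g ∈ Γ) (hu : u ∈ U) : g⁻¹ * u * g ∈ U := by
  simpa using h g⁻¹ (inv_mem hg) u hu

omit [TopologicalSpace G] in
theorem Mu.mono {ω : G → k} (h : Mu Γ ω) (a : A ≤ Γ) : Mu A ω :=
  ⟨h.1, fun g hg j hj => h.2 g (a hg) j (a hj)⟩

omit [TopologicalSpace G] in
theorem Mu.inv {ω : G → k} (h : Mu Γ ω) {g : G} (hg : g ∈ Γ) : ω g * ω g⁻¹ = 1 := by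
  rw [← h.2 g hg _ (inv_mem hg), mul_inv_cancel, h.1]

omit [TopologicalSpace G] in
theorem Mu.ne {ω : G → k} (h : Mu Γ ω) {g : G} (hg : g ∈ Γ) : ω g ≠ 0 :=
  left_ne_zero_of_mul_eq_one (h.inv hg)

theorem Rp.mono (h : Rp I Γ ρ) (e : J ⊆ I) (a : A ≤ Γ) : Rp J A ρ :=
  ⟨h.one, fun g hg j hj => h.mul g (a hg) j (a hj),
    h.lv.imp fun W hW => ⟨hW.1.mono e, fun w hw => hW.2 w (a hw)⟩⟩

theorem Rp.mul' (h : Rp I Γ ρ) {g j : G} (hg : g ∈ Γ) (hj : j ∈ Γ) (n : N) :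
    ρ (g * j) n = ρ g (ρ j n) := by rw [h.mul g hg j hj]; rfl

theorem Rp.inv (h : Rp I Γ ρ) {g : G} (hg : g ∈ Γ) (n : N) : ρ g (ρ g⁻¹ n) = n := by
  rw [← h.mul' hg (inv_mem hg), mul_inv_cancel, h.one]; rfl

theorem Rp.inv' (h : Rp I Γ ρ) {g : G} (hg : g ∈ Γ) (n : N) : ρ g⁻¹ (ρ g n) = n := by
  rw [← h.mul' (inv_mem hg) hg, inv_mul_cancel, h.one]; rfl

theorem rp_tr (I : Set G) (Γ : Subgroup G) : Rp I Γ (tr G k) :=
  ⟨rfl, fun _ _ _ _ => (mul_one _).symm, ⊤, Lv.top I, fun _ _ _ => rfl⟩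

omit [Group G] [TopologicalSpace G] in
theorem tr_apply (g : G) (a : k) : tr G k g a = a := rfl

omit [Group G] [TopologicalSpace G] in
theorem ch_apply (θ : G → k) (g : G) (a : k) : ch θ g a = θ g * a := rfl

theorem Rp.mu {θ : G → k} (h : Rp I Γ (ch θ)) : Mu Γ θ :=
  ⟨by simpa [ch_apply] using LinearMap.congr_fun h.one 1, fun g hg j hj => by
    simpa [ch_apply] using h.mul' hg hj 1⟩

theorem rp_ch {θ : G → k} (h : Mu Γ θ) (l : ∃ W, Lv I W ∧ ∀ w ∈ Γ, w ∈ W → θ w = 1) :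
    Rp I Γ (ch θ) :=
  ⟨by rw [ch, h.1, one_smul], fun g hg j hj => by
    rw [ch, ch, ch, h.2 g hg j hj, smul_mul_smul_comm, mul_one],
    l.imp fun W hW => ⟨hW.1, fun w hw m => by rw [ch, hW.2 w hw m, one_smul]⟩⟩

theorem C1.mono {c : G → N} (h : c ∈ C1 k N I Γ) (e : J ⊆ I) (a : A ≤ Γ) : c ∈ C1 k N J A :=
  h.imp fun W hW => ⟨hW.1.mono e, fun g hg w hw => hW.2 g (a hg) w (a hw)⟩

theorem C2.mono {z : G → G → N} (h : z ∈ C2 k N I Γ) (e : J ⊆ I) (a : A ≤ Γ) :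
    z ∈ C2 k N J A :=
  h.imp fun W hW => ⟨hW.1.mono e, fun g hg j hj w hw => hW.2 g (a hg) j (a hj) w (a hw)⟩

theorem Z2.mono {z : G → G → N} (h : z ∈ Z2 I Γ ρ) (e : J ⊆ I) (a : A ≤ Γ) : z ∈ Z2 J A ρ :=
  ⟨fun g hg j hj l hl => h.1 g (a hg) j (a hj) l (a hl), C2.mono h.2 e a⟩

theorem B2.mono {z : G → G → N} (h : z ∈ B2 I Γ ρ) (e : J ⊆ I) (a : A ≤ Γ) : z ∈ B2 J A ρ := by
  obtain ⟨c, hc, h⟩ := h
  exact ⟨c, C1.mono hc e a, fun g hg j hj => h g (a hg) j (a hj)⟩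

omit [TopologicalSpace G] in
theorem B1.mono {c : G → N} (h : c ∈ B1 Γ ρ) (a : A ≤ Γ) : c ∈ B1 A ρ :=
  h.imp fun n hn g hg => hn g (a hg)

theorem Z1.mono {c : G → N} (h : c ∈ Z1 I Γ ρ) (e : J ⊆ I) : c ∈ Z1 J Γ ρ :=
  ⟨h.1, h.2.1, h.2.2.imp fun W hW => ⟨hW.1.mono e, hW.2⟩⟩

/-- restriction of a cocycle -/
theorem Z1.res {c : G → N} (h : c ∈ Z1 I Γ ρ) (e : J ⊆ I) (a : A ≤ Γ) :
    (A : Set G).indicator c ∈ Z1 J A ρ :=
  ⟨fun g hg j hj => by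
      rw [Set.indicator_of_mem (mul_mem hg hj), Set.indicator_of_mem hg, Set.indicator_of_mem hj,
        h.1 g (a hg) j (a hj)],
    fun g hg => Set.indicator_of_notMem hg _,
    h.2.2.imp fun W hW => ⟨hW.1.mono e, fun w hw m => by
      rw [Set.indicator_of_mem hw, hW.2 w (a hw) m]⟩⟩

theorem Z1.one {c : G → N} (h : c ∈ Z1 I Γ ρ) (r : ρ 1 = 1) : c 1 = 0 := by
  have := h.1 1 (one_mem _) 1 (one_mem _)
  rw [mul_one, r] at this
  simpa using this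

theorem Z1.c1 {c : G → N} (h : c ∈ Z1 I Γ ρ) : c ∈ C1 k N I Γ :=
  h.2.2.imp fun W hW => ⟨hW.1, fun g hg w hw m => by
    rw [h.1 g hg w hw, hW.2 w hw m, map_zero, add_zero]⟩

/-- a cochain whose differential vanishes is a cocycle -/
theorem z1_of {c : G → N} (r : ρ 1 = 1) (hc : c ∈ C1 k N I Γ)
    (h : ∀ g ∈ Γ, ∀ j ∈ Γ, d1 ρ c g j = 0) : (Γ : Set G).indicator c ∈ Z1 I Γ ρ := by
  have h1 : c 1 = 0 := by
    have := h 1 (one_mem _) 1 (one_mem _)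
    rw [d1_apply, mul_one, r] at this
    simpa using this
  refine ⟨fun g hg j hj => ?_, fun g hg => Set.indicator_of_notMem hg _,
    hc.imp fun W hW => ⟨hW.1, fun w hw m => ?_⟩⟩
  · rw [Set.indicator_of_mem (mul_mem hg hj), Set.indicator_of_mem hg, Set.indicator_of_mem hj]
    have := h g hg j hj
    rw [d1_apply] at this
    rw [← sub_eq_zero, ← neg_eq_zero, ← this]; abel
  · rw [Set.indicator_of_mem hw, ← one_mul w, hW.2 1 (one_mem _) w hw m, h1]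

theorem d0_mem (r : Rp I Γ ρ) (n : N) : (Γ : Set G).indicator (d0 ρ n) ∈ Z1 I Γ ρ :=
  ⟨fun g hg j hj => by
      rw [Set.indicator_of_mem (mul_mem hg hj), Set.indicator_of_mem hg, Set.indicator_of_mem hj,
        d0_apply, d0_apply, d0_apply, r.mul' hg hj, map_sub]; abel,
    fun g hg => Set.indicator_of_notMem hg _,
    r.lv.imp fun W hW => ⟨hW.1, fun w hw m => by
      rw [Set.indicator_of_mem hw, d0_apply, hW.2 w hw m]; exact sub_self _⟩⟩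

theorem d0_c1 (r : Rp I Γ ρ) (n : N) : d0 ρ n ∈ C1 k N I Γ :=
  r.lv.imp fun W hW => ⟨hW.1, fun g hg w hw m => by
    rw [d0_apply, d0_apply, r.mul' hg hw, hW.2 w hw m]; rfl⟩

theorem d1_d0 (r : Rp I Γ ρ) (n : N) {g j : G} (hg : g ∈ Γ) (hj : j ∈ Γ) :
    d1 ρ (d0 ρ n) g j = 0 := by
  rw [d1_apply, d0_apply, d0_apply, d0_apply, r.mul' hg hj, map_sub]; abel

/-- coboundaries are cocycles -/
theorem d1_mem (r : Rp I Γ ρ) {c : G → N} (hc : c ∈ C1 k N I Γ) : d1 ρ c ∈ Z2 I Γ ρ := by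
  refine ⟨fun g hg h hh j hj => ?_, ?_⟩
  · simp only [d1_apply, map_add, map_sub, r.mul' hg hh, mul_assoc]; abel
  · obtain ⟨W, hW, e⟩ := hc
    obtain ⟨V, hV, f⟩ := r.lv
    refine ⟨W ⊓ V, hW.inf hV, fun g hg h hh w hw m => ⟨?_, ?_⟩⟩
    · have e1 : g * w * h = g * h * (h⁻¹ * w * h) := by group
      rw [d1_apply, d1_apply, r.mul' hg hw, f w hw m.2, e g hg w hw m.1, e1,
        e _ (mul_mem hg hh) _ (mul_mem (mul_mem (inv_mem hh) hw) hh)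
          (by simpa using hW.nrm.conj_mem w m.1 h⁻¹)]
      rfl
    · rw [d1_apply, d1_apply, e h hh w hw m.1, ← mul_assoc, e _ (mul_mem hg hh) w hw m.1]

theorem Z2.congr {z z' : G → G → N} (h : z ∈ Z2 I Γ ρ) (e : ∀ g ∈ Γ, ∀ j ∈ Γ, z' g j = z g j)
    (r : ∀ g ∈ Γ, σ g = ρ g) : z' ∈ Z2 I Γ σ :=
  ⟨fun g hg j hj l hl => by
      rw [r g hg, e j hj l hl, e g hg _ (mul_mem hj hl), e _ (mul_mem hg hj) l hl, e g hg j hj,
        h.1 g hg j hj l hl],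
    h.2.imp fun W hW => ⟨hW.1, fun g hg j hj w hw m => by
      rw [e _ (mul_mem hg hw) j hj, e g hg _ (mul_mem hj hw), e g hg j hj]
      exact hW.2 g hg j hj w hw m⟩⟩

theorem B2.congr {z z' : G → G → N} (h : z ∈ B2 I Γ ρ) (e : ∀ g ∈ Γ, ∀ j ∈ Γ, z' g j = z g j)
    (r : ∀ g ∈ Γ, σ g = ρ g) : z' ∈ B2 I Γ σ := by
  obtain ⟨c, hc, h⟩ := h
  exact ⟨c, hc, fun g hg j hj => by rw [e g hg j hj, h g hg j hj, d1_apply, d1_apply, r g hg]⟩

theorem B2.z2 (r : Rp I Γ ρ) {z : G → G → N} (h : z ∈ B2 I Γ ρ) : z ∈ Z2 I Γ ρ := by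
  obtain ⟨c, hc, h⟩ := h
  exact Z2.congr (d1_mem r hc) h fun _ _ => rfl

theorem b2_of_zero {z : G → G → N} (h : ∀ g ∈ Γ, ∀ j ∈ Γ, z g j = 0) : z ∈ B2 I Γ ρ :=
  B2.congr (zero_mem _) h fun _ _ => rfl

theorem Z1_congr (r : ∀ g ∈ Γ, σ g = ρ g) : Z1 I Γ σ = Z1 I Γ ρ :=
  Submodule.ext fun c => and_congr_left' (forall₄_congr fun g hg j hj => by rw [r g hg])

omit [TopologicalSpace G] in
theorem Hm_congr {ω ω' : G → k} (r : ∀ g ∈ Γ, σ g = ρ g) (e : ∀ g ∈ Γ, ω' g = ω g) :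
    Hm Γ σ ω' = Hm Γ ρ ω :=
  Submodule.ext fun f => forall₂_congr fun g hg => by rw [r g hg, e g hg]

theorem Ch.mono {a : G → k} (h : Ch Γ a) (e : A ≤ Γ) : Ch A a :=
  ⟨fun g hg j hj => h.1 g (e hg) j (e hj), h.2.imp fun W hW => ⟨hW.1, fun w hw => hW.2 w (e hw)⟩⟩

theorem Ch.congr {a b : G → k} (h : Ch Γ a) (e : ∀ g ∈ Γ, b g = a g) : Ch Γ b :=
  ⟨fun g hg j hj => by rw [e _ (mul_mem hg hj), e g hg, e j hj, h.1 g hg j hj],
    h.2.imp fun W hW => ⟨hW.1, fun w hw m => by rw [e w hw, hW.2 w hw m]⟩⟩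

theorem Ch.one {a : G → k} (h : Ch Γ a) : a 1 = 0 := by
  have := h.1 1 (one_mem _) 1 (one_mem _)
  rw [mul_one] at this
  simpa using this

theorem Ch.inv {a : G → k} (h : Ch Γ a) {g : G} (hg : g ∈ Γ) : a g⁻¹ = -a g := by
  rw [eq_neg_iff_add_eq_zero, ← h.1 _ (inv_mem hg) g hg, inv_mul_cancel, h.one]

theorem Ch.pow {a : G → k} (h : Ch Γ a) {g : G} (hg : g ∈ Γ) (n : ℕ) : a (g ^ n) = n * a g := by
  induction n with
  | zero => rw [pow_zero, h.one]; simp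
  | succ n ih => rw [pow_succ, h.1 _ (pow_mem hg n) g hg, ih]; push_cast; ring

theorem Ch.add {a b : G → k} (h : Ch Γ a) (h' : Ch Γ b) : Ch Γ (a + b) := by
  obtain ⟨h1, W, hW, e⟩ := h
  obtain ⟨h2, V, hV, f⟩ := h'
  exact ⟨fun g hg j hj => by
      simp only [Pi.add_apply]; rw [h1 g hg j hj, h2 g hg j hj]; abel,
    W ⊓ V, hW.inf hV, fun w hw m => by rw [Pi.add_apply, e w hw m.1, f w hw m.2, add_zero]⟩

theorem Ch.smul {a : G → k} (h : Ch Γ a) (r : k) : Ch Γ (r • a) :=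
  ⟨fun g hg j hj => by simp only [Pi.smul_apply]; rw [h.1 g hg j hj, smul_add],
    h.2.imp fun W hW => ⟨hW.1, fun w hw m => by rw [Pi.smul_apply, hW.2 w hw m, smul_zero]⟩⟩

theorem Ch.neg {a : G → k} (h : Ch Γ a) : Ch Γ (-a) := by simpa using h.smul (-1)

theorem Ch.sub {a b : G → k} (h : Ch Γ a) (h' : Ch Γ b) : Ch Γ (a - b) := by
  rw [sub_eq_add_neg]; exact h.add h'.neg

/-- composition with an additive map -/
theorem Ch.map {k' : Type} [Field k'] {a : G → k} (h : Ch Γ a) (f : k →+ k') :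
    Ch Γ fun g => f (a g) :=
  ⟨fun g hg j hj => by beta_reduce; rw [h.1 g hg j hj, map_add],
    h.2.imp fun W hW => ⟨hW.1, fun w hw m => by beta_reduce; rw [hW.2 w hw m, map_zero]⟩⟩

theorem Z1.ch {a : G → k} (h : a ∈ Z1 I Γ (tr G k)) : Ch Γ a :=
  ⟨h.1, h.2.2.imp fun W hW => ⟨hW.1.mono (Set.empty_subset _), hW.2⟩⟩

theorem Ch.z1 {a : G → k} (h : Ch Γ a) : (Γ : Set G).indicator a ∈ Z1 ∅ Γ (tr G k) :=
  ⟨fun g hg j hj => by
      rw [Set.indicator_of_mem (mul_mem hg hj), Set.indicator_of_mem hg, Set.indicator_of_mem hj,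
        h.1 g hg j hj]; rfl,
    fun g hg => Set.indicator_of_notMem hg _,
    h.2.imp fun W hW => ⟨hW.1, fun w hw m => by rw [Set.indicator_of_mem hw, hW.2 w hw m]⟩⟩

theorem Ch.c1 {a : G → k} (h : Ch Γ a) : a ∈ C1 k k ∅ Γ :=
  h.2.imp fun W hW => ⟨hW.1, fun g hg w hw m => by rw [h.1 g hg w hw, hW.2 w hw m, add_zero]⟩

/-- the kernel of a character -/
def Ch.ker {a : G → k} (h : Ch Γ a) : Subgroup G where
  carrier := {g | g ∈ Γ ∧ a g = 0}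
  mul_mem' hg hj := ⟨mul_mem hg.1 hj.1, by rw [h.1 _ hg.1 _ hj.1, hg.2, hj.2, add_zero]⟩
  one_mem' := ⟨one_mem _, h.one⟩
  inv_mem' hg := ⟨inv_mem hg.1, by rw [h.inv hg.1, hg.2, neg_zero]⟩

theorem Ch.mem_ker {a : G → k} (h : Ch Γ a) {g : G} : g ∈ h.ker ↔ g ∈ Γ ∧ a g = 0 := Iff.rfl

theorem Ch.le_ker {a : G → k} (h : Ch Γ a) : Le ∅ Γ h.ker :=
  h.2.imp fun W hW => ⟨hW.1, fun w hw m => ⟨hw, hW.2 w hw m⟩⟩

theorem cup_z2 {a b : G → k} (ha : Ch Γ a) (hb : Ch Γ b) : cup a b ∈ Z2 ∅ Γ (tr G k) := by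
  refine ⟨fun g hg h hh j hj => ?_, ?_⟩
  · simp only [cup, tr_apply]; rw [ha.1 g hg h hh, hb.1 h hh j hj]; ring
  · obtain ⟨W, hW, e⟩ := ha.c1
    obtain ⟨V, hV, f⟩ := hb.c1
    exact ⟨W ⊓ V, hW.inf hV, fun g hg h hh w hw m => by
      simp only [cup]; rw [e g hg w hw m.1, f h hh w hw m.2]; exact ⟨rfl, rfl⟩⟩

/-- the cup product is skew symmetric -/
theorem cup_skew {a b : G → k} (ha : Ch Γ a) (hb : Ch Γ b) :
    cup a b + cup b a ∈ B2 ∅ Γ (tr G k) := by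
  refine ⟨fun g => -(a g * b g), ?_, fun g hg h hh => ?_⟩
  · obtain ⟨W, hW, e⟩ := ha.c1
    obtain ⟨V, hV, f⟩ := hb.c1
    exact ⟨W ⊓ V, hW.inf hV, fun g hg w hw m => by
      beta_reduce; rw [e g hg w hw m.1, f g hg w hw m.2]⟩
  · simp only [Pi.add_apply, cup, d1_apply, tr_apply]
    rw [ha.1 g hg h hh, hb.1 g hg h hh]; ring

omit [TopologicalSpace G] in
theorem Dv_le {Ω ι : Type} [MulAction G Ω] (Γ : Subgroup G) (x : ι → Ω) (i : ι) :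
    Dv Γ x i ≤ Γ := inf_le_left

/-! ### dimensions of subquotients -/

section rq

variable {X : Type} [AddCommGroup X] [Module k X]

theorem rq_mono {Z Z' B : Submodule k X} (h : Z ≤ Z') : rq Z B ≤ rq Z' B :=
  Submodule.rank_mono (Submodule.map_mono h)

theorem rq_eq_zero {Z B : Submodule k X} : rq Z B = 0 ↔ Z ≤ B := by
  rw [rq, Submodule.rank_eq_zero, ← le_bot_iff, Submodule.map_le_iff_le_comap,
    Submodule.comap_bot, Submodule.ker_mkQ]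

/-- rank and nullity -/
theorem rq_add (Z B : Submodule k X) : rq Z B + rk (Z ⊓ B) = rk Z := by
  have h := LinearMap.rank_range_add_rank_ker (B.mkQ ∘ₗ Z.subtype)
  rw [LinearMap.range_comp, Submodule.range_subtype, LinearMap.ker_comp, Submodule.ker_mkQ] at h
  refine Eq.trans ?_ h
  rw [rq]
  congr 1
  have e : B.comap Z.subtype = (Z ⊓ B).comap Z.subtype := by
    rw [Submodule.comap_inf, Submodule.comap_subtype_self, top_inf_eq]
  rw [e]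
  exact (Submodule.comapSubtypeEquivOfLe inf_le_left).rank_eq.symm

/-- a linear map which is injective on classes -/
theorem rq_le {Y : Type} [AddCommGroup Y] [Module k Y] {Z B : Submodule k X}
    {Z' B' : Submodule k Y} (f : X →ₗ[k] Y) (h1 : ∀ z ∈ Z, f z ∈ Z')
    (h2 : ∀ z ∈ Z, f z ∈ B' → z ∈ B) : rq Z B ≤ rq Z' B' := by
  let a : Z →ₗ[k] X ⧸ B := B.mkQ ∘ₗ Z.subtype
  let b : Z →ₗ[k] Y ⧸ B' := B'.mkQ ∘ₗ f ∘ₗ Z.subtype
  have hk : LinearMap.ker b ≤ LinearMap.ker a := fun z hz =>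
    (Submodule.Quotient.mk_eq_zero _).2 (h2 z z.2 ((Submodule.Quotient.mk_eq_zero _).1 hz))
  have e1 : rq Z B = Module.rank k (LinearMap.range a) := by
    rw [LinearMap.range_comp, Submodule.range_subtype]; rfl
  have e2 : LinearMap.range b ≤ Z'.map B'.mkQ := by
    rintro _ ⟨z, rfl⟩
    exact ⟨f z, h1 z z.2, rfl⟩
  rw [e1, ← a.quotKerEquivRange.rank_eq]
  refine le_trans ?_ (Submodule.rank_mono e2)
  rw [← b.quotKerEquivRange.rank_eq]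
  exact (Submodule.factor hk).rank_le_of_surjective (Submodule.factor_surjective hk)

end rq

end Vale.Agent.P022K.G2
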