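import Vale.Agent.P022K.G2.SpecA
import Vale.Agent.P022K.G2.Bas

/-!
# P022K, block G2: the dictionary with the locally constant cochains of the library
-/

set_option linter.all false

noncomputable section

namespace Vale.Agent.P022K.G2

open NumberField Module IsDedekindDomain
open Vale.Agent.P022 Vale.Agent.P022.C
open Vale.Agent.P027M.S (Inert)
open Vale.Agent.P022D.W (dec)
open Vale.Agent.P022D.Sel (IsDec)
open Vale.Agent.P022E.GW (Ov Fb Bg Cb)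
open scoped Pointwise

theorem cpt : CompactSpace GQ := by
  have := H443.galQb
  infer_instance

/-- an open normal subgroup is a level -/
theorem lv_of {W : Subgroup GQ} (n : W.Normal) (o : IsOpen (W : Set GQ)) : Lv ∅ W :=
  haveI := cpt
  haveI : Finite (GQ ⧸ W) := W.quotient_finite_of_isOpen o
  ⟨n, o, Subgroup.finiteIndex_of_finite_quotient, Set.empty_subset _⟩

/-- an open normal subgroup which contains `I` is a level -/
theorem lv_of' {I : Set GQ} {W : Subgroup GQ} (n : W.Normal) (o : IsOpen (W : Set GQ))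
    (s : I ⊆ W) : Lv I W := ⟨n, o, (lv_of n o).fin, s⟩

/-- every neighbourhood of the unit contains a level -/
theorem ex_lv {O : Set GQ} (o : IsOpen O) (h : (1 : GQ) ∈ O) :
    ∃ W : Subgroup GQ, Lv ∅ W ∧ (W : Set GQ) ⊆ O := by
  have := H443.galQb
  obtain ⟨W, hW⟩ := ProfiniteGrp.exist_openNormalSubgroup_sub_open_nhds_of_one o h
  exact ⟨W.toSubgroup, lv_of W.isNormal' W.isOpen', hW⟩

theorem le_of_open {U : Subgroup GQ} (o : IsOpen (U : Set GQ)) (Γ : Subgroup GQ) : Le ∅ Γ U :=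
  (ex_lv o U.one_mem).imp fun _ h => ⟨h.1, fun _ _ m => h.2 m⟩

theorem Le.isOpen {I : Set GQ} {Γ U : Subgroup GQ} (h : Le I Γ U) (o : IsOpen (Γ : Set GQ)) :
    IsOpen (U : Set GQ) := by
  obtain ⟨W, hW, e⟩ := h
  exact Subgroup.isOpen_mono (H₁ := Γ ⊓ W) (fun w m => e w m.1 m.2) (o.inter hW.opn)

theorem fin_of_open {U : Subgroup GQ} (o : IsOpen (U : Set GQ)) : U.FiniteIndex :=
  haveI := cpt
  haveI : Finite (GQ ⧸ U) := U.quotient_finite_of_isOpen o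
  Subgroup.finiteIndex_of_finite_quotient

theorem closed_of_right {S : Set GQ} {N : Subgroup GQ} (o : IsOpen (N : Set GQ))
    (h : ∀ g ∈ S, ∀ n ∈ N, g * n ∈ S) : IsClosed S := by
  refine ⟨isOpen_iff_mem_nhds.2 fun g hg => ?_⟩
  have : (fun x => g⁻¹ * x) ⁻¹' (N : Set GQ) ∈ nhds g :=
    (o.preimage (by fun_prop)).mem_nhds (by simp)
  refine Filter.mem_of_superset this fun x hx m => hg ?_
  simpa using h x m _ (N.inv_mem hx)

theorem dec_closed (P : Ideal (𝓞 Qb)) : IsClosed (dec P : Set GQ) := by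
  have := H443.galQb
  have e : (dec P : Set GQ) = ⋂ x : 𝓞 Qb, {g : GQ | g • x ∈ P ↔ x ∈ P} := by
    ext g
    rw [Set.mem_iInter]
    rfl
  rw [e]
  refine isClosed_iInter fun x => ?_
  have h1 : IsOpen ((MulAction.stabilizer GQ (x : Qb) : Subgroup GQ) : Set GQ) :=
    stabilizer_isOpen_of_isIntegral (x : Qb)
  refine closed_of_right h1 fun z hz n hn => ?_
  have hn' : n • x = x := RingOfIntegers.ext (MulAction.mem_stabilizer_iff.1 hn)
  change (z * n) • x ∈ P ↔ x ∈ P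
  rw [mul_smul, hn']
  exact hz

theorem st_ip_finite (w : InfinitePlace Qb) : Finite (St (ip w)) := by
  have := H443.galQb
  rw [st_ip]
  refine Nat.finite_of_card_ne_zero ?_
  rcases InfinitePlace.nat_card_stabilizer_eq_one_or_two ℚ w with e | e <;>
    exact e.trans_ne (by decide)

theorem st_closed (x : Plc) : IsClosed (St x : Set GQ) := by
  have := H443.galQb
  rcases x with P | w
  · rw [show (Sum.inl P : Plc) = fp P from rfl, st_fp]; exact dec_closed P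
  · have := st_ip_finite w
    exact (Set.toFinite (St (ip w) : Set GQ)).isClosed

theorem inf_closed {H : Subgroup GQ} (o : IsOpen (H : Set GQ)) (x : Plc) :
    IsClosed ((H ⊓ St x : Subgroup GQ) : Set GQ) :=
  (H.isClosed_of_isOpen o).inter (st_closed x)

theorem inf_dec_closed {H : Subgroup GQ} (o : IsOpen (H : Set GQ)) (P : Ideal (𝓞 Qb)) :
    IsClosed ((H ⊓ dec P : Subgroup GQ) : Set GQ) :=
  (H.isClosed_of_isOpen o).inter (dec_closed P)

section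

variable {F : Type} [Field F] {N : Type} [AddCommGroup N] [Module F N] {H : Subgroup GQ}

theorem C1.lc {I : Set GQ} {c : GQ → N} (h : c ∈ C1 F N I H) :
    IsLocallyConstant fun x : H => c x := by
  obtain ⟨W, hW, e⟩ := h
  refine (IsLocallyConstant.iff_eventually_eq _).2 fun x => ?_
  have : (fun y : H => (x : GQ)⁻¹ * y) ⁻¹' (W : Set GQ) ∈ nhds x :=
    (hW.opn.preimage (by fun_prop)).mem_nhds (by simp)
  filter_upwards [this] with y hy
  have := e x x.2 _ (H.mul_mem (H.inv_mem x.2) y.2) hy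
  rwa [mul_inv_cancel_left] at this

theorem C2.lc {I : Set GQ} {z : GQ → GQ → N} (h : z ∈ C2 F N I H) :
    IsLocallyConstant fun x : H × H => z x.1 x.2 := by
  obtain ⟨W, hW, e⟩ := h
  refine (IsLocallyConstant.iff_eventually_eq _).2 fun x => ?_
  have h1 : (fun y : H × H => (x.1 : GQ)⁻¹ * y.1) ⁻¹' (W : Set GQ) ∈ nhds x :=
    (hW.opn.preimage (by fun_prop)).mem_nhds (by simp)
  have h2 : (fun y : H × H => (x.2 : GQ)⁻¹ * y.2) ⁻¹' (W : Set GQ) ∈ nhds x :=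
    (hW.opn.preimage (by fun_prop)).mem_nhds (by simp)
  filter_upwards [h1, h2] with y a b
  have e1 := (e x.1 x.1.2 y.2 y.2.2 _ (H.mul_mem (H.inv_mem x.1.2) y.1.2) a).1
  have e2 := (e x.1 x.1.2 x.2 x.2.2 _ (H.mul_mem (H.inv_mem x.2.2) y.2.2) b).2
  rw [mul_inv_cancel_left] at e1 e2
  exact e1.trans e2

theorem c2_of_lc (hH : IsClosed (H : Set GQ)) {z : GQ → GQ → N}
    (hf : IsLocallyConstant fun x : H × H => z x.1 x.2) : z ∈ C2 F N ∅ H := by
  have := cpt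
  haveI : CompactSpace H := isCompact_iff_compactSpace.1 hH.isCompact
  have h1 : ∀ᶠ v : H in nhds 1, ∀ p ∈ (Set.univ : Set (H × H)),
      z (p.1 * v : H) p.2 = z p.1 p.2 ∧ z p.1 (p.2 * v : H) = z p.1 p.2 := by
    refine isCompact_univ.eventually_forall_of_forall_eventually fun p _ => ?_
    have a0 : IsLocallyConstant fun y : H × H × H => z y.2.1 y.2.2 :=
      hf.comp_continuous (f := fun y : H × H × H => (y.2.1, y.2.2)) (by fun_prop)
    have a1 : IsLocallyConstant fun y : H × H × H => z (y.2.1 * y.1 : H) y.2.2 :=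
      hf.comp_continuous (f := fun y : H × H × H => (y.2.1 * y.1, y.2.2)) (by fun_prop)
    have a2 : IsLocallyConstant fun y : H × H × H => z y.2.1 (y.2.2 * y.1 : H) :=
      hf.comp_continuous (f := fun y : H × H × H => (y.2.1, y.2.2 * y.1)) (by fun_prop)
    filter_upwards [a0.eventually_eq (1, p), a1.eventually_eq (1, p), a2.eventually_eq (1, p)]
      with z b0 b1 b2
    simp only [mul_one] at b1 b2
    exact ⟨b1.trans b0.symm, b2.trans b0.symm⟩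
  obtain ⟨S, hS, hsub⟩ := (mem_nhds_subtype _ _ _).1 h1
  obtain ⟨O, hO, ho, h1O⟩ := mem_nhds_iff.1 hS
  obtain ⟨W, hW, e⟩ := ex_lv ho h1O
  exact ⟨W, hW, fun g hg h hh w hw m =>
    hsub (show (⟨w, hw⟩ : H).1 ∈ S from hO (e m)) (⟨g, hg⟩, ⟨h, hh⟩) trivial⟩

theorem c1_of_lc (hH : IsClosed (H : Set GQ)) {c : GQ → N}
    (hf : IsLocallyConstant fun x : H => c x) : c ∈ C1 F N ∅ H := by
  obtain ⟨W, hW, e⟩ := c2_of_lc (F := F) hH (z := fun g _ => c g)
    (hf.comp_continuous (f := fun y : H × H => y.1) (by fun_prop))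
  exact ⟨W, hW, fun g hg w hw m => (e g hg 1 H.one_mem w hw m).1⟩

theorem B2.cb {I : Set GQ} {z : GQ → GQ → F} (h : z ∈ B2 I H (tr GQ F)) : Cb H z := by
  obtain ⟨c, hc, e⟩ := h
  refine ⟨fun x => -c x, (C1.lc hc).neg, fun x y => ?_⟩
  have := e x x.2 y y.2
  rw [d1_apply, tr_apply] at this
  show -c (x * y) = -c x + -c y + z x y
  rw [this]; ring

theorem cb_iff (hH : IsClosed (H : Set GQ)) {z : GQ → GQ → F} :
    Cb H z ↔ z ∈ B2 ∅ H (tr GQ F) := by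
  classical
  refine ⟨fun ⟨c, hc, e⟩ => ⟨fun g => if h : g ∈ H then -c ⟨g, h⟩ else 0,
    c1_of_lc hH (by
      rw [show (fun x : H => if h : (x : GQ) ∈ H then -c ⟨x, h⟩ else 0) = -c from
        funext fun x => dif_pos x.2]
      exact hc.neg), fun g hg h hh => ?_⟩, B2.cb⟩
  rw [d1_apply, tr_apply]
  simp only [dif_pos hg, dif_pos hh, dif_pos (H.mul_mem hg hh)]
  have : c ⟨g * h, H.mul_mem hg hh⟩ = c ⟨g, hg⟩ + c ⟨h, hh⟩ + z g h := e ⟨g, hg⟩ ⟨h, hh⟩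
  rw [this]; ring

theorem Z2.lib {I : Set GQ} {z : GQ → GQ → F} (h : z ∈ Z2 I H (tr GQ F)) : P022E.GW.Z2 H z :=
  ⟨C2.lc h.2, fun g j k => h.1 g g.2 j j.2 k k.2⟩

theorem z2_iff (hH : IsClosed (H : Set GQ)) {z : GQ → GQ → F} :
    P022E.GW.Z2 H z ↔ z ∈ Z2 ∅ H (tr GQ F) :=
  ⟨fun h => ⟨fun g hg j hj k hk => h.2 ⟨g, hg⟩ ⟨j, hj⟩ ⟨k, hk⟩, c2_of_lc hH h.1⟩, Z2.lib⟩

theorem Ch.lib {a : GQ → F} (h : Ch H a) : P022E.GW.Ch H a :=
  ⟨C1.lc h.c1, fun x y => h.1 x x.2 y y.2⟩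

theorem ch_iff (hH : IsClosed (H : Set GQ)) {a : GQ → F} : P022E.GW.Ch H a ↔ Ch H a := by
  refine ⟨fun h => ?_, Ch.lib⟩
  have m : ∀ g ∈ H, ∀ j ∈ H, a (g * j) = a g + a j := fun g hg j hj => h.2 ⟨g, hg⟩ ⟨j, hj⟩
  obtain ⟨W, hW, e⟩ := c1_of_lc (F := F) hH h.1
  refine ⟨m, W, hW, fun w hw k => ?_⟩
  have e1 := e 1 H.one_mem w hw k
  have e2 := m 1 H.one_mem w hw
  rw [e1] at e2
  exact left_eq_add.1 e2

theorem cup_lib (a b : GQ → F) : P022D.L2c.cup a b = cup a b := rfl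

end

/-! ### the prime two -/

theorem om0_two (g : GQ) : om0 2 g = 1 := Subsingleton.elim _ _

theorem oz_two (g : GQ) : oz 2 g = 1 := by rw [oz, om0_two]; rfl

theorem gz_two : Gz 2 = ⊤ := eq_top_iff.2 fun g _ => om0_two g

theorem le_gz_two (A : Subgroup GQ) : A ≤ Gz 2 := gz_two ▸ le_top

theorem om_two (k : Type) [Field k] [CharP k 2] (g : GQ) : om 2 k g = 1 := by
  rw [om, oz_two, map_one]

theorem om_two' (k : Type) [Field k] [CharP k 2] : om 2 k = fun _ => 1 := funext (om_two k)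

theorem ch_om_two (k : Type) [Field k] [CharP k 2] : ch (om 2 k) = tr GQ k :=
  funext fun g => by rw [ch, om_two, one_smul]; rfl

theorem zt_two : zt 2 = -1 := (zt_prim 2).eq_neg_one_of_two_right

/-! ### decomposition groups -/

theorem st_conj {c : GQ} {φ : Qb →+* ℂ} (h : ∀ x, φ (c x) = starRingEnd ℂ (φ x)) :
    (St (ip (InfinitePlace.mk φ)) : Set GQ) = {1, c} := by
  have := H443.galQb
  have hc : ComplexEmbedding.IsConj φ c := RingHom.ext fun x => (h x).symm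
  rw [st_ip]
  exact hc.coe_stabilizer_mk

theorem ex_conj (φ : Qb →+* ℂ) : ∃ c : GQ, ∀ x, φ (c x) = starRingEnd ℂ (φ x) := by
  have := H443.galQb
  obtain ⟨g, hg⟩ := ComplexEmbedding.exists_comp_symm_eq_of_comp_eq (k := ℚ) φ
    (ComplexEmbedding.conjugate φ) (Subsingleton.elim _ _)
  exact ⟨g.symm, fun x => RingHom.congr_fun hg x⟩

theorem mem_ab_fp {T : Set ℕ} {P : Ideal (𝓞 Qb)} : fp P ∈ Ab T ↔ ∃ l ∈ T, Ov l P :=
  ⟨fun h => h.elim (fun ⟨l, a, _, b, e⟩ => ⟨l, a, Sum.inl.inj e ▸ b⟩)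
    fun ⟨_, _, e⟩ => absurd e Sum.inl_ne_inr, fun ⟨l, a, b⟩ => Or.inl ⟨l, a, P, b, rfl⟩⟩

theorem mem_ab_ip {T : Set ℕ} {w : InfinitePlace Qb} : ip w ∈ Ab T ↔ 0 ∈ T :=
  ⟨fun h => h.elim (fun ⟨_, _, _, _, e⟩ => absurd e Sum.inr_ne_inl) fun h => h.1,
    fun h => Or.inr ⟨h, w, rfl⟩⟩

theorem isDec_fp {l : ℕ} {P : Ideal (𝓞 Qb)} (h : Ov l P) : IsDec l (dec P : Set GQ) :=
  Or.inr ⟨h.1, P, h.2.1, h.2.2, rfl⟩

theorem isDec_ip (w : InfinitePlace Qb) : IsDec 0 (St (ip w) : Set GQ) := by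
  obtain ⟨c, hc⟩ := ex_conj w.embedding
  exact Or.inl ⟨rfl, c, ⟨_, hc⟩, by rw [← st_conj hc, InfinitePlace.mk_embedding]⟩

theorem isDec_iff {l : ℕ} {D : Set GQ} : IsDec l D ↔ ∃ x ∈ Ab {l}, D = St x := by
  constructor
  · rintro (⟨rfl, c, ⟨φ, hc⟩, rfl⟩ | ⟨hl, P, h1, h2, rfl⟩)
    · exact ⟨_, mem_ab_ip.2 rfl, (st_conj hc).symm⟩
    · exact ⟨fp P, mem_ab_fp.2 ⟨l, rfl, hl, h1, h2⟩, by rw [st_fp]; rfl⟩
  · rintro ⟨x, ⟨l', rfl, P, h, rfl⟩ | ⟨h, w, rfl⟩, rfl⟩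
    · rw [st_fp]; exact isDec_fp h
    · obtain rfl : 0 = l := h
      exact isDec_ip w

theorem Ab_mono {T T' : Set ℕ} (h : T ⊆ T') : Ab T ⊆ Ab T' := fun _ hx =>
  hx.imp (fun ⟨l, a, b⟩ => ⟨l, h a, b⟩) fun a => ⟨h a.1, a.2⟩

theorem In_anti {T T' : Set ℕ} (h : T ⊆ T') : In T' ⊆ In T := fun _ ⟨l, a, b⟩ =>
  ⟨l, fun m => a (h m), b⟩

end Vale.Agent.P022K.G2
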