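import Vale.Agent.P022K.G2.App
import Vale.Agent.P022K.G2.Hb
import Vale.Agent.P022K.G2.Tr2
import Vale.Agent.P022K.G2.Gpc
import Vale.Agent.P022K.GW.Two
import Vale.Agent.P022E.Gp.All

/-!
# P022K, block G2: rows `OKA`, `KIL` and the outputs `TWO2`, `OBO2`
-/

set_option linter.all false

noncomputable section

namespace Vale.Agent.P022K.G2

open NumberField Module
open Vale.Agent.P022 Vale.Agent.P022.C Vale.Agent.P022.H853
open Vale.Agent.P027M.S (Inert)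
open Vale.Agent.P022D.W (dec)
open Vale.Agent.P022E.GW (Ov Fb)
open Vale.Agent.P022K.GW (Id ov orb ad0 sl Tw)
open Vale.Agent.P022K.RT (ad)
open scoped Pointwise

namespace Tw2

/-- all the sets which contain a given set are large -/
theorem lg' (p : ℕ) [Fact p.Prime] (Γ U H : Subgroup GQ) (le : U ≤ Γ) (uz : U ≤ Gz p)
    (nz : Nz Γ U) (oU : IsOpen (U : Set GQ)) (oH : IsOpen (H : Set GQ)) :
    ∃ T₁ : Finset ℕ, (∀ l ∈ T₁, l = 0 ∨ l.Prime) ∧ ∀ T : Finset ℕ, T₁ ⊆ T →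
      (∀ l ∈ T, l = 0 ∨ l.Prime) → Lg p T Γ U ∧ Bg H T := by
  classical
  have oW := GW.Pl.core_open oU
  have lW := U.normalCore_le
  obtain ⟨R, R1, R2⟩ := P022E.GW.Hy.ex_ram oW
  obtain ⟨A, A1, A2⟩ := P022E.GW.Hy.ex_bg oU
  obtain ⟨B, B1, B2⟩ := P022E.GW.Hy.ex_bg oH
  choose l φ l1 l2 l3 l4 using fun q : GQ ⧸ U.normalCore =>
    Cheb.cheb U.normalCore inferInstance oW q.out (insert p R)
  have := fin_of_open oW
  have := Fintype.ofFinite (GQ ⧸ U.normalCore)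
  refine ⟨{0, p} ∪ (R ∪ (A ∪ (B ∪ Finset.univ.image l))), fun a ha => ?_, fun T hT hp =>
    ⟨⟨hT (by simp), hT (by simp), le, uz, nz, ⟨_, lv_of' inferInstance oW ?_, fun w _ m =>
      lW m⟩, ⟨A2 _ fun a ha => hT (by simp [ha]), hp⟩, fun g hg => ?_⟩,
      B2 _ fun a ha => hT (by simp [ha]), hp⟩⟩
  · simp only [Finset.mem_union, Finset.mem_insert, Finset.mem_singleton, Finset.mem_image] at ha
    rcases ha with (e | rfl) | e | e | e | ⟨q, -, rfl⟩
    exacts [.inl e, .inr Fact.out, .inr (R1 a e), .inr (A1 a e), .inr (B1 a e), .inr (l1 q)]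
  · rintro i ⟨a, ha, P, o, hi⟩
    exact R2 a (fun m => ha (hT (by simp [m]))) P o i hi
  · obtain ⟨P, p1, p2, p3⟩ := l3 g
    have o : Ov (l g) P := ⟨l1 g, p1, p2⟩
    have hi : ∀ i, Inert P i → i ∈ U := fun i hi =>
      lW (R2 _ (fun m => l2 g (Finset.mem_insert_of_mem m)) P o i hi)
    have m : g⁻¹ * φ g ∈ U := by
      have := mul_mem (QuotientGroup.eq.1 (QuotientGroup.out_eq' (g : GQ ⧸ U.normalCore)).symm)
        (l4 g)
      exact lW (by simpa [mul_assoc] using this)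
    refine ⟨l g, hT (by simp), P, φ g, ⟨o, fun e => l2 g (e ▸ Finset.mem_insert_self _ _), p3,
      fun d hd => ?_⟩, hi, m⟩
    obtain ⟨n, s, u, hs, hu, rfl⟩ := P022D.W.dec_gen o.1 p1 p2 p3 hd U oU
    exact mul_mem (mul_mem (le hu) (pow_mem (by simpa using mul_mem hg (le m)) n)) (le (hi s hs))

section

variable {G k V : Type} [Group G] [Field k] [AddCommGroup V] [Module k V] {ι : G →* GQ}
  {ρ : G →* GL (Fin 2) k}

theorem ex_tri {σ : Representation k G V} (h : Function.Injective ι) {K : Subgroup G}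
    (t : ∀ g ∈ K, σ g = 1) : ∀ u ∈ K.map ι, ex ι σ u = 1 := by
  rintro _ ⟨g, hg, rfl⟩
  rw [ex_ap ι σ h, t g hg]

theorem rp_ex {σ : Representation k G V} (h : Function.Injective ι) {K : Subgroup G}
    (t : ∀ g ∈ K, σ g = 1) {I : Set GQ} (l : Le I ⊤ (K.map ι)) : Rp I ι.range (ex ι σ) :=
  ⟨by rw [← map_one ι, ex_ap ι σ h, map_one], by
    rintro _ ⟨g, rfl⟩ _ ⟨j, rfl⟩
    rw [← map_mul, ex_ap ι σ h, ex_ap ι σ h, ex_ap ι σ h, map_mul],
    l.imp fun W hW => ⟨hW.1, fun w _ m => ex_tri h t w (hW.2 w trivial m)⟩⟩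

theorem ad_ap (g : G) (m : Matrix (Fin 2) (Fin 2) k) : ad ρ g m = (ρ g).1 * m * (ρ g⁻¹).1 := rfl

theorem ad_congr {g g' : G} (h : ρ g = ρ g') : ad ρ g = ad ρ g' :=
  LinearMap.ext fun m => by rw [ad_ap, ad_ap, map_inv, map_inv, h]

theorem ad_one {g : G} (h : ρ g = 1) : ad ρ g = 1 :=
  (ad_congr (h.trans (map_one ρ).symm)).trans (map_one _)

theorem ad_sc (g : G) (c : k) : ad ρ g (c • 1) = c • (1 : Matrix (Fin 2) (Fin 2) k) := by
  rw [map_smul, ad_ap, mul_one, map_inv, Units.mul_inv]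

theorem ad_tr (g : G) (m : Matrix (Fin 2) (Fin 2) k) : (ad ρ g m).trace = m.trace := by
  rw [ad_ap, map_inv]; exact Matrix.trace_units_conj _ _

theorem ad_mul (g : G) (m : Matrix (Fin 2) (Fin 2) k) : ad ρ g m * (ρ g).1 = (ρ g).1 * m := by
  rw [ad_ap, map_inv, mul_assoc, Units.inv_mul, mul_one]

theorem ad_tr2 (g : G) (m n : Matrix (Fin 2) (Fin 2) k) :
    (ad ρ g m * ad ρ g n).trace = (m * n).trace := by
  rw [← ad_tr (ρ := ρ) g (m * n), ad_ap g n, ← mul_assoc, ← mul_assoc, ad_mul, ad_ap,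
    mul_assoc _ m n]

theorem nz_ker (K : Subgroup G) [n : K.Normal] : Nz ι.range (K.map ι) := by
  rintro _ ⟨g, rfl⟩ _ ⟨u, hu, rfl⟩
  exact ⟨_, n.conj_mem u hu g, by rw [map_mul, map_mul, map_inv]⟩

theorem rg_iff [CharP k 2] {m : GL (Fin 2) k} : GW.Rg m ↔ m.1.trace ≠ 0 := by
  have : (4 : k) = 0 := by linear_combination 2 * CharTwo.two_eq_zero (R := k)
  rw [GW.Rg, this, zero_mul]
  exact pow_ne_zero_iff two_ne_zero

/-- the centraliser of a regular element -/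
theorem rk_cen [CharP k 2] {g : G} (h : (ρ g).1.trace ≠ 0) :
    rk (LinearMap.ker (ad ρ g - 1)) ≤ 2 := by
  let t : LinearMap.ker (ad ρ g - 1) →ₗ[k] k × k :=
    ((Matrix.entryLinearMap k k 0 0).prod (Matrix.traceLinearMap (Fin 2) k k)).comp
      (Submodule.subtype _)
  refine (LinearMap.rank_le_of_injective t ?_).trans (by rw [rank_prod', Module.rank_self]; norm_num)
  rw [injective_iff_map_eq_zero]
  rintro ⟨x, h1⟩ h3
  have h0 : x 0 0 = 0 := congrArg Prod.fst h3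
  have h2 : x.trace = 0 := congrArg Prod.snd h3
  have h4 : (ρ g).1 * x = x * (ρ g).1 := by
    rw [← ad_mul, show ad ρ g x = x from sub_eq_zero.1 h1]
  generalize (ρ g).1 = m at h h4
  have c1 := congrFun (congrFun h4 0) 1
  have c2 := congrFun (congrFun h4 1) 0
  have two := CharTwo.two_eq_zero (R := k)
  simp only [Matrix.mul_apply, Fin.sum_univ_two, Matrix.trace_fin_two] at h h2 c1 c2
  have e : x 1 1 = 0 := by linear_combination h2 - h0
  have x1 : x 0 1 = 0 := mul_left_cancel₀ h (by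
    linear_combination c1 + m 0 1 * h0 - m 0 1 * e + m 1 1 * x 0 1 * two)
  have x2 : x 1 0 = 0 := mul_left_cancel₀ h (by
    linear_combination c2 - m 1 0 * h0 + m 1 0 * e + m 0 0 * x 1 0 * two)
  refine Subtype.ext ?_
  ext i j
  fin_cases i <;> fin_cases j <;> simp [h0, x1, x2, e]

/-- a subgroup of index a power of two has the same image -/
theorem onto [CharP k 2] (b : P022E.Gp.Big ρ.range) {Z : Subgroup G} (n : Z.Normal) {m : ℕ}
    (h : ∀ g : G, g ^ 2 ^ m ∈ Z) (g : G) : ∃ z ∈ Z, ρ z = ρ g := by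
  classical
  haveI := b.sl.fin
  let M := Z.map ρ.rangeRestrict
  haveI : M.Normal := n.map _ ρ.rangeRestrict_surjective
  obtain ⟨P, p1, p2, p3⟩ := chain 2 M (fun V => V = ⊤ → M = ⊤) id fun V W _ η a e q v => by
    subst v
    refine q (eq_top_iff.2 fun x _ => (e x).2 ⟨trivial, ?_⟩)
    have := b.prf (fun y => if h : y ∈ ρ.range then ZMod.castHom (dvd_refl 2) k (η ⟨y, h⟩) else 0)
      (fun y hy z hz => by
        beta_reduce
        rw [dif_pos hy, dif_pos hz, dif_pos (mul_mem hy hz), ← map_add]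
        exact congrArg _ (a ⟨y, hy⟩ trivial ⟨z, hz⟩ trivial)) x x.2
    beta_reduce at this
    rw [dif_pos x.2] at this
    exact (map_eq_zero_iff _ (RingHom.injective _)).1 this
  have pg : IsPGroup 2 (ρ.range ⧸ M) := fun q => by
    obtain ⟨x, rfl⟩ := QuotientGroup.mk_surjective q
    obtain ⟨y, rfl⟩ := ρ.rangeRestrict_surjective x
    exact ⟨m, by
      rw [← QuotientGroup.mk_pow, QuotientGroup.eq_one_iff]
      exact ⟨_, h y, map_pow _ _ _⟩⟩
  obtain ⟨j, hj⟩ := IsPGroup.iff_card.1 pg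
  obtain ⟨i, -, hi⟩ := (Nat.dvd_prime_pow Nat.prime_two).1
    (hj ▸ Subgroup.index_dvd_of_le p1 : P.index ∣ 2 ^ j)
  have : i = 0 := by_contra fun e => p2 (hi ▸ dvd_pow_self 2 e)
  rw [this, pow_zero, Subgroup.index_eq_one] at hi
  obtain ⟨z, hz, e⟩ : ρ.rangeRestrict g ∈ M := p3 hi ▸ trivial
  exact ⟨z, hz, congrArg Subtype.val e⟩

/-- descent to the finite group -/
theorem desc (b : P022E.Gp.Big ρ.range) {Z : Subgroup G} (o : ∀ g, ∃ z ∈ Z, ρ z = ρ g)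
    {y : G → Matrix (Fin 2) (Fin 2) k} (hy : ∀ g h, y (g * h) = y g + ad ρ g (y h))
    (h : ∀ u ∈ Z, ρ u = 1 → y u = 0) : ∃ a, ∀ z ∈ Z, y z = ad ρ z a - a := by
  have ex : ∀ m : GL (Fin 2) k, ∃ z, m ∈ ρ.range → z ∈ Z ∧ ρ z = m := fun m => by
    by_cases e : m ∈ ρ.range
    · obtain ⟨g, rfl⟩ := e
      obtain ⟨z, a, c⟩ := o g
      exact ⟨z, fun _ => ⟨a, c⟩⟩
    · exact ⟨1, fun a => absurd a e⟩
  choose s hs using ex
  have e : ∀ z ∈ Z, ∀ z' ∈ Z, ρ z = ρ z' → y z' = y z := fun z a z' c e => by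
    rw [← mul_inv_cancel_left z z', hy, h _ (mul_mem (inv_mem a) c)
      (by rw [map_mul, map_inv, e, inv_mul_cancel]), map_zero, add_zero]
  obtain ⟨a, ha⟩ := b.h1 (fun m => y (s m)) fun m hm m' hm' => by
    beta_reduce
    rw [e _ (mul_mem (hs m hm).1 (hs m' hm').1) _ (hs _ (mul_mem hm hm')).1
      (by rw [map_mul, (hs m hm).2, (hs m' hm').2, (hs _ (mul_mem hm hm')).2]), hy, ad_ap, map_inv,
      (hs m hm).2]
  refine ⟨-a, fun z hz => ?_⟩
  rw [e _ (hs _ ⟨z, rfl⟩).1 z hz (hs _ ⟨z, rfl⟩).2, ha _ ⟨z, rfl⟩, map_neg, ad_ap, map_inv]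
  abel

theorem schur (b : P022E.Gp.Big ρ.range) {x : Matrix (Fin 2) (Fin 2) k}
    (h : ∀ g, ad ρ g x = x) : x = x 0 0 • 1 := by
  have c : ∀ y, x * y - y * x = 0 := fun y => b.spn _ (by
    rintro _ ⟨g, rfl⟩ -
    rw [sub_mul, Matrix.trace_sub, mul_assoc x, Matrix.trace_mul_comm, mul_assoc, mul_assoc,
      ← ad_mul, h, sub_self]) (by rw [Matrix.trace_sub, Matrix.trace_mul_comm, sub_self])
  have c1 := congrFun (congrFun (c !![1, 0; 0, 0]) 0) 1
  have c2 := congrFun (congrFun (c !![1, 0; 0, 0]) 1) 0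
  have c3 := congrFun (congrFun (c !![0, 1; 0, 0]) 0) 1
  simp [Matrix.mul_apply, Fin.sum_univ_two, sub_eq_zero, Matrix.vecMul, dotProduct] at c1 c2 c3
  ext i j
  fin_cases i <;> fin_cases j <;> simp [c1, c2, c3]

variable [TopologicalSpace G]

theorem Rs.big [Finite k] [CharP k 2] (h : Rs ι ρ) : P022E.Gp.Big ρ.range :=
  P022E.Gp.big0 k _ ⟨inferInstance, by rintro _ ⟨g, rfl⟩; exact h.det g⟩ h.nsv

theorem cpt' (h : Topology.IsOpenEmbedding ι) : CompactSpace G :=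
  haveI := cpt
  Topology.IsClosedEmbedding.compactSpace
    ⟨h.isEmbedding, ι.range.isClosed_of_isOpen h.isOpen_range⟩

theorem z1_ex {I : Set GQ} {σ : Representation k G V} (h : Function.Injective ι) {y : GQ → V}
    (hy : y ∈ Z1 I ι.range (ex ι σ)) (g j : G) : y (ι (g * j)) = y (ι g) + σ g (y (ι j)) := by
  rw [map_mul, hy.1 _ ⟨g, rfl⟩ _ ⟨j, rfl⟩, ex_ap ι σ h]

end

end Tw2

open Tw2

theorem oka (hT : TRI) : OKA := by
  intro G k _ _ _ _ _ _ ι ρ h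
  obtain ⟨B, H, c, t1, t2, -⟩ := hT G k ι ρ h
  have oU : IsOpen ((ρ.ker.map ι : Subgroup GQ) : Set GQ) := GW.Pl.map_open ι h.emb h.opn
  have le : ρ.ker.map ι ≤ ι.range := Subgroup.map_le_range _ _
  obtain ⟨T₁, a1, a2⟩ := lg' 2 ι.range _ H le (le_gz_two _) (nz_ker _) oU
    (Subgroup.isOpen_mono c.uh oU)
  obtain ⟨T₂, b1, b2⟩ := lg' 2 ι.range _ ι.range le (le_gz_two _) (nz_ker _) oU h.emb.isOpen_range
  refine ⟨T₁ ∪ T₂, fun l m => (Finset.mem_union.1 m).elim (a1 l) (b1 l), fun T s p => ?_⟩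
  obtain ⟨l1, l2⟩ := a2 T (Finset.subset_union_left.trans s) p
  exact ⟨⟨inferInstance, rp_ex h.emb.injective (fun _ => ad_one) l1.lv, l1,
      ex_tri h.emb.injective fun _ => ad_one, .inr ⟨B, H, c, le_gz_two _, l2, t1⟩⟩,
    ⟨inferInstance, rp_ex h.emb.injective (fun _ => GW.ad0_one) l1.lv, l1,
      ex_tri h.emb.injective fun _ => GW.ad0_one, .inr ⟨B, H, c, le_gz_two _, l2, t2⟩⟩,
    (b2 T (Finset.subset_union_right.trans s) p).2⟩

theorem kil : KIL := by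
  intro G k _ _ _ _ _ _ ι ρ h n S Z nZ oZ ⟨m, hm⟩
  have b := Rs.big h
  have := cpt' h.emb
  have inj := h.emb.injective
  let c : G →* (ZMod (2 ^ n))ˣ := (cyc (2 ^ n)).comp ι
  have oc : IsOpen (c.ker : Set G) := (isOpen_cyc _).preimage h.emb.continuous
  have o : ∀ g, ∃ z ∈ Z ⊓ c.ker, ρ z = ρ g := onto b inferInstance (m := m + n) fun g =>
    ⟨by rw [pow_add, pow_mul]; exact pow_mem (hm g) _, by
      show c _ = 1
      rw [map_pow, ← orderOf_dvd_iff_pow_eq_one]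
      refine (orderOf_dvd_card (x := c g)).trans ?_
      rw [ZMod.card_units_eq_totient]
      rcases n.eq_zero_or_pos with rfl | e
      · simp
      · rw [Nat.totient_prime_pow Nat.prime_two e]
        simpa using pow_dvd_pow 2 (by omega)⟩
  obtain ⟨_, ⟨g₀, rfl⟩, r₀⟩ := b.reg
  obtain ⟨z₀, m₀, e₀⟩ := o g₀
  refine ⟨?_, fun I y hy hv => ?_⟩
  · obtain ⟨l, P, w, hw, t⟩ := GW.tw_ex h.emb (ρ := ρ) m₀.2 (rg_iff.2 (e₀ ▸ r₀)) (W := Z ⊓ ρ.ker)
      (oZ.inter h.opn) inf_le_right S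
    exact ⟨l, P, _, t, mul_mem m₀.1 hw.1⟩
  obtain ⟨W, lW, hW⟩ := hy.2.2
  have y1 := z1_ex inj hy
  have A : ∀ g ∈ Z ⊓ c.ker, (ρ g).1.trace ≠ 0 →
      (y (ι g)).trace = 0 ∧ (y (ι g) * (ρ g).1).trace = 0 := fun g hg r => by
    obtain ⟨l, P, w, hw, t⟩ := GW.tw_ex h.emb (ρ := ρ) hg.2 (rg_iff.2 r)
      (W := (Z ⊓ W.comap ι) ⊓ ρ.ker)
      ((oZ.inter (lW.opn.preimage h.emb.continuous)).inter h.opn) inf_le_right S
    obtain ⟨a, ha⟩ := hv l P _ t (mul_mem hg.1 hw.1.1)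
    rw [y1, hW _ ⟨w, rfl⟩ hw.1.2, map_zero, add_zero, ad_congr (g' := g)
      (by rw [map_mul, show ρ w = 1 from hw.2, mul_one])] at ha
    rw [← ha, LinearMap.sub_apply, End.one_apply, sub_mul, Matrix.trace_sub, Matrix.trace_sub,
      ad_tr, ad_mul, Matrix.trace_mul_comm]
    exact ⟨sub_self _, sub_self _⟩
  have B : ∀ u ∈ Z ⊓ c.ker, ρ u = 1 → y (ι u) = 0 := fun u hu e => by
    have k : ∀ g ∈ Z ⊓ c.ker, (ρ g).1.trace ≠ 0 →
        (y (ι u)).trace = 0 ∧ (y (ι u) * (ρ g).1).trace = 0 := fun g hg r => by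
      have e1 : ρ (g * u) = ρ g := by rw [map_mul, e, mul_one]
      have a1 := A g hg r
      have a2 := A _ (mul_mem hg hu) (e1 ▸ r)
      rw [y1, e1, add_mul, Matrix.trace_add, Matrix.trace_add, a1.1, a1.2, zero_add, zero_add,
        ad_tr, ad_mul, Matrix.trace_mul_comm] at a2
      exact a2
    refine b.spn _ ?_ (k z₀ m₀ (e₀ ▸ r₀)).1
    rintro _ ⟨g, rfl⟩ r
    obtain ⟨z, a, e⟩ := o g
    rw [← e] at r ⊢
    exact (k z a r).2
  obtain ⟨a, ha⟩ := desc b o (y := fun g => y (ι g)) y1 B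
  let y' : G → Matrix (Fin 2) (Fin 2) k := fun g => y (ι g) - (ad ρ g a - a)
  have y2 : ∀ g j, y' (g * j) = y' g + ad ρ g (y' j) := fun g j => by
    simp only [y']
    rw [y1, map_mul, End.mul_apply, map_sub, map_sub]; abel
  have y3 : ∀ z ∈ Z ⊓ c.ker, y' z = 0 := fun z hz => sub_eq_zero.2 (ha z hz)
  refine ⟨a, fun g => y' (Function.invFun ι g) 0 0, ?_⟩
  rintro _ ⟨g, rfl⟩
  beta_reduce
  rw [Function.leftInverse_invFun inj, d0_apply, ex_ap ι _ inj, ← schur b (x := y' g) fun j => ?_]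
  · simp only [y']; abel
  · obtain ⟨z, hz, e⟩ := o j
    have e1 := y2 z g
    rw [y3 z hz, zero_add, show z * g = g * (g⁻¹ * z * g) by group, y2,
      y3 (g⁻¹ * z * g) (Subgroup.Normal.conj_mem' inferInstance z hz g), map_zero,
      add_zero] at e1
    rw [← ad_congr e, ← e1]

namespace Tw2

theorem reps_of {G J : Type} [Group G] {ι : G →* GQ} {T : Finset ℕ} {x : J → Ab T}
    {D : J → Set G} (h : RT.Rp (pP ι T) x D) : Reps ι.range (Ab T) fun i => (x i).1 :=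
  ⟨fun i g _ => Plc.ab_smul (x i).2 g, fun y hy => by
    obtain ⟨t, g, e⟩ := h.all ⟨y, hy⟩
    exact ⟨t, _, ⟨g, rfl⟩, (congrArg Subtype.val e).symm⟩, by
    rintro i j _ ⟨g, rfl⟩ e
    exact h.inj i j g (Subtype.ext e.symm)⟩

theorem hm_tr {k : Type} [Field k] [CharP k 2] (A : Subgroup GQ) :
    rk (Hm A (tr GQ k) (om 2 k)) = 1 := by
  rw [show Hm A (tr GQ k) (om 2 k) = ⊤ from eq_top_iff.2 fun f _ g _ n => by
    rw [om_two, one_mul]; rfl, rk, rank_top, ← finrank_eq_rank, Subspace.dual_finrank_eq,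
    finrank_self, Nat.cast_one]

/-- the number of the quadratic characters -/
theorem rk_ch (k : Type) [Field k] [CharP k 2] {Γ : Subgroup GQ} {T : Finset ℕ} {J : Type}
    [Fintype J] {x : J → Plc} (b : Bg Γ T) (h0 : 0 ∈ T) (h2 : 2 ∈ T) (l : Le (In T) ⊤ Γ)
    (hx : Reps Γ (Ab T) x) : rk (Z1 (In T) Γ (tr GQ k)) = Fintype.card J := by
  have := gpc 2 k k Γ Γ T J x (tr GQ k) le_rfl (le_gz_two _) b h0 h2 l hx
    ⟨inferInstance, rp_tr _ _, pr0 _ _ _ _ _ _ _ (rp_tr ∅ _) (by simp),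
      fun g hg u hu => mul_mem (mul_mem hg hu) (inv_mem hg), Le.self _ _, fun _ _ _ => rfl,
      by rw [om_two']; exact ⟨rfl, fun _ _ _ _ => (mul_one _).symm⟩, fun _ _ _ => om_two _ _⟩
  simp only [hm_tr, Module.rank_self, Finset.sum_const, Finset.card_univ, nsmul_eq_mul,
    mul_one] at this
  exact Cardinal.add_one_inj.1 this

/-- the trace form -/
def tf (k : Type) [Field k] :
    Matrix (Fin 2) (Fin 2) k →ₗ[k] Dual k (Matrix (Fin 2) (Fin 2) k) :=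
  (LinearMap.mul k _).compr₂ (Matrix.traceLinearMap (Fin 2) k k)

theorem tf_bij (k : Type) [Field k] : Function.Bijective (tf k) := by
  have i : Function.Injective (tf k) := fun a b e =>
    Matrix.ext_iff_trace_mul_right.2 fun x => LinearMap.congr_fun e x
  exact ⟨i, (LinearMap.injective_iff_surjective_of_finrank_eq_finrank
    Subspace.dual_finrank_eq.symm).1 i⟩

theorem fin_le {k X : Type} [Field k] [AddCommGroup X] [Module k X] {n : ℕ}
    (h : Module.rank k X ≤ n) : Module.Finite k X ∧ finrank k X ≤ n :=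
  ⟨Module.rank_lt_aleph0_iff.1 (h.trans_lt (Cardinal.natCast_lt_aleph0)), finrank_le_of_rank_le h⟩

theorem tn_fin {k V J : Type} [Field k] [AddCommGroup V] [Module k V] [Module.Finite k V]
    [Finite J] {I : Set GQ} {Γ : Subgroup GQ} (D : J → Subgroup GQ) {σ : GQ → End k V}
    (h : rk (Z1 I Γ σ) < Cardinal.aleph0) : rk (Tn I Γ D σ) < Cardinal.aleph0 :=
  haveI := Module.rank_lt_aleph0_iff.1 h
  haveI : Module.Finite k (Tn I Γ D σ) :=
    Module.Finite.of_injective (N := Z1 I Γ σ × (J → V))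
      ({ toFun := fun y => (⟨y.1.1, y.2.1⟩, y.1.2)
         map_add' := fun _ _ => rfl
         map_smul' := fun _ _ => rfl } : Tn I Γ D σ →ₗ[k] Z1 I Γ σ × (J → V))
      fun y z e => Subtype.ext (Prod.ext (congrArg (fun w => w.1.1) e) (congrArg (fun w => w.2) e))
  Module.rank_lt_aleph0 k _

theorem fin2 {k A X : Type} [Field k] [AddCommGroup A] [Module k A] [AddCommGroup X] [Module k X]
    {B : Submodule k X} {n : ℕ} (h : Module.rank k A + n ≤ Module.rank k B) (f : Module.rank k B < Cardinal.aleph0) :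
    Module.Finite k B ∧ Module.Finite k A ∧ finrank k A + n ≤ finrank k B := by
  haveI := Module.rank_lt_aleph0_iff.1 f
  haveI := Module.rank_lt_aleph0_iff.1 ((le_self_add.trans h).trans_lt f)
  rw [← finrank_eq_rank, ← finrank_eq_rank] at h
  exact ⟨inferInstance, inferInstance, by exact_mod_cast h⟩

end Tw2

theorem two2 (hO : OKA) (hZ : ZCT) (hC : CHI 2) (hW : TWL 2) : TWO2 := by
  classical
  intro G k _ _ _ _ _ _ ι ρ h
  obtain ⟨T₀, t1, t2⟩ := hO G k ι ρ h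
  refine ⟨T₀, t1, fun T s p J _ x D hx => ?_⟩
  obtain ⟨ok, -, bg⟩ := t2 T s p
  have inj := h.emb.injective
  have rx := reps_of hx
  have lv : Le (In T) ⊤ ι.range := ok.lg.lv.up ok.lg.le
  haveI : Module.Finite k (Z1 (In T) ι.range (ex ι (ad ρ))) :=
    Module.rank_lt_aleph0_iff.1 (hC k _ _ _ T J _ _ ok rx).1
  haveI : Finite (Z1 (In T) ι.range (ex ι (ad ρ))) := Module.finite_of_finite k
  haveI := Fintype.ofFinite (Z1 (In T) ι.range (ex ι (ad ρ)))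
  refine ⟨Fintype.card (Z1 (In T) ι.range (ex ι (ad ρ))), fun r hr n S Z nZ oZ hm => ?_⟩
  obtain ⟨e⟩ := Function.Embedding.nonempty_of_card_le (α := Z1 (In T) ι.range (ex ι (ad ρ)))
    (β := Fin r) (by simpa using hr)
  obtain ⟨a, ia, ha⟩ := GW.pick (fun a : ℕ × Id × G => a.1) r
    (fun i a => Tw ι ρ (2 ^ n) (S ∪ T) a.1 a.2.1 a.2.2 ∧ a.2.2 ∈ Z ∧ ∀ y, e y = i →
      y.1 (ι a.2.2) ∈ LinearMap.range (ad ρ a.2.2 - 1) → ∃ (b : Matrix (Fin 2) (Fin 2) k)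
        (χ : GQ → k), ∀ g ∈ ι.range, y.1 g = d0 (ex ι (ad ρ)) b g + χ g • 1) fun i S' => by
      obtain ⟨k1, k2⟩ := kil G k ι ρ h n (S ∪ T ∪ S') Z nZ oZ hm
      have : ∃ l P φ, Tw ι ρ (2 ^ n) (S ∪ T ∪ S') l P φ ∧ φ ∈ Z ∧ ∀ y, e y = i →
          y.1 (ι φ) ∈ LinearMap.range (ad ρ φ - 1) → ∃ (b : Matrix (Fin 2) (Fin 2) k)
            (χ : GQ → k), ∀ g ∈ ι.range, y.1 g = d0 (ex ι (ad ρ)) b g + χ g • 1 := by
        by_contra c
        push Not at c
        obtain ⟨l, P, φ, a1, a2⟩ := k1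
        obtain ⟨y, y1, -, y3⟩ := c l P φ a1 a2
        obtain ⟨b, χ, f⟩ := k2 _ y.1 y.2 fun l P φ a1 a2 => by
          obtain ⟨y', y1', y2', -⟩ := c l P φ a1 a2
          rwa [e.injective (y1'.trans y1.symm)] at y2'
        obtain ⟨g, hg, ne⟩ := y3 b χ
        exact ne (f g hg)
      obtain ⟨l, P, φ, h, h'⟩ := this
      exact ⟨(l, P, φ), fun k => h.out (Finset.mem_union_right _ k),
        ⟨fun k => h.out (Finset.mem_union_left _ k), h.ov, h.fb, h.deg, h.cg, h.rg⟩, h'⟩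
  have nT : ∀ i, (a i).1 ∉ T := fun i m => (ha i).1.out (Finset.mem_union_right _ m)
  refine ⟨fun i => (a i).1, fun i => (a i).2.1, fun i => (a i).2.2, ia, fun i =>
    ⟨⟨fun m => (ha i).1.out (Finset.mem_union_left _ m), (ha i).1.ov, (ha i).1.fb, (ha i).1.deg,
      (ha i).1.cg, (ha i).1.rg⟩, nT i, (ha i).2.1⟩, fin_le ?_⟩
  refine (hZ G k _ ι (ad ρ) T J _ _ (fun i => (a i).1) _ h.emb ok.lg.h0 lv rx
    fun i => (ha i).1.ov).trans ((hW k _ _ _ _ T J _ _ (fun i => (a i).1) (fun i => (a i).2.1)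
      (fun i => ι (a i).2.2) _ _ (tf k) ok ok.rp ok.tri (fun c hc c0 _ => ?_) ⟨tf_bij k, ?_⟩ rx
      ⟨fun i => ⟨(ha i).1.ov, fun m => nT i (m ▸ ok.lg.hp), (ha i).1.fb,
        le_inf (ha i).1.deg (le_gz_two _)⟩, nT, fun i j g _ m =>
        ia (GW.Pl.ov_uniq (GW.ov_smul (ha i).1.ov g) (m ▸ (ha j).1.ov))⟩).trans ?_)
  · obtain ⟨b, hb⟩ := desc (Rs.big h) (Z := ⊤) (fun g => ⟨g, trivial, rfl⟩)
      (y := fun g => c (ι g)) (z1_ex inj hc) fun u _ m => c0 _ ⟨u, m, rfl⟩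
    refine ⟨b, ?_⟩
    rintro _ ⟨g, rfl⟩
    rw [d0_apply, ex_ap ι _ inj]
    exact hb g trivial
  · rintro _ ⟨g, rfl⟩ m m'
    rw [ex_ap ι _ inj, om_two, one_mul]
    exact ad_tr2 g m m'
  let sc : (GQ → k) →ₗ[k] GQ → Matrix (Fin 2) (Fin 2) k :=
    (LinearMap.toSpanSingleton k _ (1 : Matrix (Fin 2) (Fin 2) k)).compLeft GQ
  have y1 : Yq (In T) ι.range (fun i => ι (a i).2.2) (ex ι (ad ρ)) ≤
      (Z1 (In T) ι.range (ex ι (ad ρ)) ⊓ B1 ι.range (ex ι (ad ρ))) ⊔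
        (Z1 (In T) ι.range (tr GQ k)).map sc := fun y hy => by
    obtain ⟨b, χ, f⟩ := (ha _).2.2 ⟨y, hy.1⟩ rfl (by
      have := hy.2 (e ⟨y, hy.1⟩)
      rwa [ex_ap ι _ inj] at this)
    have m1 := d0_mem ok.rp b
    have m2 := sub_mem hy.1 m1
    generalize hw : y - (ι.range : Set GQ).indicator (d0 (ex ι (ad ρ)) b) = w at m2
    have w1 : ∀ g, w g = w g 0 0 • 1 := fun g => by
      by_cases hg : g ∈ ι.range
      · have : w g = χ g • 1 := by
          rw [← hw, Pi.sub_apply, Set.indicator_of_mem hg, show y g = _ from f g hg,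
            add_sub_cancel_left]
        rw [this]; simp
      · rw [m2.2.1 g hg]; simp
    refine Submodule.mem_sup.2 ⟨_, ⟨m1, b, fun g hg => Set.indicator_of_mem hg _⟩, w,
      ⟨fun g => w g 0 0, ⟨?_, fun g hg => by beta_reduce; rw [m2.2.1 g hg]; rfl,
        m2.2.2.imp fun W hW => ⟨hW.1, fun u hu m => by beta_reduce; rw [hW.2 u hu m]; rfl⟩⟩,
        funext fun g => (w1 g).symm⟩, by rw [← hw]; abel⟩
    rintro _ ⟨g, rfl⟩ j hj
    beta_reduce
    rw [m2.1 _ ⟨g, rfl⟩ j hj, ex_ap ι _ inj, w1 j, ad_sc, ← w1 j]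
    rfl
  have y2 : rk (Z1 (In T) ι.range (ex ι (ad ρ)) ⊓ B1 ι.range (ex ι (ad ρ))) ≤ 3 := by
    have e1 := rk_b1 ok.rp
    have e2 : 1 ≤ rk (H0 ι.range (ex ι (ad ρ)) fun _ => 1) :=
      Cardinal.one_le_iff_pos.2 (rank_pos_iff_exists_ne_zero.2 ⟨⟨1, by
        rintro _ ⟨g, rfl⟩
        rw [ex_ap ι _ inj]
        exact (congrArg _ (one_smul k _).symm).trans (ad_sc g 1)⟩,
        fun z => one_ne_zero (congrArg Subtype.val z)⟩)
    have e3 := (add_le_add_right e2 _).trans e1.le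
    rw [rank_matrix'] at e3
    refine Cardinal.add_one_le_add_one_iff.1 (e3.trans (le_of_eq ?_))
    simp; norm_num
  have y3 : ∑ j, rk (LinearMap.ker (ex ι (ad ρ) (ι (a j).2.2) - 1)) ≤ ∑ _j : Fin r, 2 :=
    Finset.sum_le_sum fun j _ => by rw [ex_ap ι _ inj]; exact rk_cen (rg_iff.1 (ha j).1.rg)
  refine (add_le_add y3 ((Submodule.rank_mono y1).trans ((Submodule.rank_add_le_rank_add_rank _
    _).trans (add_le_add y2 ((rank_map_le _ _).trans
      (rk_ch k bg ok.lg.h0 ok.lg.hp lv rx).le))))).trans (le_of_eq ?_)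
  simp [mul_comm, add_assoc]

theorem obo2 (hO : OKA) (hT : TRI) (hZ : TZC) (hH : HCH) (hC : CHI 2) : OBO2 := by
  intro G k _ _ _ _ _ _ ι ρ h
  obtain ⟨T₀, t1, t2⟩ := hO G k ι ρ h
  obtain ⟨-, -, -, -, -, hm⟩ := hT G k ι ρ h
  refine ⟨T₀, t1, fun T s p => ?_⟩
  obtain ⟨-, ok, -⟩ := t2 T s p
  obtain ⟨J, _, x, rx⟩ := plc ι.range T h.emb.isOpen_range
  have lv : Le (In T) ⊤ ι.range := ok.lg.lv.up ok.lg.le
  obtain ⟨c1, -, c2⟩ := hC k _ _ _ T J x _ ok rx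
  have e1 := hZ G k _ ι (ad0 ρ) T J x h.emb ok.lg.h0 lv rx
  have e2 := hH G k _ ι (ad0 ρ) T J x h.emb ok.lg.h0 lv rx ok.rp
  rw [hm, show rk (⊥ : Submodule k (Dual k (sl k))) = 0 from rank_bot _ _, add_zero, ← e1,
    ← finrank_eq_rank k (sl k), GW.rk_sl] at c2
  refine ⟨ok.lg.h0, ok.lg.hp, fun g ⟨l, P, o, n, i⟩ => ?_,
    fin2 ((add_le_add_left e2 _).trans c2) (e1.trans_lt (tn_fin _ c1))⟩
  obtain ⟨W, w1, w2⟩ := ok.lg.lv
  obtain ⟨u, m, e⟩ := w2 _ trivial (w1.sub ⟨l, fun m => n ⟨l, m, o⟩, P, o, i⟩)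
  exact h.emb.injective e ▸ m

end Vale.Agent.P022K.G2
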