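import Vale.Agent.P022K.G2.SpecA
import Vale.Agent.P022K.G2.Bas
import Vale.Agent.P022K.GW.Defs
import Vale.Agent.P022E.Gp.All

/-!
# P022K, block G2: the adjoint modules of a big subgroup of `SL₂` in characteristic two (helper42)
-/

set_option linter.all false

noncomputable section

namespace Vale.Agent.P022K.G2.Sl

open Module Matrix
open Vale.Agent.P022E.Gp
open Vale.Agent.P022K.GW (sl)

variable {G : Type} [Group G] {k : Type} [Field k]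

theorem inv_val {g : GL (Fin 2) k} (h : g.1.det = 1) :
    (g⁻¹).1 = !![g.1 1 1, -g.1 0 1; -g.1 1 0, g.1 0 0] := by
  rw [coe_units_inv, inv_def, h, adjugate_fin_two]; simp

theorem cj_val {g : GL (Fin 2) k} (h : g.1.det = 1) (m : Matrix (Fin 2) (Fin 2) k) :
    g.1 * m * (g⁻¹).1 =
    !![(g.1 0 0 * m 0 0 + g.1 0 1 * m 1 0) * g.1 1 1 - (g.1 0 0 * m 0 1 + g.1 0 1 * m 1 1) * g.1 1 0,
      (g.1 0 0 * m 0 1 + g.1 0 1 * m 1 1) * g.1 0 0 - (g.1 0 0 * m 0 0 + g.1 0 1 * m 1 0) * g.1 0 1;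
      (g.1 1 0 * m 0 0 + g.1 1 1 * m 1 0) * g.1 1 1 - (g.1 1 0 * m 0 1 + g.1 1 1 * m 1 1) * g.1 1 0,
      (g.1 1 0 * m 0 1 + g.1 1 1 * m 1 1) * g.1 0 0 -
        (g.1 1 0 * m 0 0 + g.1 1 1 * m 1 0) * g.1 0 1] := by
  rw [inv_val h]
  ext i j
  fin_cases i <;> fin_cases j <;> simp [mul_apply, Fin.sum_univ_two] <;> ring

/-- the upper triangular matrices -/
def Bo (k : Type) [Field k] : Subgroup (GL (Fin 2) k) where
  carrier := {g | g.1 1 0 = 0}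
  mul_mem' {g h} hg hh := by
    simp only [Set.mem_setOf_eq] at hg hh ⊢
    rw [Units.val_mul, mul_apply, Fin.sum_univ_two, hg, hh, zero_mul, mul_zero, add_zero]
  one_mem' := by simp
  inv_mem' {g} hg := by
    simp only [Set.mem_setOf_eq] at hg ⊢
    simp [inv_def, adjugate_fin_two, hg]

/-- `ρ` maps `Γ` onto a group in the standard position; the upper triangular elements, the
unipotent elements, the kernel -/
structure Sd (Γ B H U : Subgroup G) (ρ : G → GL (Fin 2) k) (Im : Subgroup (GL (Fin 2) k)) :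
    Prop where
  mul : ∀ g ∈ Γ, ∀ h ∈ Γ, ρ (g * h) = ρ g * ρ h
  im : ∀ x, x ∈ Im ↔ ∃ g ∈ Γ, ρ g = x
  std : Std Im
  hB : ∀ g, g ∈ B ↔ g ∈ Γ ∧ (ρ g).1 1 0 = 0
  hH : ∀ g, g ∈ H ↔ g ∈ Γ ∧ ρ g ∈ Up k
  hU : ∀ g, g ∈ U ↔ g ∈ Γ ∧ ρ g = 1

theorem exists_sd {Γ : Subgroup G} {ρ : G → GL (Fin 2) k} (r : Γ →* GL (Fin 2) k)
    (e : ∀ g : Γ, ρ g = r g) (s : Std r.range) : ∃ B H U, Sd Γ B H U ρ r.range := by
  have m : ∀ (K : Subgroup (GL (Fin 2) k)) g, g ∈ (K.comap r).map Γ.subtype ↔ g ∈ Γ ∧ ρ g ∈ K :=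
    fun K g => ⟨fun ⟨x, h, f⟩ => f ▸ ⟨x.2, (e x).symm ▸ h⟩, fun h =>
      ⟨⟨g, h.1⟩, show r _ ∈ K from e ⟨g, h.1⟩ ▸ h.2, rfl⟩⟩
  exact ⟨_, _, _, fun g hg h hh => (e ⟨_, mul_mem hg hh⟩).trans
    ((r.map_mul ⟨g, hg⟩ ⟨h, hh⟩).trans (by rw [← e, ← e])),
    fun x => ⟨fun ⟨g, h⟩ => ⟨g, g.2, (e g).trans h⟩, fun ⟨g, hg, h⟩ => ⟨⟨g, hg⟩, (e _).symm.trans h⟩⟩,
    s, m (Bo k), m (Up k), m ⊥⟩

variable {Γ B H U : Subgroup G} {ρ : G → GL (Fin 2) k} {Im : Subgroup (GL (Fin 2) k)}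

namespace Sd

variable (S : Sd Γ B H U ρ Im)
include S

/-- the homomorphism -/
def hom : Γ →* GL (Fin 2) k := .mk' (fun g => ρ g) fun g h => S.mul g g.2 h h.2

theorem one : ρ 1 = 1 := S.hom.map_one

theorem inv {g : G} (hg : g ∈ Γ) : ρ g⁻¹ = (ρ g)⁻¹ := S.hom.map_inv ⟨g, hg⟩

theorem cj {g h : G} (hg : g ∈ Γ) (hh : h ∈ Γ) : ρ (g * h * g⁻¹) = ρ g * ρ h * (ρ g)⁻¹ := by
  rw [S.mul _ (mul_mem hg hh) _ (inv_mem hg), S.mul g hg h hh, S.inv hg]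

theorem det {g : G} (hg : g ∈ Γ) : (ρ g).1.det = 1 := S.std.sl.det _ ((S.im _).2 ⟨g, hg, rfl⟩)

theorem det' {g : G} (hg : g ∈ B) : (ρ g).1 0 0 * (ρ g).1 1 1 = 1 := by
  have := S.det ((S.hB g).1 hg).1
  rwa [det_fin_two, ((S.hB g).1 hg).2, mul_zero, sub_zero] at this

theorem hb : H ≤ B := fun g hg => by
  obtain ⟨m, a, e⟩ := (S.hH g).1 hg
  exact (S.hB g).2 ⟨m, by rw [← e]; rfl⟩

theorem range : S.hom.range = Im := Subgroup.ext fun x =>
  ⟨fun ⟨g, h⟩ => (S.im x).2 ⟨g, g.2, h⟩, fun h => ((S.im x).1 h).elim fun g e => ⟨⟨g, e.1⟩, e.2⟩⟩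

variable [CharP k 2]

theorem chn : Chn 2 Γ B H U := by
  have bg : B ≤ Γ := fun g hg => ((S.hB g).1 hg).1
  have od : Odd (H.relIndex B * B.relIndex Γ) := by
    rw [Subgroup.relIndex_mul_relIndex H B Γ S.hb bg, Subgroup.relIndex,
      show H.subgroupOf Γ = (Up k).comap S.hom from Subgroup.ext fun g =>
        (S.hH g).trans (and_iff_right g.2), Subgroup.index_comap, S.range]
    exact S.std.idx
  refine ⟨fun g hg => (S.hH g).2 ⟨((S.hU g).1 hg).1, ((S.hU g).1 hg).2 ▸ one_mem _⟩, S.hb, bg,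
    fun g hg u hu => ?_, fun g hg u hu => ?_, (Nat.odd_mul.1 od).2.not_two_dvd_nat,
    (Nat.odd_mul.1 od).1.not_two_dvd_nat, fun g hg n h hh m => ?_⟩
  · obtain ⟨m, e⟩ := (S.hU u).1 hu
    exact (S.hU _).2 ⟨mul_mem (mul_mem hg m) (inv_mem hg), by rw [S.cj hg m, e]; simp⟩
  · obtain ⟨m, a, e⟩ := (S.hH u).1 hu
    have g1 := bg hg
    have m1 := mul_mem (mul_mem g1 m) (inv_mem g1)
    refine (S.hH _).2 ⟨m1, _, (P022E.Gp.St.up_of _ (S.det m1) ?_ ?_).symm⟩ <;>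
      rw [S.cj g1 m, Units.val_mul, Units.val_mul, cj_val (S.det g1), ← e] <;>
      simp [uu, ((S.hB g).1 hg).2, mul_comm]
  · obtain ⟨m1, a, e⟩ := (S.hH h).1 hh
    have c := ((S.hB _).1 m).2
    rw [S.cj hg m1, Units.val_mul, Units.val_mul, cj_val (S.det hg), ← e] at c
    have c0 : (ρ g).1 1 0 ≠ 0 := fun z => n ((S.hB g).2 ⟨hg, z⟩)
    have : (ρ g).1 1 0 * (ρ g).1 1 0 * a = 0 := by
      simp [uu] at c
      linear_combination -c
    exact (S.hU h).2 ⟨m1, by rw [← e, (mul_eq_zero.1 this).resolve_left (mul_ne_zero c0 c0), uu_zero]⟩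

/-- a diagonal element -/
theorem tor : ∃ t ∈ B, ∃ s : k, s ≠ 0 ∧ s ^ 2 ≠ 1 ∧ (ρ t).1 = !![s, 0; 0, s⁻¹] := by
  obtain ⟨a, a', a0, a1, ne, m, m'⟩ := S.std.two
  obtain ⟨t, ht, s, s0, e, f⟩ := P022E.Gp.tor k Im S.std a a' a0 a1 m m'
  obtain ⟨g, hg, rfl⟩ := (S.im t).1 ht
  exact ⟨g, (S.hB g).2 ⟨hg, by rw [e]; rfl⟩, s, s0, fun z => ne (by rw [← f, z, one_mul]), e⟩

theorem uni : ∃ h ∈ H, ∃ a : k, a ≠ 0 ∧ ρ h = uu a := by
  obtain ⟨a, -, a0, -, -, m, -⟩ := S.std.two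
  obtain ⟨g, hg, e⟩ := (S.im _).1 m
  exact ⟨g, (S.hH g).2 ⟨hg, a, e.symm⟩, a, a0, e⟩

end Sd

section

variable {N : Type} [AddCommGroup N] [Module k N] {ω θ : G → k}

/-- an extension by a character -/
def ext (θ : G → k) (f : G → N →ₗ[k] k) (σ : G → End k N) (g : G) : End k (k × N) :=
  (LinearMap.coprod (θ g • LinearMap.id) (f g)).prod (σ g ∘ₗ LinearMap.snd k k N)

theorem ext_apply (f : G → N →ₗ[k] k) (σ : G → End k N) (g : G) (x : k × N) :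
    ext θ f σ g x = (θ g * x.1 + f g x.2, σ g x.2) := rfl

theorem tri_ext {f : G → N →ₗ[k] k} {σ : G → End k N} (t : ∀ h ∈ H, θ h = 1)
    (c : (∀ b ∈ B, θ b = ω b) → (∀ b ∈ B, f b = 0) ∨ ∃ h ∈ H, σ h = 1 ∧ ∃ n, f h n = 1)
    (r : Tri B H ω N σ) : Tri B H ω (k × N) (ext θ f σ) :=
  .cons _ _ N σ θ (.inl _ _ _) (.snd _ _ _) ⟨LinearMap.inl_injective, LinearMap.snd_surjective,
    fun n => ⟨fun e => ⟨n.1, Prod.ext rfl e.symm⟩, fun ⟨_, e⟩ => e ▸ rfl⟩,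
    fun g _ a => by simp [ext_apply, ch_apply], fun _ _ _ => rfl⟩ t (fun e => (c e).imp
      (fun z => ⟨.fst _ _ _, fun g hg n => by simp [ext_apply, z g hg, e g hg], fun _ => rfl⟩)
      fun ⟨h, hh, e1, n, e2⟩ => ⟨h, hh, (0, n), by simp [ext_apply, e1, e2]⟩) r

theorem tri_ch (t : ∀ h ∈ H, θ h = 1) (c : ∃ b ∈ B, θ b ≠ ω b) : Tri B H ω k (ch θ) :=
  .cons _ _ PUnit (fun _ => 0) θ .id 0 ⟨Function.injective_id, fun _ => ⟨0, rfl⟩,
    fun n => ⟨fun _ => ⟨n, rfl⟩, fun _ => rfl⟩, fun _ _ _ => rfl, fun _ _ _ => rfl⟩ t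
    (fun e => c.elim fun b h => absurd (e b h.1) h.2) (.nil _ _ fun _ => rfl)

end

namespace Sd

variable (S : Sd Γ B H U ρ Im) [CharP k 2] {ω : G → k} (hω : ∀ g, ω g = 1)
include S hω

theorem t0 (i : Fin 2) : (∀ h ∈ H, (ρ h).1 i i ^ 2 = 1) ∧ ∃ b ∈ B, (ρ b).1 i i ^ 2 ≠ ω b := by
  obtain ⟨t, ht, s, s0, s1, e⟩ := S.tor
  refine ⟨fun h hh => ?_, t, ht, ?_⟩
  · obtain ⟨-, a, e⟩ := (S.hH h).1 hh
    rw [← e]; fin_cases i <;> simp [uu]
  · rw [e, hω]; fin_cases i <;> simpa using s1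

theorem t1 {N : Type} [AddCommGroup N] [Module k N] {σ : G → End k N} (f : N →ₗ[k] k)
    (o : Function.Surjective f) (t : ∀ h ∈ H, σ h = 1) (r : Tri B H ω N σ) :
    Tri B H ω (k × N) (ext 1 (fun g => ((ρ g).1 0 1 * (ρ g).1 1 1) • f) σ) :=
  tri_ext (fun _ _ => rfl) (fun _ => .inr (by
    obtain ⟨h, hh, a, a0, e⟩ := S.uni
    obtain ⟨n, hn⟩ := o a⁻¹
    exact ⟨h, hh, t h hh, n, by simp [e, uu, hn, a0]⟩)) r

theorem tri_ad {ν : G → End k (Matrix (Fin 2) (Fin 2) k)}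
    (h : ∀ g ∈ B, ∀ m, ν g m = (ρ g).1 * m * ((ρ g)⁻¹).1) : Tri B H ω _ ν := by
  have two : (2 : k) = 0 := CharTwo.two_eq_zero
  refine .cons _ _ _ _ (fun g => (ρ g).1 0 0 ^ 2) (.toSpanSingleton k _ !![0, 1; 0, 0])
    ((entryLinearMap k k 0 0).prod ((traceLinearMap _ k k).prod (entryLinearMap k k 1 0)))
    ⟨fun a b e => by simpa using congrFun (congrFun e 0) 1, fun x =>
      ⟨!![x.1, 0; x.2.2, x.2.1 - x.1], by simp⟩, fun n => ⟨fun e => ⟨n 0 1, ?_⟩, fun ⟨a, e⟩ => by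
        simp [← e]⟩, fun g hg a => ?_, fun g hg n => ?_⟩ (S.t0 hω 0).1
    (fun e => (S.t0 hω 0).2.elim fun b m => absurd (e b m.1) m.2)
    (S.t1 hω (.snd k k k) LinearMap.snd_surjective (fun g hg => LinearMap.ext fun x => by
      simp [ext_apply, ch_apply, (S.t0 hω 1).1 g hg]) (tri_ext (θ := 1) (f := 0) (fun _ _ => rfl)
      (fun _ => .inl fun _ _ => rfl) (tri_ch (S.t0 hω 1).1 (S.t0 hω 1).2)))
  · simp [trace_fin_two, Prod.ext_iff] at e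
    ext i j
    fin_cases i <;> fin_cases j <;> simp [e.1, e.2.2]
    linear_combination e.1 - e.2.1
  · rw [h g hg, cj_val (S.det ((S.hB g).1 hg).1)]
    ext i j
    fin_cases i <;> fin_cases j <;> simp [ch_apply, ((S.hB g).1 hg).2]
    ring
  · have d := S.det' hg
    rw [h g hg, cj_val (S.det ((S.hB g).1 hg).1)]
    simp [ext_apply, ch_apply, ((S.hB g).1 hg).2, trace_fin_two]
    exact ⟨by linear_combination n 0 0 * d, by linear_combination (n 0 0 + n 1 1) * d, by ring⟩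

theorem tri_ad0 {ν : G → End k (sl k)}
    (h : ∀ g ∈ B, ∀ m, (ν g m).1 = (ρ g).1 * m.1 * ((ρ g)⁻¹).1) : Tri B H ω _ ν := by
  refine .cons _ _ _ _ (fun g => (ρ g).1 0 0 ^ 2)
    (.toSpanSingleton k _ ⟨!![0, 1; 0, 0], by simp⟩)
    (((entryLinearMap k k 0 0).prod (entryLinearMap k k 1 0)) ∘ₗ (sl k).subtype)
    ⟨fun a b e => by simpa using congrFun (congrFun (congrArg Subtype.val e) 0) 1, fun x =>
      ⟨⟨!![x.1, 0; x.2, -x.1], by simp⟩, by simp⟩, fun n => ⟨fun e => ⟨n.1 0 1, Subtype.ext ?_⟩,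
      fun ⟨a, e⟩ => by simp [← e]⟩, fun g hg a => Subtype.ext ?_, fun g hg n => ?_⟩ (S.t0 hω 0).1
    (fun e => (S.t0 hω 0).2.elim fun b m => absurd (e b m.1) m.2)
    (S.t1 hω .id Function.surjective_id (fun g hg => LinearMap.ext fun x => by
      simp [ch_apply, (S.t0 hω 1).1 g hg]) (tri_ch (S.t0 hω 1).1 (S.t0 hω 1).2))
  · have t : n.1 0 0 + n.1 1 1 = 0 := (trace_fin_two _).symm.trans n.2
    simp [Prod.ext_iff] at e
    ext i j
    fin_cases i <;> fin_cases j <;> simp [e.1, e.2]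
    linear_combination e.1 - t
  · rw [h g hg, cj_val (S.det ((S.hB g).1 hg).1)]
    ext i j
    fin_cases i <;> fin_cases j <;> simp [ch_apply, ((S.hB g).1 hg).2]
    ring
  · have d := S.det' hg
    simp only [LinearMap.comp_apply, Submodule.subtype_apply]
    rw [h g hg, cj_val (S.det ((S.hB g).1 hg).1)]
    simp [ext_apply, ch_apply, ((S.hB g).1 hg).2]
    exact ⟨by linear_combination n.1 0 0 * d, by ring⟩

omit hω

/-- no invariant functional on the matrices of trace zero -/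
theorem hm_ad0 {ν : G → End k (sl k)}
    (h : ∀ g ∈ Γ, ∀ m, (ν g m).1 = (ρ g).1 * m.1 * ((ρ g)⁻¹).1) (hω : ∀ g, ω g = 1) :
    Hm Γ ν ω = ⊥ := by
  refine (Submodule.eq_bot_iff _).2 fun f hf => ?_
  have two : (2 : k) = 0 := CharTwo.two_eq_zero
  let e : sl k := ⟨!![0, 1; 0, 0], by simp⟩
  let e' : sl k := ⟨!![0, 0; 1, 0], by simp⟩
  let o : sl k := ⟨!![1, 0; 0, -1], by simp⟩
  obtain ⟨t, ht, s, s0, s1, et⟩ := S.tor
  obtain ⟨u, hu, a, a0, eu⟩ := S.uni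
  have mt := ((S.hB t).1 ht).1
  have mu := ((S.hH u).1 hu).1
  have k1 : ν t e = s ^ 2 • e := Subtype.ext (by
    rw [h t mt, cj_val (S.det mt), et]; simp [e, sq])
  have k2 : ν t e' = s⁻¹ ^ 2 • e' := Subtype.ext (by
    rw [h t mt, cj_val (S.det mt), et]; simp [e', sq])
  have k3 : ν u e' = e' + a • o - a ^ 2 • e := Subtype.ext (by
    rw [h u mu, cj_val (S.det mu), eu]; simp [e, e', o, uu, sq])
  have f1 := hf t mt e
  have f2 := hf t mt e'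
  have f3 := hf u mu e'
  rw [k1, hω, map_smul, smul_eq_mul, mul_eq_mul_right_iff, or_iff_right s1] at f1
  rw [k2, hω, map_smul, smul_eq_mul, mul_eq_mul_right_iff, or_iff_right (by simpa using s1)] at f2
  simp [k3, hω, f1, a0] at f3
  refine LinearMap.ext fun m => ?_
  have : m = m.1 0 0 • o + m.1 0 1 • e + m.1 1 0 • e' := Subtype.ext (by
    have t : m.1 0 0 + m.1 1 1 = 0 := (trace_fin_two _).symm.trans m.2
    ext i j
    fin_cases i <;> fin_cases j <;> simp [e, e', o]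
    linear_combination t)
  rw [this]
  simp [f1, f2, f3]

variable {ν : G → End k (Matrix (Fin 2) (Fin 2) k)}
  (h : ∀ g ∈ Γ, ∀ m, ν g m = (ρ g).1 * m * ((ρ g)⁻¹).1)
include h

/-- the trace pairing -/
theorem pf_ad (hω : ∀ g, ω g = 1) :
    Pf Γ ν ν ω ((LinearMap.mul k _).compr₂ (traceLinearMap (Fin 2) k k)) := by
  have inj : Function.Injective ((LinearMap.mul k (Matrix (Fin 2) (Fin 2) k)).compr₂
      (traceLinearMap (Fin 2) k k)) := (injective_iff_map_eq_zero _).2 fun m e => by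
    ext i j
    simpa [trace_mul_single] using LinearMap.congr_fun e (single j i 1)
  refine ⟨⟨inj, (LinearMap.injective_iff_surjective_of_finrank_eq_finrank
    Subspace.dual_finrank_eq.symm).1 inj⟩, fun g hg n m => ?_⟩
  simp only [LinearMap.compr₂_apply, LinearMap.mul_apply', traceLinearMap_apply, h g hg, hω]
  rw [one_mul, mul_assoc _ _ (_ * _ * _), ← mul_assoc ((ρ g)⁻¹).1, ← mul_assoc ((ρ g)⁻¹).1,
    Units.inv_mul, one_mul, ← mul_assoc, trace_mul_cycle, ← mul_assoc, Units.inv_mul, one_mul]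

/-- the centraliser of a regular element -/
theorem rk_ker {g : G} (hg : g ∈ Γ) (t : (ρ g).1.trace ≠ 0) :
    rk (LinearMap.ker (ν g - 1)) ≤ 2 := by
  have two : (2 : k) = 0 := CharTwo.two_eq_zero
  refine (LinearMap.rank_le_of_injective (((entryLinearMap k k 0 0).prod
    (entryLinearMap k k 1 1)) ∘ₗ Submodule.subtype _) ((injective_iff_map_eq_zero _).2
      fun m e => Subtype.ext ?_)).trans_eq (by rw [rank_prod', rank_self, one_add_one_eq_two])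
  have c : (ρ g).1 * m.1 = m.1 * (ρ g).1 := by
    have : ν g m.1 = m.1 := sub_eq_zero.1 m.2
    rw [h g hg] at this
    conv_rhs => rw [← this, mul_assoc, Units.inv_mul, mul_one]
  simp [Prod.ext_iff] at e
  have c1 := congrFun (congrFun c 0) 1
  have c2 := congrFun (congrFun c 1) 0
  rw [trace_fin_two] at t
  simp only [mul_apply, Fin.sum_univ_two, e.1, e.2] at c1 c2
  ext i j
  fin_cases i <;> fin_cases j <;> simp [e.1, e.2]
  · exact (mul_eq_zero.1 (by linear_combination c1 + m.1 0 1 * (ρ g).1 1 1 * two)).resolve_left t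
  · exact (mul_eq_zero.1 (by linear_combination c2 + m.1 1 0 * (ρ g).1 0 0 * two)).resolve_left t

/-- the scalars are invariant -/
theorem one_le_h0 : 1 ≤ rk (H0 Γ ν fun _ => 1) :=
  Cardinal.one_le_iff_ne_zero.2 fun e => one_ne_zero ((Submodule.eq_bot_iff _).1
    (Submodule.rank_eq_zero.1 e) 1 fun g hg => by rw [h g hg]; simp)

/-- a cocycle which vanishes on the kernel is a coboundary -/
theorem b1_ad {c : G → Matrix (Fin 2) (Fin 2) k}
    (hc : ∀ g ∈ Γ, ∀ j ∈ Γ, c (g * j) = c g + ν g (c j)) (h0 : ∀ u ∈ U, c u = 0) : c ∈ B1 Γ ν := by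
  choose! s s1 s2 using fun x hx => (S.im x).1 hx
  have m : ∀ g ∈ Γ, ρ g ∈ Im := fun g hg => (S.im _).2 ⟨g, hg, rfl⟩
  have e : ∀ g ∈ Γ, c (s (ρ g)) = c g := fun g hg => by
    have a := mul_mem (inv_mem hg) (s1 _ (m g hg))
    have := hc g hg _ a
    rwa [mul_inv_cancel_left, h0 _ ((S.hU _).2 ⟨a, by
      rw [S.mul _ (inv_mem hg) _ (s1 _ (m g hg)), s2 _ (m g hg), S.inv hg, inv_mul_cancel]⟩),
      map_zero, add_zero] at this
  obtain ⟨a, ha⟩ := S.std.h1 (c := fun x => c (s x)) fun x hx y hy => by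
    obtain ⟨g, hg, rfl⟩ := (S.im x).1 hx
    obtain ⟨j, hj, rfl⟩ := (S.im y).1 hy
    beta_reduce
    rw [← S.mul g hg j hj, e _ (mul_mem hg hj), e g hg, e j hj, hc g hg j hj, h g hg]
  exact ⟨-a, fun g hg => by
    rw [← e g hg, ha _ (m g hg), show d0 ν (-a) g = ν g (-a) - -a from rfl, map_neg, h g hg]; abel⟩

end Sd

theorem cyc_ad [CharP k 2] {Γ B H U : Subgroup P022.GQ} {ρ : P022.GQ → GL (Fin 2) k}
    (S : Sd Γ B H U ρ Im) {ν : P022.GQ → End k (Matrix (Fin 2) (Fin 2) k)}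
    (h : ∀ g ∈ Γ, ∀ m, ν g m = (ρ g).1 * m * ((ρ g)⁻¹).1) : Cyc1 Γ U ν :=
  fun _ hc h0 _ => S.b1_ad h hc.1 h0

end Vale.Agent.P022K.G2.Sl
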