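import Vale.Agent.P022K.G2.App
import Vale.Agent.P022K.G2.Sl
import Vale.Agent.P022K.G2.Adp

/-!
# P022K, block G2: the chain and the filtrations (row `TRI`; helper42)
-/

set_option linter.all false

noncomputable section

namespace Vale.Agent.P022K.G2

open Module
open Vale.Agent.P022
open Vale.Agent.P022K.GW (ad0 sl)
open Vale.Agent.P022K.RT (ad)

theorem Tri.iso {G k N N' : Type} [Group G] [Field k] [AddCommGroup N] [Module k N]
    [AddCommGroup N'] [Module k N'] {B H : Subgroup G} {ω : G → k} {ρ : G → End k N}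
    {ρ' : G → End k N'} (t : Tri B H ω N' ρ') (le : H ≤ B) (e : N ≃ₗ[k] N')
    (h : ∀ g ∈ B, ∀ n, e (ρ g n) = ρ' g (e n)) : Tri B H ω N ρ := by
  cases t with
  | nil _ _ z => exact .nil _ _ fun n => e.injective ((z _).trans (map_zero e).symm)
  | cons _ _ N₂ ρ₂ θ i π s t c r =>
    refine .cons _ _ N₂ ρ₂ θ (e.symm.toLinearMap ∘ₗ i) (π ∘ₗ e.toLinearMap)
      ⟨e.symm.injective.comp s.inj, s.sur.comp e.surjective, fun n => (s.exa _).trans
        (exists_congr fun a => e.symm_apply_eq.symm), fun g hg a => e.injective ?_,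
        fun g hg n => ?_⟩ t (fun z => (c z).imp
      (fun ⟨r, r1, r2⟩ => ⟨r ∘ₗ e.toLinearMap, fun g hg n => ?_, fun a => by simpa using r2 a⟩)
      fun ⟨g, hg, n, m⟩ => ⟨g, hg, e.symm n, e.injective ?_⟩) r
    · simpa [h g hg] using s.eqi g hg a
    · simpa [h g hg] using s.eqp g hg (e n)
    · simpa [h g hg] using r1 g hg (e n)
    · simpa [h g (le hg)] using m

theorem tri : TRI := by
  intro G k _ _ _ _ _ ι ρ R
  have inj := R.emb.injective
  obtain ⟨w, hw⟩ := P022E.Gp.std0 k ρ.range ⟨inferInstance, by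
    rintro _ ⟨g, rfl⟩
    exact R.det g⟩ R.nsv
  let r : ι.range →* GL (Fin 2) k :=
    ((MulAut.conj w).toMonoidHom.comp ρ).comp (MonoidHom.ofInjective inj).symm.toMonoidHom
  have e : ∀ g, r ⟨ι g, g, rfl⟩ = w * ρ g * w⁻¹ := fun g => congrArg (fun x => w * ρ x * w⁻¹)
    ((MonoidHom.ofInjective inj).symm_apply_apply g)
  have li := Function.leftInverse_invFun inj
  obtain ⟨B, H, U, S⟩ := Sl.exists_sd (ρ := fun g => w * ρ (Function.invFun ι g) * w⁻¹) r
    (by rintro ⟨_, g, rfl⟩; rw [e, li]) (by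
      rwa [MonoidHom.range_comp, MonoidHom.range_eq_top_of_surjective _ (MulEquiv.surjective _),
        ← MonoidHom.range_eq_map, MonoidHom.range_comp])
  obtain rfl : U = ρ.ker.map ι := Subgroup.ext fun g => (S.hU g).trans
    ⟨fun ⟨⟨x, a⟩, b⟩ => ⟨x, by simpa [← a, li x, mul_inv_eq_one] using b, a⟩,
      fun ⟨x, a, b⟩ => ⟨⟨x, b⟩, by simpa [← b, li x, mul_inv_eq_one] using a⟩⟩
  have key : ∀ {N : Type} [AddCommGroup N] [Module k N] (τ : Representation k (GL (Fin 2) k) N),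
      ∃ e : N ≃ₗ[k] N, ∀ x n, e (τ x n) = τ (w * x * w⁻¹) (e n) := fun τ =>
    ⟨.ofLinear (τ w) (τ w⁻¹) (by rw [← End.mul_eq_comp, ← map_mul]; simp [End.one_eq_id])
      (by rw [← End.mul_eq_comp, ← map_mul]; simp [End.one_eq_id]), fun x n => by simp⟩
  obtain ⟨e1, h1⟩ := key (ad (.id _))
  obtain ⟨e0, h0⟩ := key (ad0 (.id _))
  have a1 : ∀ g, ex ι (ad ρ) g = ad (.id _) (ρ (Function.invFun ι g)) := fun g =>
    LinearMap.ext fun m => by
      show _ * _ * (ρ _).1 = _
      rw [map_inv]; rfl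
  have a0 : ∀ g, ex ι (ad0 ρ) g = ad0 (.id _) (ρ (Function.invFun ι g)) := fun g =>
    LinearMap.ext fun m => Subtype.ext (by
      show _ * _ * (ρ _).1 = _
      rw [map_inv]; rfl)
  refine ⟨B, H, S.chn, (S.tri_ad (om_two k) (ν := fun g => ad (.id _) _) fun _ _ _ => rfl).iso S.hb
    e1 fun g _ n => by rw [a1, h1]; rfl, (S.tri_ad0 (om_two k) (ν := fun g => ad0 (.id _) _)
      fun _ _ _ => rfl).iso S.hb e0 fun g _ n => by rw [a0, h0]; rfl,
    (Submodule.eq_bot_iff _).2 fun f hf => ?_⟩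
  have := (Submodule.eq_bot_iff _).1 (S.hm_ad0 (ν := fun g => ad0 (.id _) _) (fun _ _ _ => rfl)
    (om_two k)) (f ∘ₗ e0.symm.toLinearMap) fun g hg n => by
      obtain ⟨n, rfl⟩ := e0.surjective n
      refine (congrArg _ (h0 _ n).symm).trans ?_
      rw [← a0]
      simpa using hf g hg n
  exact LinearMap.ext fun n => by simpa using LinearMap.congr_fun this (e0 n)

end Vale.Agent.P022K.G2
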