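import Vale.Agent.P022K.G2.App
import Vale.Agent.P022K.G2.Adp

/-!
# P022K, block G2: the two languages (rows `ZCT`, `TZC`, `HCH`)
-/

set_option linter.all false

noncomputable section

namespace Vale.Agent.P022K.G2

open NumberField Module
open Vale.Agent.P022 Vale.Agent.P022.C
open Vale.Agent.P027M.S (Inert)
open Vale.Agent.P022E.GW (Ov)
open Vale.Agent.P022K.GW (Id ov orb Ad A1)
open scoped Pointwise

namespace Zt

variable {G k V J : Type} [Group G] [TopologicalSpace G] [IsTopologicalGroup G] [Field k]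
  [AddCommGroup V] [Module k V] {ι : G →* GQ} {σ : Representation k G V} {T : Finset ℕ}
  {x : J → Plc}

/-- a level of `G` gives a level of `GQ` -/
theorem lv_up (h : Topology.IsOpenEmbedding ι) {I : Set G} {W : Subgroup G} (hW : Ad I W)
    {S : Set ℕ} (hS : ∀ i ∈ In S, ∃ g ∈ I, ι g = i) :
    ∃ W', Lv (In S) W' ∧ ∀ g, ι g ∈ W' → g ∈ W := by
  refine ⟨(W.map ι).normalCore, lv_of' inferInstance (GW.Pl.core_open (h.isOpenMap _ hW.opn)) ?_,
    fun g hg => (Subgroup.mem_map_iff_mem h.injective).1 (Subgroup.normalCore_le _ hg)⟩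
  rintro i ⟨l, a, P, b, c⟩ g
  obtain ⟨j, hj, e⟩ := hS _ ⟨l, a, g • P, GW.ov_smul b g, GW.Pl.inert_conj c g⟩
  exact ⟨j, hW.inc j hj, e⟩

theorem lv_up0 (h : Topology.IsOpenEmbedding ι) {I : Set G} {W : Subgroup G} (hW : Ad I W) :
    ∃ W', Lv ∅ W' ∧ ∀ g, ι g ∈ W' → g ∈ W :=
  (lv_up h hW (S := Set.univ) (by rintro _ ⟨_, a, -⟩; exact (a trivial).elim)).imp
    fun _ e => ⟨e.1.mono (Set.empty_subset _), e.2⟩

/-- a level of `GQ` gives a level of `G` -/
theorem lv_dn (h : Topology.IsOpenEmbedding ι) {W : Subgroup GQ} (hW : Lv (In T) W) :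
    Ad (GW.In ι (ov T)) (W.comap ι) :=
  ⟨hW.nrm.comap ι, hW.opn.preimage h.continuous, fun _ ⟨l, P, a, b, c⟩ =>
    hW.sub ⟨l, fun m => b ⟨l, m, a⟩, P, a, c⟩⟩

theorem in_dn (lv : Le (In T) ⊤ ι.range) {A : Set Id} {l : ℕ} {P : Id} (hl : l ∉ T) (o : Ov l P)
    (hA : P ∉ A) {i : GQ} (hi : Inert P i) : ∃ g ∈ GW.In ι A, ι g = i := by
  obtain ⟨W, hW, e⟩ := lv
  obtain ⟨g, rfl⟩ := e i trivial (hW.sub ⟨l, hl, P, o, hi⟩)
  exact ⟨g, ⟨l, P, o, hA, hi⟩, rfl⟩

theorem not_ov {l : ℕ} {P : Id} (hl : l ∉ T) (o : Ov l P) : P ∉ ov T := fun ⟨_, a, b⟩ =>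
  hl (GW.Pl.ov_uniq b o ▸ a)

theorem in_T (lv : Le (In T) ⊤ ι.range) : ∀ i ∈ In T, ∃ g ∈ GW.In ι (ov T), ι g = i :=
  fun _ ⟨_, a, _, b, c⟩ => in_dn lv a b (not_ov a b) c

/-- the representatives as elements of `Ab T` -/
def xs (hx : Reps ι.range (Ab T) x) (i : J) : Ab T := ⟨x i, Rps.self hx i⟩

theorem xs_ex (hx : Reps ι.range (Ab T) x) (y : Ab T) : ∃ i g, pP ι T g (xs hx i) = y := by
  obtain ⟨i, _, ⟨g, rfl⟩, e⟩ := hx.ex y y.2
  exact ⟨i, g, Subtype.ext e.symm⟩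

theorem xs_fix (hx : Reps ι.range (Ab T) x) {i : J} {g : G} (h : ι g ∈ Dv ι.range x i) :
    pP ι T g (xs hx i) = xs hx i := Subtype.ext h.2

/-- functions on the places from functions on the group -/
theorem wd (hx : Reps ι.range (Ab T) x) (f : J → G → V)
    (hf : ∀ i g d, ι d ∈ Dv ι.range x i → f i (g * d) = f i g) {i i' : J} {g g' : G}
    (e : pP ι T g' (xs hx i') = pP ι T g (xs hx i)) : f i' g' = f i g := by
  have k : x i = ι (g⁻¹ * g') • x i' := by
    rw [map_mul, mul_smul, show ι g' • x i' = ι g • x i from congrArg Subtype.val e, map_inv,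
      inv_smul_smul]
  obtain rfl := hx.un _ _ _ ⟨_, rfl⟩ k
  rw [← hf _ g _ ⟨⟨_, rfl⟩, k.symm⟩, mul_inv_cancel_left]

theorem pp_mul (g h : G) (y : Ab T) : pP ι T (g * h) y = pP ι T g (pP ι T h y) := by
  rw [map_mul]; rfl

theorem pp_inv (g : G) (y : Ab T) : pP ι T g⁻¹ (pP ι T g y) = y := by
  rw [← pp_mul, inv_mul_cancel, map_one]; rfl

/-- the general upper bound -/
theorem up (h : Topology.IsOpenEmbedding ι) (h0 : 0 ∈ T) (hx : Reps ι.range (Ab T) x) {I : Set G}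
    {S : Set ℕ} (hS : ∀ i ∈ In S, ∃ g ∈ I, ι g = i) (Y : Submodule k ((GQ → V) × (J → V)))
    (hY : ∀ y ∈ Tn (In S) ι.range (Dv ι.range x) (ex ι σ), (∀ g ∈ I, y.1 (ι g) = 0) → y ∈ Y) :
    Module.rank k (GW.Zc (pP ι T) I σ) ≤ rk Y := by
  classical
  let y₀ : Ab T := ⟨ip (Classical.arbitrary _), mem_ab_ip.2 h0⟩
  have v := Function.leftInverse_invFun h.injective
  let F : (Ab T → V) →ₗ[k] (GQ → V) × (J → V) :=
    { toFun := fun a => (fun γ => if γ ∈ ι.range then a (pP ι T (Function.invFun ι γ) y₀) -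
        σ (Function.invFun ι γ) (a y₀) else 0, fun i => -a (xs hx i))
      map_add' := fun a b => Prod.ext (funext fun γ => by
        by_cases m : γ ∈ ι.range
        · simp only [if_pos m, Pi.add_apply, map_add, Prod.fst_add]; abel
        · simp only [if_neg m, Pi.add_apply, Prod.fst_add, add_zero])
        (funext fun i => neg_add _ _)
      map_smul' := fun r a => Prod.ext (funext fun γ => by
        by_cases m : γ ∈ ι.range
        · simp only [if_pos m, Pi.smul_apply, map_smul, Prod.smul_fst, smul_sub, RingHom.id_apply]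
        · simp only [if_neg m, Pi.smul_apply, Prod.smul_fst, smul_zero])
        (funext fun i => (smul_neg r (a (xs hx i))).symm) }
  have key : ∀ (a : Ab T → V) (c : G → V), (∀ g y, a (pP ι T g y) = c g + σ g (a y)) →
      ∀ g, (F a).1 (ι g) = c g := fun a c e g =>
    (if_pos ⟨g, rfl⟩).trans (by rw [v, e, add_sub_cancel_right])
  refine (F.restrict (p := GW.Zc (pP ι T) I σ) (q := Y) fun a ha => ?_).rank_le_of_injective
    ((injective_iff_map_eq_zero _).2 fun a e0 => Subtype.ext (funext fun y => ?_))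
  · obtain ⟨c, ⟨W, hW, h1⟩, e⟩ := ha
    have c1 : c 1 = 0 := by simpa using e 1 y₀
    have cW : ∀ w ∈ W, c w = 0 := fun w hw => by rw [← one_mul w, h1 w hw, c1]
    obtain ⟨W', hW', h2⟩ := lv_up h hW hS
    refine hY _ ⟨⟨?_, fun g hg => if_neg hg, W', hW', ?_⟩, fun i => ?_⟩ fun g hg => by
      rw [key a c e, cW g (hW.inc g hg)]
    · rintro _ ⟨g, rfl⟩ _ ⟨j, rfl⟩
      have := e (g * j) y₀
      rw [pp_mul, e, e, map_add, map_mul, End.mul_apply, ← add_assoc, add_left_inj] at this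
      rw [← map_mul, key a c e, key a c e, key a c e, ex_ap ι σ h.injective, this]
    · rintro _ ⟨g, rfl⟩ m
      rw [key a c e, cW g (h2 g m)]
    · rintro _ ⟨⟨g, rfl⟩, m⟩
      have := e g (xs hx i)
      rw [xs_fix hx ⟨⟨g, rfl⟩, m⟩] at this
      rw [key a c e, d0_apply, ex_ap ι σ h.injective]
      show c g = σ g (-a (xs hx i)) - -a (xs hx i)
      rw [map_neg, eq_sub_of_add_eq this.symm]
      abel
  · obtain ⟨c, -, e⟩ := a.2
    obtain ⟨i, g, rfl⟩ := xs_ex hx y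
    have e1 : F a = 0 := congrArg Subtype.val e0
    have e2 : a.1 (xs hx i) = 0 := neg_eq_zero.1 (congrFun (congrArg Prod.snd e1) i)
    rw [e, ← key _ c e, e1, e2, map_zero]
    exact add_zero _

theorem rk_quo {X : Type} [AddCommGroup X] [Module k X] (Z B : Submodule k X) :
    Module.rank k (Z ⧸ B.submoduleOf Z) = rq Z B := by
  have e := (LinearMap.quotKerEquivRange (B.mkQ ∘ₗ Z.subtype)).rank_eq
  rwa [LinearMap.range_comp, Submodule.range_subtype, LinearMap.ker_comp, Submodule.ker_mkQ] at e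

end Zt

open Zt

theorem zct : ZCT := by
  intro G k V _ _ _ _ _ _ ι σ T J κ x l P h h0 lv hx hP
  refine up h h0 hx (S := T ∪ Set.range l) ?_ _ fun y hy e => ⟨hy, fun l' a P' b c i hi => ?_⟩
  · rintro i ⟨l', a, P', b, c⟩
    refine in_dn lv (fun m => a (Or.inl m)) b ?_ c
    rintro (m | ⟨j, g, rfl⟩)
    · exact not_ov (fun m => a (Or.inl m)) b m
    · exact a (Or.inr ⟨j, GW.Pl.ov_uniq (GW.ov_smul (hP j) _) b⟩)
  · obtain ⟨g, hg, rfl⟩ := in_dn lv (A := ov T ∪ orb ι P) a b (by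
      rintro (m | ⟨j, g, rfl⟩)
      · exact not_ov a b m
      · exact c j _ ⟨g, rfl⟩ rfl) hi
    exact e g hg

theorem tzc : TZC := by
  intro G k V _ _ _ _ _ _ ι σ T J x h h0 lv hx
  refine le_antisymm (up h h0 hx (in_T lv) _ fun y hy _ => hy) ?_
  choose o s e using xs_ex hx
  let F : ((GQ → V) × (J → V)) →ₗ[k] Ab T → V :=
    { toFun := fun z y => z.1 (ι (s y)) - σ (s y) (z.2 (o y))
      map_add' := fun a b => funext fun y => by
        simp only [Prod.fst_add, Prod.snd_add, Pi.add_apply, map_add]; abel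
      map_smul' := fun r a => funext fun y => by
        simp only [Prod.smul_fst, Prod.smul_snd, Pi.smul_apply, map_smul, smul_sub,
          RingHom.id_apply] }
  have co : ∀ z ∈ Tn (In T) ι.range (Dv ι.range x) (ex ι σ), ∀ g j,
      z.1 (ι (g * j)) = z.1 (ι g) + σ g (z.1 (ι j)) := fun z hz g j => by
    rw [map_mul, hz.1.1 _ ⟨g, rfl⟩ _ ⟨j, rfl⟩, ex_ap ι σ h.injective]
  have key : ∀ z ∈ Tn (In T) ι.range (Dv ι.range x) (ex ι σ), ∀ i g,
      F z (pP ι T g (xs hx i)) = z.1 (ι g) - σ g (z.2 i) := fun z hz i g =>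
    wd hx (fun i g => z.1 (ι g) - σ g (z.2 i)) (fun i g d hd => by
      rw [co z hz, hz.2 i _ hd, d0_apply, ex_ap ι σ h.injective, map_sub, map_mul, End.mul_apply]
      abel) (e _)
  refine (F.restrict (p := Tn (In T) ι.range (Dv ι.range x) (ex ι σ))
    (q := GW.Zc (pP ι T) (GW.In ι (ov T)) σ) fun z hz => ?_).rank_le_of_injective
    ((injective_iff_map_eq_zero _).2 fun z e0 => Subtype.ext ?_)
  · obtain ⟨W, hW, h1⟩ := hz.1.2.2
    refine ⟨fun g => z.1 (ι g), ⟨_, lv_dn h hW, fun w hw g => ?_⟩, fun g y => ?_⟩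
    · exact (co z hz g w).trans (by rw [h1 _ ⟨w, rfl⟩ hw, map_zero, add_zero])
    · rw [← e y, ← pp_mul, key z hz, key z hz, co z hz, map_sub, map_mul, End.mul_apply,
        add_sub_assoc]
  · have e1 : ∀ i g, z.1.1 (ι g) - σ g (z.1.2 i) = 0 := fun i g =>
      (key _ z.2 i g).symm.trans (congrFun (congrArg Subtype.val e0) _)
    have e2 : z.1.1 1 = 0 := by simpa using co _ z.2 1 1
    have e3 : ∀ i, z.1.2 i = 0 := fun i => by simpa [e2] using e1 i 1
    refine Prod.ext (funext fun γ => ?_) (funext e3)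
    by_cases m : γ ∈ ι.range
    · obtain ⟨g, rfl⟩ := m
      simpa [e3] using e1 (o ⟨ip (Classical.arbitrary _), mem_ab_ip.2 h0⟩) g
    · exact z.2.1.2.1 γ m

theorem hch : HCH := by
  intro G k V _ _ _ _ _ _ ι σ T J x h h0 lv hx hr
  let y₀ : Ab T := ⟨ip (Classical.arbitrary _), mem_ab_ip.2 h0⟩
  have v := Function.leftInverse_invFun h.injective
  have xa := ex_ap ι σ h.injective
  let Zf : (G → Ab T → V) →ₗ[k] G → G → V :=
    { toFun := fun e g j => e g y₀ + σ g (e j (pP ι T g⁻¹ y₀)) - e (g * j) y₀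
      map_add' := fun a b => funext fun g => funext fun j => by
        simp only [Pi.add_apply, map_add]; abel
      map_smul' := fun r a => funext fun g => funext fun j => by
        simp only [Pi.smul_apply, map_smul, smul_sub, smul_add, RingHom.id_apply] }
  let F : (G → Ab T → V) →ₗ[k] (GQ → GQ → V) × (J → GQ → V) :=
    { toFun := fun e => (fun γ δ => Zf e (Function.invFun ι γ) (Function.invFun ι δ),
        fun i γ => e (Function.invFun ι γ) (xs hx i))
      map_add' := fun a b => by rw [map_add]; rfl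
      map_smul' := fun r a => by rw [map_smul]; rfl }
  have key : ∀ (e : G → Ab T → V) (z : G → G → V),
      (∀ g j y, e (g * j) y = e g y + σ g (e j (pP ι T g⁻¹ y)) + z g j) →
      ∀ g j, (F e).1 (ι g) (ι j) = -z g j := fun e z he g j => by
    show e _ y₀ + σ _ (e _ (pP ι T _ y₀)) - e _ y₀ = _
    simp only [v g, v j, he]
    abel
  have key2 : ∀ (e : G → Ab T → V) i g, (F e).2 i (ι g) = e g (xs hx i) := fun e i g =>
    congrArg (e · (xs hx i)) (v g)
  refine le_of_eq_of_le ?_ (rq_le (Z := GW.Z2 (pP ι T) (GW.In ι (ov T)) σ)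
    (B := GW.B2 (pP ι T) (GW.In ι (ov T)) σ) F ?_ ?_)
  · exact rk_quo _ _
  · rintro e ⟨⟨U, hU, h1⟩, z, ⟨W, hW, h2⟩, he⟩
    obtain ⟨W', hW', h3⟩ := lv_up h hW (in_T lv)
    obtain ⟨U', hU', h4⟩ := lv_up0 h hU
    refine ⟨⟨?_, W', hW', ?_⟩, fun i => ⟨⟨U', hU', ?_⟩, ?_⟩⟩
    · rintro _ ⟨g, rfl⟩ _ ⟨j, rfl⟩ _ ⟨m, rfl⟩
      have a1 := he (g * j) m y₀
      have a2 := he g (j * m) y₀
      rw [he g j, mul_inv_rev, pp_mul, map_mul, End.mul_apply] at a1
      rw [he j m, map_add, map_add, ← mul_assoc, a1] at a2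
      simp only [← map_mul, key e z he, xa, map_neg]
      rw [← sub_eq_zero] at a2 ⊢
      rw [← a2]
      abel
    · rintro _ ⟨g, rfl⟩ _ ⟨j, rfl⟩ _ ⟨w, rfl⟩ m
      simp only [← map_mul, key e z he, (h2 w (h3 w m) g j).1, (h2 w (h3 w m) g j).2, and_self]
    · rintro _ ⟨⟨g, rfl⟩, -⟩ _ ⟨⟨w, rfl⟩, -⟩ m
      rw [← map_mul, key2, key2, (h1 w (h4 w m) g _).1]
    · rintro _ ⟨⟨g, rfl⟩, m⟩ _ ⟨⟨j, rfl⟩, -⟩
      have f : pP ι T g⁻¹ (xs hx i) = xs hx i := by
        conv_lhs => rw [← xs_fix hx ⟨⟨g, rfl⟩, m⟩, pp_inv]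
      rw [d1_apply, ← map_mul, key e z he, key2, key2, key2, xa, he, f]
      abel
  rintro e ⟨⟨U, hU, h1⟩, z, -, he⟩ ⟨c, ⟨W, hW, h2⟩, a, h3, h4⟩
  obtain ⟨W', hW', h5⟩ := hr.lv
  let e' : G → Ab T → V := fun g y => e g y - c (ι g)
  have co : ∀ g j y, e' (g * j) y = e' g y + σ g (e' j (pP ι T g⁻¹ y)) := fun g j y => by
    have := h3 _ ⟨g, rfl⟩ _ ⟨j, rfl⟩
    rw [key e z he, d1_apply, xa, ← map_mul, neg_eq_iff_eq_neg] at this
    simp only [e', he, this, map_sub]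
    abel
  choose o s ho using xs_ex hx
  let A : Ab T → V := fun y => e' (s y) y - σ (s y) (a (o y))
  have hA : ∀ i g, A (pP ι T g (xs hx i)) = e' g (pP ι T g (xs hx i)) - σ g (a i) := fun i g => by
    have := wd hx (fun i g => e' g (pP ι T g (xs hx i)) - σ g (a i)) (fun i g d hd => by
      have := h4 i _ hd
      rw [key2, d0_apply, xa] at this
      rw [co, pp_mul, xs_fix hx hd, pp_inv, show e' d (xs hx i) = σ d (a i) - a i from
        sub_eq_of_eq_add' this, map_sub, map_mul, End.mul_apply]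
      abel) (ho (pP ι T g (xs hx i)))
    rwa [ho] at this
  have hA' : ∀ g y, A (pP ι T g y) = e' g (pP ι T g y) + σ g (A y) := fun g y => by
    rw [← ho y, ← pp_mul, hA, hA, co, pp_mul, pp_inv, map_sub (σ g) (e' _ _), map_mul,
      End.mul_apply, add_sub_assoc]
  have cW : ∀ w, ι w ∈ W → ∀ g, c (ι (g * w)) = c (ι g) := fun w hw g => by
    rw [map_mul, h2 _ ⟨g, rfl⟩ _ ⟨w, rfl⟩ hw]
  have n : ∀ {W : Subgroup GQ}, Lv (In T) W → Ad (∅ : Set G) (W.comap ι) := fun hW =>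
    ⟨(lv_dn h hW).nor, (lv_dn h hW).opn, fun _ m => m.elim⟩
  refine ⟨fun g => c (ι g), A, ⟨_, lv_dn h hW, cW⟩,
    ⟨_, hU.inf (n (hW.inf hW')), fun w hw y => ?_⟩, fun g y => ?_⟩
  · have e1 : ∀ y, e' 1 y = 0 := fun y => by simpa using co 1 1 y
    have e2 : e' w (pP ι T w y) = e' 1 (pP ι T w y) := by
      simp only [e']
      rw [← (h1 w hw.1 1 _).1, ← cW w hw.2.1 1, one_mul]
    rw [hA', e2, e1, zero_add, ← xa, h5 _ ⟨w, rfl⟩ hw.2.2, End.one_apply]
  · have := hA' g (pP ι T g⁻¹ y)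
    rw [← pp_mul, mul_inv_cancel, map_one, Equiv.Perm.one_apply] at this
    rw [this]
    simp only [e']
    abel

end Vale.Agent.P022K.G2
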