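import Vale.Agent.P022K.G2.Two
import Vale.Agent.P022K.G2.Lib
import Vale.Agent.P022K.G2.Tri
import Vale.Agent.P022K.G2.Zct

/-!
# P022K, block G2: the outputs, closed (helper42)
-/

namespace Vale.Agent.P022K.G2

theorem two2C : TWO2 := two2 (oka tri) zct chi2 twl2

theorem obo2C : OBO2 := obo2 (oka tri) tri tzc hch chi2

end Vale.Agent.P022K.G2
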