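import Vale.Agent.P022K.G2.Plc
import Vale.Agent.P022K.RT.St

/-!
# P022K, block G2: the outputs for `p = 2` and the rows of the application
-/

set_option linter.all false

noncomputable section

namespace Vale.Agent.P022K.G2

open NumberField Module
open Vale.Agent.P022 Vale.Agent.P022.C
open Vale.Agent.P027M.S (Inert)
open Vale.Agent.P022D.W (dec)
open Vale.Agent.P022E.GW (Ov Fb)
open Vale.Agent.P022K.GW (Id ov orb ad0 sl Tw)
open Vale.Agent.P022K.RT (ad)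
open scoped Pointwise

section

variable {G : Type} [Group G] (ι : G →* GQ)

/-- a representation of `G`, read on `GQ` -/
def ex {k V : Type} [Field k] [AddCommGroup V] [Module k V] (σ : Representation k G V) :
    GQ → End k V := fun g => σ (Function.invFun ι g)

theorem ex_ap {k V : Type} [Field k] [AddCommGroup V] [Module k V] (σ : Representation k G V)
    (h : Function.Injective ι) (g : G) : ex ι σ (ι g) = σ g :=
  congrArg σ (Function.leftInverse_invFun h g)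

/-- the action on the places above `T` (with the infinite places if `0 ∈ T`) -/
def pP (T : Finset ℕ) : G →* Equiv.Perm (Ab T) where
  toFun g :=
    { toFun := fun y => ⟨ι g • y.1, Plc.ab_smul y.2 _⟩
      invFun := fun y => ⟨ι g⁻¹ • y.1, Plc.ab_smul y.2 _⟩
      left_inv := fun y => Subtype.ext (by simp)
      right_inv := fun y => Subtype.ext (by simp) }
  map_one' := Equiv.ext fun y => Subtype.ext (by simp)
  map_mul' g g' := Equiv.ext fun y => Subtype.ext (by simp [mul_smul])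

theorem pP_coe (T : Finset ℕ) (g : G) (y : Ab T) : (pP ι T g y).1 = ι g • y.1 := rfl

end

/-- the residual hypothesis -/
structure Rs {G k : Type} [Group G] [TopologicalSpace G] [Field k] (ι : G →* GQ)
    (ρ : G →* GL (Fin 2) k) : Prop where
  emb : Topology.IsOpenEmbedding ι
  opn : IsOpen {g | ρ g = 1}
  det : ∀ g, (ρ g).1.det = 1
  nsv : ¬ IsSolvable ρ.range

/-! ### the outputs -/

/-- **Taylor Wiles primes**, variable determinant; `x` lists the places above `T` -/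
def TWO2 : Prop := ∀ (G k : Type) [Group G] [TopologicalSpace G] [IsTopologicalGroup G]
  [Field k] [Finite k] [CharP k 2] (ι : G →* GQ) (ρ : G →* GL (Fin 2) k), Rs ι ρ →
  ∃ T₀ : Finset ℕ, (∀ l ∈ T₀, l = 0 ∨ l.Prime) ∧ ∀ T : Finset ℕ, T₀ ⊆ T →
    (∀ l ∈ T, l = 0 ∨ l.Prime) → ∀ (J : Type) [Fintype J] (x : J → Ab T) (D : J → Set G),
    RT.Rp (pP ι T) x D → ∃ r₀ : ℕ, ∀ r ≥ r₀, ∀ (n : ℕ) (S : Finset ℕ) (Z : Subgroup G), Z.Normal →
      IsOpen (Z : Set G) → (∃ m : ℕ, ∀ g : G, g ^ 2 ^ m ∈ Z) →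
      ∃ (l : Fin r → ℕ) (P : Fin r → Id) (φ : Fin r → G), Function.Injective l ∧
        (∀ i, Tw ι ρ (2 ^ n) S (l i) (P i) (φ i) ∧ l i ∉ T ∧ φ i ∈ Z) ∧
        Module.Finite k (GW.Zc (pP ι T) (GW.In ι (ov T ∪ orb ι P)) (ad ρ)) ∧
        finrank k (GW.Zc (pP ι T) (GW.In ι (ov T ∪ orb ι P)) (ad ρ)) ≤ 2 * r + 3 + Fintype.card J

/-- **the obstruction space**, fixed determinant, infinity is framed -/
def OBO2 : Prop := ∀ (G k : Type) [Group G] [TopologicalSpace G] [IsTopologicalGroup G]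
  [Field k] [Finite k] [CharP k 2] (ι : G →* GQ) (ρ : G →* GL (Fin 2) k), Rs ι ρ →
  ∃ T₀ : Finset ℕ, (∀ l ∈ T₀, l = 0 ∨ l.Prime) ∧ ∀ T : Finset ℕ, T₀ ⊆ T →
    (∀ l ∈ T, l = 0 ∨ l.Prime) → 0 ∈ T ∧ 2 ∈ T ∧ (∀ g ∈ GW.In ι (ov T), ρ g = 1) ∧
      Module.Finite k (GW.Zc (pP ι T) (GW.In ι (ov T)) (ad0 ρ)) ∧
      Module.Finite k (GW.H2 (pP ι T) (GW.In ι (ov T)) (ad0 ρ)) ∧
      finrank k (GW.H2 (pP ι T) (GW.In ι (ov T)) (ad0 ρ)) + 3 ≤
        finrank k (GW.Zc (pP ι T) (GW.In ι (ov T)) (ad0 ρ))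

/-! ### rows: the two languages -/

/-- framed tangent vectors, with auxiliary places -/
def ZCT : Prop := ∀ (G k V : Type) [Group G] [TopologicalSpace G] [IsTopologicalGroup G]
  [Field k] [AddCommGroup V] [Module k V] (ι : G →* GQ) (σ : Representation k G V) (T : Finset ℕ)
  (J κ : Type) (x : J → Plc) (l : κ → ℕ) (P : κ → Id), Topology.IsOpenEmbedding ι → 0 ∈ T →
  Le (In T) ⊤ ι.range → Reps ι.range (Ab T) x → (∀ j, Ov (l j) (P j)) →
  Module.rank k (GW.Zc (pP ι T) (GW.In ι (ov T ∪ orb ι P)) σ) ≤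
    rk (TQ T ι.range (Dv ι.range x) l P (ex ι σ))

/-- framed tangent vectors, from below -/
def TZC : Prop := ∀ (G k V : Type) [Group G] [TopologicalSpace G] [IsTopologicalGroup G]
  [Field k] [AddCommGroup V] [Module k V] (ι : G →* GQ) (σ : Representation k G V) (T : Finset ℕ)
  (J : Type) (x : J → Plc), Topology.IsOpenEmbedding ι → 0 ∈ T →
  Le (In T) ⊤ ι.range → Reps ι.range (Ab T) x →
  Module.rank k (GW.Zc (pP ι T) (GW.In ι (ov T)) σ) =
    rk (Tn (In T) ι.range (Dv ι.range x) (ex ι σ))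

/-- the obstruction space -/
def HCH : Prop := ∀ (G k V : Type) [Group G] [TopologicalSpace G] [IsTopologicalGroup G]
  [Field k] [AddCommGroup V] [Module k V] (ι : G →* GQ) (σ : Representation k G V) (T : Finset ℕ)
  (J : Type) (x : J → Plc), Topology.IsOpenEmbedding ι → 0 ∈ T →
  Le (In T) ⊤ ι.range → Reps ι.range (Ab T) x → Rp (In T) ι.range (ex ι σ) →
  Module.rank k (GW.H2 (pP ι T) (GW.In ι (ov T)) σ) ≤
    hc (In T) ι.range (Dv ι.range x) (ex ι σ)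

/-! ### rows: the group -/

/-- the chain and the filtrations -/
def TRI : Prop := ∀ (G k : Type) [Group G] [TopologicalSpace G] [Field k] [Finite k] [CharP k 2]
  (ι : G →* GQ) (ρ : G →* GL (Fin 2) k), Rs ι ρ → ∃ B H : Subgroup GQ,
    Chn 2 ι.range B H (ρ.ker.map ι) ∧ Tri B H (om 2 k) _ (ex ι (ad ρ)) ∧
      Tri B H (om 2 k) _ (ex ι (ad0 ρ)) ∧ Hm ι.range (ex ι (ad0 ρ)) (om 2 k) = ⊥

/-- large sets -/
def OKA : Prop := ∀ (G k : Type) [Group G] [TopologicalSpace G] [IsTopologicalGroup G]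
  [Field k] [Finite k] [CharP k 2] (ι : G →* GQ) (ρ : G →* GL (Fin 2) k), Rs ι ρ →
  ∃ T₀ : Finset ℕ, (∀ l ∈ T₀, l = 0 ∨ l.Prime) ∧ ∀ T : Finset ℕ, T₀ ⊆ T →
    (∀ l ∈ T, l = 0 ∨ l.Prime) → Ok 2 T ι.range (ρ.ker.map ι) (ex ι (ad ρ)) ∧
      Ok 2 T ι.range (ρ.ker.map ι) (ex ι (ad0 ρ)) ∧ Bg ι.range T

/-- one more prime which sees a given class -/
def KIL : Prop := ∀ (G k : Type) [Group G] [TopologicalSpace G] [IsTopologicalGroup G]
  [Field k] [Finite k] [CharP k 2] (ι : G →* GQ) (ρ : G →* GL (Fin 2) k), Rs ι ρ →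
  ∀ (n : ℕ) (S : Finset ℕ) (Z : Subgroup G), Z.Normal → IsOpen (Z : Set G) →
    (∃ m : ℕ, ∀ g : G, g ^ 2 ^ m ∈ Z) → (∃ l P φ, Tw ι ρ (2 ^ n) S l P φ ∧ φ ∈ Z) ∧
    ∀ (I : Set GQ) (y : GQ → Matrix (Fin 2) (Fin 2) k), y ∈ Z1 I ι.range (ex ι (ad ρ)) →
      (∀ l P φ, Tw ι ρ (2 ^ n) S l P φ → φ ∈ Z → y (ι φ) ∈ LinearMap.range (ad ρ φ - 1)) →
      ∃ (a : Matrix (Fin 2) (Fin 2) k) (χ : GQ → k), ∀ g ∈ ι.range,
        y g = d0 (ex ι (ad ρ)) a g + χ g • (1 : Matrix (Fin 2) (Fin 2) k)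

end Vale.Agent.P022K.G2
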