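import Vale.Agent.P022K.G2.Cone
import Vale.Agent.P022K.G2.Tr2

/-!
# P022K, block G2: lemmas of group theory for the rows `CHI0`, `CHI`, `LLB`, `LB`
-/

set_option linter.all false

noncomputable section

namespace Vale.Agent.P022K.G2.Cx

open Module Cardinal Cn Sb

theorem can {a b c : Cardinal.{0}} (f : c < ℵ₀) (h : a + c ≤ b + c) : a ≤ b :=
  (add_le_add_iff_of_lt_aleph0 f).1 h

theorem sum_fin {ι : Type} [Fintype ι] {f : ι → Cardinal.{0}} (h : ∀ i, f i < ℵ₀) :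
    ∑ i, f i < ℵ₀ :=
  Finset.sum_induction f (· < ℵ₀) (fun _ _ => add_lt_aleph0) aleph0_pos fun i _ => h i

theorem ar_cone {h Z c s L T r H : Cardinal.{0}} (e : h + Z + c = s + L + T) (fZ : Z < ℵ₀)
    (fc : c < ℵ₀) (fT : T < ℵ₀) : h + r ≤ T + H ↔ s + L + r ≤ H + Z + c :=
  ⟨fun w => can fT (calc
      _ = s + L + T + r := by ring
      _ = h + r + (Z + c) := by rw [← e]; ring
      _ ≤ T + H + (Z + c) := add_le_add_left w _
      _ = _ := by ring), fun w => can (add_lt_aleph0 fZ fc) (calc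
      _ = h + Z + c + r := by ring
      _ = s + L + r + T := by rw [e]; ring
      _ ≤ H + Z + c + T := add_le_add_left w _
      _ = _ := by ring)⟩

variable {G : Type} [Group G] [TopologicalSpace G] {k : Type} [Field k] {N₁ N N₂ : Type}
  [AddCommGroup N₁] [Module k N₁] [AddCommGroup N] [Module k N] [AddCommGroup N₂] [Module k N₂]
  {I : Set G} {Γ A U : Subgroup G} {ι : Type} {D : ι → Subgroup G} {ρ₁ : G → End k N₁}
  {ρ : G → End k N} {ρ₂ : G → End k N₂} {π : N →ₗ[k] N₂} {ω θ : G → k}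

omit [TopologicalSpace G] in
theorem fin_hm (f : Module.Finite k N) : rk (Hm A ρ ω) < ℵ₀ :=
  (Submodule.rank_le (Hm A ρ ω)).trans_lt (Module.rank_lt_aleph0 k (Dual k N))

theorem fin_cr (f : Module.Finite k N) (n : ℕ) : n * Module.rank k N < ℵ₀ :=
  mul_lt_aleph0 natCast_lt_aleph0 (Module.rank_lt_aleph0 k N)

theorem fin_tn [Finite ι] (f : Module.Finite k N) (h : rk (Z1 I Γ ρ) < ℵ₀) :
    rk (Tn I Γ D ρ) < ℵ₀ :=
  (Submodule.rank_mono (s := Tn I Γ D ρ) (t := (Z1 I Γ ρ).comap (.fst _ _ _))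
    fun _ m => m.1).trans_lt
    ((rk_fst _).trans_lt (add_lt_aleph0 h (Module.rank_lt_aleph0 k _)))

theorem pd_res (h : Pd I Γ U ρ ω) (a : A ≤ Γ) : Pd ∅ A U ρ ω :=
  ⟨h.fin, h.rp.mono (Set.empty_subset _) a, prr G k N I Γ U A ρ h.rp h.prj h.nz h.tri a,
    h.nz.mono a, h.le.mono (Set.empty_subset _) a, fun u m => h.tri u (a m), h.mu.mono a,
    fun u m => h.om u (a m)⟩

omit [TopologicalSpace G] in
theorem st_cj {Ω : Type} [MulAction G Ω] (x : Ω) {g : G} (hg : g ∈ Γ) (a : G) :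
    a ∈ Γ ⊓ MulAction.stabilizer G x ↔ g * a * g⁻¹ ∈ Γ ⊓ MulAction.stabilizer G (g • x) :=
  and_congr ⟨fun h => Γ.mul_mem (Γ.mul_mem hg h) (Γ.inv_mem hg), fun h => by
    simpa [mul_assoc] using Γ.mul_mem (Γ.mul_mem (Γ.inv_mem hg) h) hg⟩ (by simp [mul_smul])

theorem loc2 {Ω : Type} [MulAction G Ω] {x : Ω} {z : G → G → N} (r : Rp I Γ ρ)
    (hz : z ∈ Z2 I Γ ρ) {g : G} (hg : g ∈ Γ) (h : z ∈ B2 ∅ (Γ ⊓ MulAction.stabilizer G x) ρ) :
    z ∈ B2 ∅ (Γ ⊓ MulAction.stabilizer G (g • x)) ρ :=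
  cj2 G k N I Γ _ _ ρ z g r hz hg inf_le_left (st_cj x hg) h

section ses

variable {i : N₁ →ₗ[k] N} (S : Ses Γ ρ₁ ρ ρ₂ i π)
include S

omit [TopologicalSpace G] in
theorem ses_mono (a : A ≤ Γ) : Ses A ρ₁ ρ ρ₂ i π :=
  ⟨S.inj, S.sur, S.exa, fun g m => S.eqi g (a m), fun g m => S.eqp g (a m)⟩

omit [TopologicalSpace G] in
theorem tri1 {g : G} (hg : g ∈ Γ) (h : ρ g = 1) : ρ₁ g = 1 :=
  LinearMap.ext fun a => S.inj (by rw [S.eqi g hg, h]; rfl)

omit [TopologicalSpace G] in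
theorem tri2 {g : G} (hg : g ∈ Γ) (h : ρ g = 1) : ρ₂ g = 1 :=
  LinearMap.ext fun a => by
    obtain ⟨n, rfl⟩ := S.sur a
    rw [← S.eqp g hg, h]; rfl

theorem rp1 (r : Rp I Γ ρ) : Rp I Γ ρ₁ :=
  ⟨tri1 S (one_mem _) r.one, fun g hg j hj => LinearMap.ext fun a => S.inj (by
      rw [S.eqi _ (mul_mem hg hj), r.mul' hg hj, ← S.eqi j hj, ← S.eqi g hg]; rfl),
    r.lv.imp fun _ hW => ⟨hW.1, fun w hw m => tri1 S hw (hW.2 w hw m)⟩⟩

theorem rp2 (r : Rp I Γ ρ) : Rp I Γ ρ₂ :=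
  ⟨tri2 S (one_mem _) r.one, fun g hg j hj => LinearMap.ext fun a => by
      obtain ⟨n, rfl⟩ := S.sur a
      rw [← S.eqp _ (mul_mem hg hj), r.mul' hg hj, S.eqp g hg, S.eqp j hj]; rfl,
    r.lv.imp fun _ hW => ⟨hW.1, fun w hw m => tri2 S hw (hW.2 w hw m)⟩⟩

omit [TopologicalSpace G] in
theorem rank_ses : Module.rank k N = Module.rank k N₁ + Module.rank k N₂ := by
  rw [← π.rank_range_add_rank_ker, LinearMap.range_eq_top.2 S.sur, rank_top, add_comm,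
    ← rank_range_of_injective i S.inj, show LinearMap.ker π = LinearMap.range i from
      Submodule.ext S.exa]

omit [TopologicalSpace G] in
theorem hm_ker : rk (Hm Γ ρ ω ⊓ LinearMap.ker i.dualMap) = rk (Hm Γ ρ₂ ω) := by
  obtain ⟨⟨r, hr⟩, s, hs⟩ := ex_rs S
  refine Eq.trans (congrArg rk (le_antisymm ?_ ?_)) (rank_map_eq
    (LinearMap.dualMap_injective_of_surjective S.sur) (Hm Γ ρ₂ ω))
  · rintro f ⟨h1, h2⟩
    have e : ∀ n, f (s (π n)) = f n := fun n => by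
      rw [← sub_eq_zero, ← map_sub, ← ir S hr (n := s (π n) - n) (by rw [map_sub, hs, sub_self])]
      exact LinearMap.congr_fun h2 _
    refine ⟨f.comp s, fun g hg m => ?_, LinearMap.ext e⟩
    obtain ⟨n, rfl⟩ := S.sur m
    rw [← S.eqp g hg]
    exact (e _).trans ((h1 g hg n).trans (congrArg _ (e n).symm))
  · rintro _ ⟨f, hf, rfl⟩
    exact ⟨fun g hg n => (congrArg f (S.eqp g hg n)).trans (hf g hg _), LinearMap.ext fun a =>
      (congrArg f (pi_i S a)).trans (map_zero f)⟩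

end ses

omit [Group G] [TopologicalSpace G] in
theorem rank_dual : Module.rank k (Dual k k) = 1 := by
  rw [← Module.finrank_eq_rank, Subspace.dual_finrank_eq, Module.finrank_self, Nat.cast_one]

omit [TopologicalSpace G] in
theorem hm_one : rk (Hm A (ch θ) ω) ≤ 1 := (Submodule.rank_le (Hm A (ch θ) ω)).trans_eq rank_dual

omit [TopologicalSpace G] in
theorem hm_zero (h : ¬∀ g ∈ A, θ g = ω g) : rk (Hm A (ch θ) ω) = 0 := by
  push Not at h
  obtain ⟨g, hg, n⟩ := h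
  refine Submodule.rank_eq_zero.2 (eq_bot_iff.2 fun f hf => LinearMap.ext_ring ?_)
  have := hf g hg 1
  rw [ch, LinearMap.smul_apply, map_smul, smul_eq_mul] at this
  exact (mul_eq_mul_right_iff.1 this).resolve_left n

omit [TopologicalSpace G] in
theorem one_hm (h : ∀ g ∈ A, θ g = ω g) : 1 ≤ rk (Hm A (ch θ) ω) :=
  Cardinal.one_le_iff_ne_zero.2 fun e => one_ne_zero (LinearMap.congr_fun ((Submodule.eq_bot_iff _).1
    (Submodule.rank_eq_zero.1 e) LinearMap.id fun g hg n => by rw [← h g hg]; rfl) (1 : k))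

variable {i : k →ₗ[k] N}

/-- the global step -/
theorem step_g [Finite ι] (S : Ses Γ (ch θ) ρ ρ₂ i π) (f : Module.Finite k N) (r : Rp I Γ ρ)
    (le : ∀ j, D j ≤ Γ) (f1 : rk (Z1 I Γ (ch θ)) < ℵ₀) (f2 : rk (Z1 I Γ ρ₂) < ℵ₀)
    (h1 : hc I Γ D (ch θ) + Module.rank k k = rk (Tn I Γ D (ch θ)) + rk (Hm Γ (ch θ) ω))
    (h2 : hc I Γ D ρ₂ + Module.rank k N₂ ≤ rk (Tn I Γ D ρ₂) + rk (Hm Γ ρ₂ ω))
    (c : (∀ b ∈ Γ, θ b = ω b) → (∃ r ∈ Hm Γ ρ ω, ∀ a, r (i a) = a) ∨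
      rq ((Zc I Γ D ρ).map (pc π)) (Bc I Γ D ρ₂) + 1 ≤ hc I Γ D ρ₂) :
    hc I Γ D ρ + Module.rank k N ≤ rk (Tn I Γ D ρ) + rk (Hm Γ ρ ω) := by
  obtain ⟨s1, s2⟩ := step G k k N N₂ I Γ ι D _ ρ ρ₂ i π (rp1 S r) r (rp2 S r) S le
  have f' := Module.Finite.of_surjective π S.sur
  have a : rk (Hm Γ ρ₂ ω) ≤ rk (Hm Γ ρ ω) := (hm_ker S).symm.trans_le (Submodule.rank_mono inf_le_left)
  have key : rq ((Zc I Γ D ρ).map (pc π)) (Bc I Γ D ρ₂) + rk (Hm Γ (ch θ) ω) + rk (Hm Γ ρ₂ ω) ≤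
      hc I Γ D ρ₂ + rk (Hm Γ ρ ω) := by
    by_cases e : ∀ b ∈ Γ, θ b = ω b
    · rcases c e with ⟨w, hw, k1⟩ | w
      · rw [add_assoc, add_comm (rk _), ← hm_ker S]
        exact add_le_add s2 ((add_le_add_right hm_one _).trans (rk_succ inf_le_left hw fun m =>
          one_ne_zero ((k1 1).symm.trans (LinearMap.congr_fun m.2 1))))
      · exact add_le_add ((add_le_add_right hm_one _).trans w) a
    · rw [hm_zero e, add_zero]
      exact add_le_add s2 a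
  rw [rank_ses S]
  refine can (add_lt_aleph0 (add_lt_aleph0 (fin_tn (D := D) inferInstance f1)
    (fin_tn (D := D) f' f2)) (fin_hm (A := Γ) (ρ := ρ₂) (ω := ω) f')) ?_
  generalize rq ((Zc I Γ D ρ).map (pc π)) (Bc I Γ D ρ₂) = A at s1 key
  calc _ = hc I Γ D ρ + rk (Tn I Γ D (ch θ)) + rk (Tn I Γ D ρ₂) + (Module.rank k k +
        Module.rank k N₂ + rk (Hm Γ ρ₂ ω)) := by ring
    _ ≤ _ := add_le_add_left s1 _
    _ = hc I Γ D (ch θ) + Module.rank k k + (A + rk (Tn I Γ D ρ) + Module.rank k N₂ +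
        rk (Hm Γ ρ₂ ω)) := by ring
    _ = A + rk (Hm Γ (ch θ) ω) + rk (Hm Γ ρ₂ ω) + (rk (Tn I Γ D (ch θ)) + rk (Tn I Γ D ρ) +
        Module.rank k N₂) := by rw [h1]; ring
    _ ≤ _ := add_le_add_left key _
    _ = hc I Γ D ρ₂ + Module.rank k N₂ + (rk (Hm Γ ρ ω) + rk (Tn I Γ D (ch θ)) +
        rk (Tn I Γ D ρ)) := by ring
    _ ≤ _ := add_le_add_left h2 _
    _ = _ := by ring

/-- the local step -/
theorem step_l (S : Ses A (ch θ) ρ ρ₂ i π) (r : Rp I A ρ) {d : Cardinal}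
    (h1 : rk (Z1 I A (ch θ)) = rk (Hm A (ch θ) ω) + d * Module.rank k k)
    (h2 : rk (Hm A ρ₂ ω) + d * Module.rank k N₂ ≤ rk (Z1 I A ρ₂))
    (h3 : G2.h2 I A (ch θ) ≤ 1 ∧ ((∃ g ∈ A, θ g ≠ ω g) → G2.h2 I A (ch θ) = 0)) :
    rk (Hm A ρ ω) + d * Module.rank k N ≤ rk (Z1 I A ρ) := by
  obtain ⟨s1, s2⟩ := lst G k k N N₂ I A _ ρ ρ₂ i π (rp1 S r) r (rp2 S r) S
  obtain ⟨h, fh, k1, k2⟩ : ∃ h < ℵ₀, rk (Z1 I A (ch θ)) + rk (Z1 I A ρ₂) ≤ rk (Z1 I A ρ) + h ∧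
      rk (Hm A ρ ω) + h ≤ rk (Hm A (ch θ) ω) + rk (Hm A ρ₂ ω) := by
    by_cases e : Hm A ρ ω ≤ LinearMap.ker i.dualMap
    · refine ⟨_, h3.1.trans_lt one_lt_aleph0, s1, (add_comm _ _).trans_le (add_le_add ?_
        ((Submodule.rank_mono (le_inf le_rfl e)).trans_eq (hm_ker S)))⟩
      by_cases e : ∀ g ∈ A, θ g = ω g
      · exact h3.1.trans (one_hm e)
      · push Not at e
        exact (h3.2 e).trans_le bot_le
    · obtain ⟨f, hf, n⟩ := SetLike.not_le_iff_exists.1 e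
      replace n : f (i 1) ≠ 0 := fun w => n (LinearMap.ext_ring w)
      have fi : ∀ a, f (i a) = a * f (i 1) := fun a => by
        rw [← smul_eq_mul, ← map_smul, ← map_smul, smul_eq_mul, mul_one]
      have e : ∀ g ∈ A, θ g = ω g := fun g hg => mul_right_cancel₀ n (by
        rw [← hf g hg, ← S.eqi g hg, fi (ch θ g 1), ch_apply, mul_one])
      refine ⟨0, aleph0_pos, (s2 ((f (i 1))⁻¹ • f) (fun a => ?_) fun g hg m => ?_).trans_eq
        (add_zero _).symm, (add_zero _).trans_le ((rk_map i.dualMap (Hm A ρ ω)).symm.trans_le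
          (add_le_add (((Submodule.rank_le _).trans_eq rank_dual).trans (one_hm e))
            (hm_ker S).le))⟩
      · rw [LinearMap.smul_apply, fi a, smul_eq_mul, mul_comm, mul_inv_cancel_right₀ n]
      · rw [LinearMap.smul_apply, LinearMap.smul_apply, hf g hg, ch_apply, e g hg, smul_eq_mul,
          smul_eq_mul, mul_left_comm]
  rw [rank_ses S]
  refine can fh (le_trans ?_ k1)
  calc _ = rk (Hm A ρ ω) + h + (d * Module.rank k k + d * Module.rank k N₂) := by ring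
    _ ≤ _ := add_le_add_left k2 _
    _ = rk (Z1 I A (ch θ)) + (rk (Hm A ρ₂ ω) + d * Module.rank k N₂) := by rw [h1]; ring
    _ ≤ _ := add_le_add_right h2 _

end Vale.Agent.P022K.G2.Cx
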