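import Vale.Agent.P022K.G2.StbA

/-!
# P022K, block G2: long exact sequences (rows `CONE`, `STEP`, `GAIN`, `LST`, `FINZ`)
-/

set_option linter.all false

noncomputable section

namespace Vale.Agent.P022K.G2

open Module

namespace Cn

open Sb

section lin

variable {k : Type} [Field k] {X Y : Type} [AddCommGroup X] [Module k X] [AddCommGroup Y]
  [Module k Y]

theorem rk_map (f : X →ₗ[k] Y) (Z : Submodule k X) :
    rk (Z.map f) + rk (Z ⊓ LinearMap.ker f) = rk Z := by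
  have h := LinearMap.rank_range_add_rank_ker (f ∘ₗ Z.subtype)
  rw [LinearMap.range_comp, Submodule.range_subtype, LinearMap.ker_comp] at h
  refine Eq.trans (congrArg _ ?_) h
  rw [show (LinearMap.ker f).comap Z.subtype = (Z ⊓ LinearMap.ker f).comap Z.subtype by
    rw [Submodule.comap_inf, Submodule.comap_subtype_self, top_inf_eq]]
  exact (Submodule.comapSubtypeEquivOfLe inf_le_left).rank_eq.symm

theorem rq_map (f : X →ₗ[k] Y) (Z : Submodule k X) (B : Submodule k Y) :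
    rq (Z.map f) B + rk (Z ⊓ B.comap f) = rk Z := by
  have := rk_map (B.mkQ ∘ₗ f) Z
  rwa [Submodule.map_comp, LinearMap.ker_comp, Submodule.ker_mkQ] at this

theorem rq_split (f : X →ₗ[k] Y) (Z : Submodule k X) {B : Submodule k X} {B' : Submodule k Y}
    (h : B ≤ B'.comap f) : rq (Z.map f) B' + rq (Z ⊓ B'.comap f) B = rq Z B := by
  have := rk_map (B.mapQ B' f h) (Z.map B.mkQ)
  rwa [← Submodule.map_comp, Submodule.mapQ_mkQ, Submodule.map_comp, Submodule.ker_mapQ,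
    Submodule.map_inf_eq_map_inf_comap, Submodule.comap_map_mkQ, sup_eq_right.2 h] at this

theorem rq_sub {Z Z' B : Submodule k X} (h : ∀ z ∈ Z, ∃ y ∈ Z', z - y ∈ B) : rq Z B ≤ rq Z' B :=
  Submodule.rank_mono (by
    rintro _ ⟨z, hz, rfl⟩
    obtain ⟨y, hy, e⟩ := h z hz
    exact ⟨y, hy, ((Submodule.Quotient.eq B).2 e).symm⟩)

theorem rk_succ {Z Z' : Submodule k X} (h : Z ≤ Z') {y : X} (hy : y ∈ Z') (n : y ∉ Z) :
    rk Z + 1 ≤ rk Z' := by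
  rw [← rq_add Z' Z, inf_eq_right.2 h, add_comm]
  exact add_le_add_left (Cardinal.one_le_iff_ne_zero.2 fun e => n (rq_eq_zero.1 e hy)) _

theorem rq_succ {Z Z' B : Submodule k X} (h : Z ≤ Z') {y : X} (hy : y ∈ Z')
    (n : ∀ z ∈ Z, y - z ∉ B) : rq Z B + 1 ≤ rq Z' B :=
  rk_succ (Submodule.map_mono h) ⟨y, hy, rfl⟩ fun ⟨z, hz, e⟩ =>
    n z hz ((Submodule.Quotient.eq B).1 e.symm)

theorem rk_pi2 {J : Type} [Fintype J] (Z : J → Submodule k X) :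
    rk (Submodule.pi Set.univ Z) = ∑ j, rk (Z j) := by
  rw [← rk_pi', ← rank_range_of_injective (LinearMap.pi fun j => (Z j).subtype ∘ₗ
    LinearMap.proj (φ := fun j => Z j) j) fun a b e => funext fun j => Subtype.ext (congrFun e j)]
  exact congrArg rk (le_antisymm (fun z hz => ⟨fun j => ⟨z j, hz j trivial⟩, rfl⟩)
    (by rintro _ ⟨z, rfl⟩ j _; exact (z j).2))

theorem rk_fst (Z : Submodule k X) : rk (Z.comap (LinearMap.fst k X Y)) = rk Z + Module.rank k Y := by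
  rw [← rank_prod', ← rank_range_of_injective (Z.subtype.prodMap (LinearMap.id (M := Y)))
    (Z.injective_subtype.prodMap Function.injective_id)]
  exact congrArg rk (le_antisymm (fun z hz => ⟨(⟨z.1, hz⟩, z.2), rfl⟩)
    (by rintro _ ⟨z, rfl⟩; exact z.1.2))

/-- extension by zero -/
def ind {G : Type} (S : Set G) : (G → X) →ₗ[k] G → X where
  toFun := S.indicator
  map_add' := Set.indicator_add' S
  map_smul' r f := funext fun g => by by_cases h : g ∈ S <;> simp [h]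

end lin

variable {G : Type} [Group G] [TopologicalSpace G] {k : Type} [Field k] {N₁ N N₂ : Type}
  [AddCommGroup N₁] [Module k N₁] [AddCommGroup N] [Module k N] [AddCommGroup N₂] [Module k N₂]
  {I : Set G} {Γ A : Subgroup G} {ι : Type} {D : ι → Subgroup G} {ρ₁ : G → End k N₁}
  {ρ : G → End k N} {ρ₂ : G → End k N₂} {i : N₁ →ₗ[k] N} {π : N →ₗ[k] N₂}

/-- the differential of the cone -/
def dc (ι : Type) (ρ : G → End k N) :
    ((G → N) × (ι → N)) →ₗ[k] (G → G → N) × (ι → G → N) :=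
  (d1 ρ ∘ₗ .fst _ _ _).prod (.pi fun j => .fst _ _ _ - d0 ρ ∘ₗ .proj j ∘ₗ .snd _ _ _)

omit [TopologicalSpace G] in
theorem dc_snd (x : (G → N) × (ι → N)) (j : ι) (g : G) :
    (dc ι ρ x).2 j g = x.1 g - d0 ρ (x.2 j) g := rfl

theorem mem_Bc {y : (G → G → N) × (ι → G → N)} : y ∈ Bc I Γ D ρ ↔ ∃ x : (G → N) × (ι → N),
    x.1 ∈ C1 k N I Γ ∧ (∀ g ∈ Γ, ∀ h ∈ Γ, y.1 g h = (dc ι ρ x).1 g h) ∧
      ∀ j, ∀ d ∈ D j, y.2 j d = (dc ι ρ x).2 j d :=
  ⟨fun ⟨c, hc, a, h1, h2⟩ => ⟨(c, -a), hc, h1, fun j d hd => by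
      rw [h2 j d hd, dc_snd]; simp [sub_eq_add_neg]⟩,
    fun ⟨x, hc, h1, h2⟩ => ⟨x.1, hc, -x.2, h1, fun j d hd => by
      rw [h2 j d hd, dc_snd]; simp [sub_eq_add_neg]⟩⟩

theorem dc_zc (r : Rp I Γ ρ) (le : ∀ j, D j ≤ Γ) {x : (G → N) × (ι → N)}
    (h : x.1 ∈ C1 k N I Γ) : dc ι ρ x ∈ Zc I Γ D ρ :=
  ⟨d1_mem r h, fun j => ⟨sub_mem (C1.mono h (Set.empty_subset _) (le j))
    (d0_c1 (r.mono (Set.empty_subset _) (le j)) _), fun g hg l hl => by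
      change _ = d1 ρ (x.1 - d0 ρ (x.2 j)) g l
      rw [map_sub, Pi.sub_apply, Pi.sub_apply, d1_d0 r _ (le j hg) (le j hl), sub_zero]
      rfl⟩⟩

theorem d1_z1 {c : G → N} (h : c ∈ Z1 I Γ ρ) {g l : G} (hg : g ∈ Γ) (hl : l ∈ Γ) :
    d1 ρ c g l = 0 := by
  rw [d1_apply, h.1 g hg l hl]; abel

theorem c1_map {c : G → N} (h : c ∈ C1 k N I Γ) (f : N → N₂) : (fun g => f (c g)) ∈ C1 k N₂ I Γ :=
  h.imp fun _ hW => ⟨hW.1, fun g hg w hw m => congrArg f (hW.2 g hg w hw m)⟩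

theorem c2_map {z : G → G → N} (h : z ∈ C2 k N I Γ) (f : N → N₂) :
    (fun g l => f (z g l)) ∈ C2 k N₂ I Γ :=
  h.imp fun _ hW => ⟨hW.1, fun g hg l hl w hw m =>
    ⟨congrArg f (hW.2 g hg l hl w hw m).1, congrArg f (hW.2 g hg l hl w hw m).2⟩⟩

theorem d1_map {c : G → N} {g l : G} (e : π (ρ g (c l)) = ρ₂ g (π (c l))) :
    π (d1 ρ c g l) = d1 ρ₂ (fun x => π (c x)) g l := by
  rw [d1_apply, d1_apply, map_add, map_sub, e]

/-- the map on the one cochains of the cone -/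
def pt (G ι : Type) (π : N →ₗ[k] N₂) : ((G → N) × (ι → N)) →ₗ[k] (G → N₂) × (ι → N₂) :=
  (π.compLeft G).prodMap (π.compLeft ι)

section eqv

variable (e : ∀ g ∈ Γ, ∀ n, π (ρ g n) = ρ₂ g (π n)) (le : ∀ j, D j ≤ Γ)
include e le

theorem dc_map (x : (G → N) × (ι → N)) :
    (∀ g ∈ Γ, ∀ h ∈ Γ, π ((dc ι ρ x).1 g h) = (dc ι ρ₂ (pt G ι π x)).1 g h) ∧
      ∀ j, ∀ d ∈ D j, π ((dc ι ρ x).2 j d) = (dc ι ρ₂ (pt G ι π x)).2 j d :=
  ⟨fun g hg _ _ => d1_map (e g hg _), fun j d hd => by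
    rw [dc_snd, d0_apply, map_sub, map_sub, e d (le j hd)]; rfl⟩

theorem bc_map : Bc I Γ D ρ ≤ (Bc I Γ D ρ₂).comap (pc π) := fun y hy => by
  obtain ⟨x, hx, h1, h2⟩ := mem_Bc.1 hy
  exact mem_Bc.2 ⟨pt G ι π x, c1_map hx π,
    fun g hg l hl => (congrArg π (h1 g hg l hl)).trans ((dc_map e le x).1 g hg l hl),
    fun j d hd => (congrArg π (h2 j d hd)).trans ((dc_map e le x).2 j d hd)⟩

theorem tn_map {x : (G → N) × (ι → N)} (h : x ∈ Tn I Γ D ρ) : pt G ι π x ∈ Tn I Γ D ρ₂ :=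
  ⟨⟨fun g hg l hl => (congrArg π (h.1.1 g hg l hl)).trans (by rw [map_add, e g hg]; rfl),
    fun g hg => (congrArg π (h.1.2.1 g hg)).trans (map_zero π), h.1.2.2.imp fun _ hW =>
      ⟨hW.1, fun w hw m => (congrArg π (hW.2 w hw m)).trans (map_zero π)⟩⟩,
    fun j d hd => (congrArg π (h.2 j d hd)).trans (by rw [d0_apply, map_sub, e d (le j hd)]; rfl)⟩

end eqv

theorem zc_map {y : (G → G → N) × (ι → G → N)} (h : y ∈ Zc I Γ D ρ)
    (e1 : ∀ g ∈ Γ, ∀ l ∈ Γ, ∀ m ∈ Γ, π (ρ g (y.1 l m)) = ρ₂ g (π (y.1 l m)))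
    (e2 : ∀ j, ∀ g ∈ D j, ∀ l ∈ D j, π (ρ g (y.2 j l)) = ρ₂ g (π (y.2 j l))) :
    pc π y ∈ Zc I Γ D ρ₂ :=
  ⟨⟨fun g hg l hl m hm => by
      have := congrArg π (h.1.1 g hg l hl m hm)
      rwa [map_add, map_add, e1 g hg l hl m hm] at this, c2_map h.1.2 π⟩,
    fun j => ⟨c1_map (h.2 j).1 π, fun g hg l hl =>
      (congrArg π ((h.2 j).2 g hg l hl)).trans (d1_map (e2 j g hg l hl))⟩⟩

section ses

variable (S : Ses Γ ρ₁ ρ ρ₂ i π) {r : N →ₗ[k] N₁} (hr : ∀ a, r (i a) = a)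
include S

omit [TopologicalSpace G] in
theorem pi_i (a : N₁) : π (i a) = 0 := (S.exa _).2 ⟨a, rfl⟩

omit [TopologicalSpace G] in
theorem ex_rs : (∃ r : N →ₗ[k] N₁, ∀ a, r (i a) = a) ∧ ∃ s : N₂ →ₗ[k] N, ∀ a, π (s a) = a :=
  ⟨(i.exists_leftInverse_of_injective (LinearMap.ker_eq_bot.2 S.inj)).imp fun _ =>
    LinearMap.congr_fun, (π.exists_rightInverse_of_surjective
      (LinearMap.range_eq_top.2 S.sur)).imp fun _ => LinearMap.congr_fun⟩

include hr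

omit [TopologicalSpace G] in
theorem ir {n : N} (h : π n = 0) : i (r n) = n := by
  obtain ⟨a, rfl⟩ := (S.exa n).1 h
  rw [hr]

omit [TopologicalSpace G] in
theorem rr {g : G} (hg : g ∈ Γ) {n : N} (h : π n = 0) : r (ρ g n) = ρ₁ g (r n) := by
  obtain ⟨a, rfl⟩ := (S.exa n).1 h
  rw [← S.eqi g hg, hr, hr]

/-- a cocycle of the cone whose image is a coboundary comes from the submodule -/
theorem lift (R : Rp I Γ ρ) (le : ∀ j, D j ≤ Γ) {y : (G → G → N) × (ι → G → N)}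
    (hy : y ∈ Zc I Γ D ρ) {x : (G → N) × (ι → N)} (hx : x.1 ∈ C1 k N I Γ)
    (h1 : ∀ g ∈ Γ, ∀ l ∈ Γ, π (y.1 g l) = (dc ι ρ₂ (pt G ι π x)).1 g l)
    (h2 : ∀ j, ∀ d ∈ D j, π (y.2 j d) = (dc ι ρ₂ (pt G ι π x)).2 j d) :
    pc r (y - dc ι ρ x) ∈ Zc I Γ D ρ₁ ∧ y - pc i (pc r (y - dc ι ρ x)) ∈ Bc I Γ D ρ := by
  have a1 : ∀ g ∈ Γ, ∀ l ∈ Γ, π ((y - dc ι ρ x).1 g l) = 0 := fun g hg l hl =>
    (map_sub π _ _).trans (sub_eq_zero.2 ((h1 g hg l hl).trans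
      ((dc_map S.eqp le x).1 g hg l hl).symm))
  have a2 : ∀ j, ∀ d ∈ D j, π ((y - dc ι ρ x).2 j d) = 0 := fun j d hd =>
    (map_sub π _ _).trans (sub_eq_zero.2 ((h2 j d hd).trans ((dc_map S.eqp le x).2 j d hd).symm))
  exact ⟨zc_map (sub_mem hy (dc_zc R le hx)) (fun g hg l hl m hm => rr S hr hg (a1 l hl m hm))
    fun j g hg l hl => rr S hr (le j hg) (a2 j l hl), mem_Bc.2 ⟨x, hx, fun g hg l hl =>
      (congrArg (y.1 g l - ·) (ir S hr (a1 g hg l hl))).trans (sub_sub_cancel _ _), fun j d hd =>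
      (congrArg (y.2 j d - ·) (ir S hr (a2 j d hd))).trans (sub_sub_cancel _ _)⟩⟩

/-- the connecting map -/
theorem conn (R : Rp I Γ ρ) (le : ∀ j, D j ≤ Γ) {s : N₂ →ₗ[k] N} (hs : ∀ a, π (s a) = a) :
    (Tn I Γ D ρ₂).map (pc r ∘ₗ dc ι ρ ∘ₗ pt G ι s) ≤ Zc I Γ D ρ₁ ⊓ (Bc I Γ D ρ).comap (pc i) ∧
    rk (Tn I Γ D ρ₁) + rk (Tn I Γ D ρ₂) ≤
      rq ((Tn I Γ D ρ₂).map (pc r ∘ₗ dc ι ρ ∘ₗ pt G ι s)) (Bc I Γ D ρ₁) + rk (Tn I Γ D ρ) := by
  have ps : ∀ x, pt G ι π (pt G ι s x) = x := fun x =>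
    Prod.ext (funext fun _ => hs _) (funext fun _ => hs _)
  have a1 : ∀ x ∈ Tn I Γ D ρ₂, ∀ g ∈ Γ, ∀ l ∈ Γ, π ((dc ι ρ (pt G ι s x)).1 g l) = 0 :=
    fun x hx g hg l hl => by rw [(dc_map S.eqp le _).1 g hg l hl, ps]; exact d1_z1 hx.1 hg hl
  have a2 : ∀ x ∈ Tn I Γ D ρ₂, ∀ j, ∀ d ∈ D j, π ((dc ι ρ (pt G ι s x)).2 j d) = 0 :=
    fun x hx j d hd => by rw [(dc_map S.eqp le _).2 j d hd, ps]; exact sub_eq_zero.2 (hx.2 j d hd)
  constructor
  · rintro _ ⟨x, hx, rfl⟩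
    have c := c1_map (Z1.c1 hx.1) s
    exact ⟨zc_map (dc_zc R le c) (fun g hg l hl m hm => rr S hr hg (a1 x hx l hl m hm))
      fun j g hg l hl => rr S hr (le j hg) (a2 x hx j l hl), mem_Bc.2 ⟨pt G ι s x, c,
        fun g hg l hl => ir S hr (a1 x hx g hg l hl), fun j d hd => ir S hr (a2 x hx j d hd)⟩⟩
  rw [← rq_map (pc r ∘ₗ dc ι ρ ∘ₗ pt G ι s) (Tn I Γ D ρ₂) (Bc I Γ D ρ₁), ← rk_map (pt G ι π)
    (Tn I Γ D ρ), add_left_comm, add_comm (rk (Tn I Γ D ρ₁))]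
  refine add_le_add_right (add_le_add (Submodule.rank_mono fun x hxb => ?_)
    (rk_le (Z' := _ ⊓ _) (pt G ι i) (fun x hx => ⟨tn_map S.eqi le hx, Prod.ext (funext fun _ => pi_i S _)
      (funext fun _ => pi_i S _)⟩) fun x y e => Prod.ext
        (funext fun g => S.inj (congrFun (congrArg Prod.fst e) g))
        (funext fun g => S.inj (congrFun (congrArg Prod.snd e) g)))) _
  obtain ⟨hx, hb⟩ := hxb
  obtain ⟨w, hw, h1, h2⟩ := mem_Bc.1 hb
  have c := sub_mem (c1_map (Z1.c1 hx.1) s) (c1_map hw i)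
  refine ⟨((Γ : Set G).indicator (pt G ι s x - pt G ι i w).1, (pt G ι s x - pt G ι i w).2),
    ⟨z1_of R.one c fun g hg l hl => ?_, fun j d hd => ?_⟩, Prod.ext (funext fun g => ?_)
      (funext fun j => ?_)⟩
  · change (dc ι ρ (pt G ι s x - pt G ι i w)).1 g l = 0
    rw [map_sub, Prod.fst_sub, Pi.sub_apply, Pi.sub_apply, ← (dc_map S.eqi le w).1 g hg l hl,
      ← h1 g hg l hl, sub_eq_zero]
    exact (ir S hr (a1 x hx g hg l hl)).symm
  · refine (Set.indicator_of_mem (le j hd) _).trans (sub_eq_zero.1 ?_)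
    change (dc ι ρ (pt G ι s x - pt G ι i w)).2 j d = 0
    rw [map_sub, Prod.snd_sub, Pi.sub_apply, Pi.sub_apply, ← (dc_map S.eqi le w).2 j d hd,
      ← h2 j d hd, sub_eq_zero]
    exact (ir S hr (a2 x hx j d hd)).symm
  · change π (Set.indicator _ _ g) = _
    by_cases hg : g ∈ Γ
    · rw [Set.indicator_of_mem hg]
      exact (map_sub π _ _).trans ((congrArg₂ _ (hs _) (pi_i S _)).trans (sub_zero _))
    · rw [Set.indicator_of_notMem hg, map_zero, hx.1.2.1 g hg]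
  · exact (map_sub π _ _).trans ((congrArg₂ _ (hs _) (pi_i S _)).trans (sub_zero _))

end ses

theorem tn_empty : rk (Tn I Γ (Empty.elim : Empty → Subgroup G) ρ) = rk (Z1 I Γ ρ) :=
  le_antisymm (rk_le (.fst _ _ _) (fun _ h => h.1) fun _ _ e => Prod.ext e (Subsingleton.elim _ _))
    (rk_le (.inl _ _ _) (fun _ h => ⟨h, fun j => j.elim⟩) LinearMap.inl_injective)

end Cn

open Cn Sb

theorem cone : CONE := by
  intro G _ _ k _ N _ _ I Γ ι _ D ρ r le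
  let L := Submodule.pi Set.univ fun i => Z1 ∅ (D i) ρ
  let m : ((G → N) × (ι → N)) →ₗ[k] ι → G → N :=
    .pi fun j => ind (D j) ∘ₗ .proj j ∘ₗ .snd _ _ _ ∘ₗ dc ι ρ
  have hm : ∀ x j, ∀ d ∈ D j, m x j d = (dc ι ρ x).2 j d := fun x j d hd =>
    Set.indicator_of_mem hd _
  have h1 := rq_split (.fst _ _ _) (Zc I Γ D ρ) (B := Bc I Γ D ρ) (B' := B2 I Γ ρ)
    fun y ⟨c, hc, _, h, _⟩ => ⟨c, hc, h⟩
  have h2 := rq_map (.inr k (G → G → N) _) L (Bc I Γ D ρ)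
  have h3 := rk_map m ((Z1 I Γ ρ).comap (.fst _ _ _))
  have e1 : (Zc I Γ D ρ).map (.fst _ _ _) = Sh I Γ D ρ := le_antisymm
    (by rintro _ ⟨y, hy, rfl⟩; exact ⟨hy.1, (Submodule.mem_iInf _).2 fun j => ⟨_, hy.2 j⟩⟩)
    fun z hz => by
      choose c hc using (Submodule.mem_iInf _).1 hz.2
      exact ⟨(z, c), ⟨hz.1, hc⟩, rfl⟩
  have e2 : rq (Zc I Γ D ρ ⊓ (B2 I Γ ρ).comap (.fst _ _ _)) (Bc I Γ D ρ) =
      rq (L.map (.inr k (G → G → N) _)) (Bc I Γ D ρ) := by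
    refine le_antisymm (rq_sub fun y ⟨hy, c, hc, h⟩ => ⟨_, ⟨fun j => (D j : Set G).indicator
      (y.2 j - c), fun j _ => z1_of r.one (sub_mem (hy.2 j).1 (C1.mono hc (Set.empty_subset _)
        (le j))) fun g hg l hl => ?_, rfl⟩, c, hc, 0, fun g hg l hl => (sub_zero _).trans
          (h g hg l hl), fun j d hd => ?_⟩) (rq_mono ?_)
    · rw [map_sub, Pi.sub_apply, Pi.sub_apply, ← (hy.2 j).2 g hg l hl, sub_eq_zero]
      exact h g (le j hg) l (le j hl)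
    · simp [hd]
    · rintro _ ⟨c, hc, rfl⟩
      exact ⟨⟨zero_mem _, fun j => ⟨Z1.c1 (hc j trivial), fun g hg l hl =>
        (d1_z1 (hc j trivial) hg hl).symm⟩⟩, zero_mem (B2 I Γ ρ)⟩
  have e3 : ((Z1 I Γ ρ).comap (.fst _ _ _)).map m = L ⊓ (Bc I Γ D ρ).comap (.inr _ _ _) := by
    refine le_antisymm ?_ fun b ⟨hb, h⟩ => ?_
    · rintro _ ⟨x, hx, rfl⟩
      have := (dc_zc r le (x := x) (Z1.c1 hx)).2
      exact ⟨fun j _ => z1_of r.one (this j).1 fun g hg l hl => ((this j).2 g hg l hl).symm.trans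
        (d1_z1 hx (le j hg) (le j hl)), mem_Bc.2 ⟨x, Z1.c1 hx, fun g hg l hl =>
          (d1_z1 hx hg hl).symm, hm x⟩⟩
    · obtain ⟨x, hx, h1, h2⟩ := mem_Bc.1 h
      refine ⟨((Γ : Set G).indicator x.1, x.2), z1_of r.one hx fun g hg l hl =>
        (h1 g hg l hl).symm, funext₂ fun j d => ?_⟩
      by_cases hd : d ∈ D j
      · exact (hm _ j d hd).trans ((congrArg (· - d0 ρ (x.2 j) d)
          (Set.indicator_of_mem (le j hd) _)).trans
          (h2 j d hd).symm)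
      · exact (Set.indicator_of_notMem hd _).trans ((hb j trivial).2.1 d hd).symm
  have e4 : (Z1 I Γ ρ).comap (.fst _ _ _) ⊓ LinearMap.ker m = Tn I Γ D ρ :=
    Submodule.ext fun x => and_congr_right fun _ => ⟨fun h j d hd =>
      sub_eq_zero.1 ((hm x j d hd).symm.trans (congrFun₂ h j d)), fun h => funext₂ fun j d =>
        Set.indicator_apply_eq_zero.2 fun hd => sub_eq_zero.2 (h j d hd)⟩
  rw [e1, e2] at h1
  rw [e3, e4, rk_fst, rk_pi, Finset.sum_const, nsmul_eq_mul, Finset.card_univ] at h3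
  rw [hc, ← h1, add_assoc, ← h3, ← rk_pi2, ← h2, sh]
  simp only [add_assoc]

theorem step : STEP := by
  intro G _ _ k _ N₁ N N₂ _ _ _ _ _ _ I Γ ι D ρ₁ ρ ρ₂ i π _ R _ S le
  obtain ⟨⟨r, hr⟩, s, hs⟩ := ex_rs S
  obtain ⟨c1, c2⟩ := conn S hr R le hs
  refine ⟨?_, rq_mono ?_⟩
  · rw [hc, hc, ← rq_split (pc π) _ (bc_map S.eqp le), ← rq_split (pc i) _ (bc_map S.eqi le),
      add_assoc, add_comm (_ + _) (rq _ _), add_assoc, add_assoc, add_assoc]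
    refine add_le_add_right (add_le_add (rq_sub fun y hyb => ?_)
      (c2.trans (add_le_add_left (rq_mono c1) _))) _
    obtain ⟨hy, hb⟩ := hyb
    obtain ⟨x, hx, h1, h2⟩ := mem_Bc.1 hb
    have ps : pt G ι π (pt G ι s x) = x := Prod.ext (funext fun _ => hs _) (funext fun _ => hs _)
    have := lift S hr R le hy (x := pt G ι s x) (c1_map hx s) (ps.symm ▸ h1) (ps.symm ▸ h2)
    exact ⟨_, ⟨_, this.1, rfl⟩, this.2⟩
  · rintro _ ⟨y, hy, rfl⟩
    exact zc_map hy (fun g hg _ _ _ _ => S.eqp g hg _) fun j g hg _ _ => S.eqp g (le j hg) _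

theorem lst : LST := by
  intro G _ _ k _ N₁ N N₂ _ _ _ _ _ _ I A ρ₁ ρ ρ₂ i π _ R _ S
  obtain ⟨⟨r, hr⟩, s, hs⟩ := ex_rs S
  have c := fun (r : N →ₗ[k] N₁) hr => conn (D := Empty.elim) (r := r) S hr R (fun j => j.elim) hs
  simp only [tn_empty] at c
  refine ⟨(c r hr).2.trans ((add_comm _ _).trans_le (add_le_add_right (rq_le (B := Bc I A Empty.elim ρ₁)
    (B' := B2 I A ρ₁) (.fst _ _ _)
    (fun z hz => ((c r hr).1 hz).1.1) fun z _ ⟨b, hb, h⟩ => ⟨b, hb, 0, h, fun j => j.elim⟩) _)),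
    fun r hr e => (c r hr).2.trans_eq ?_⟩
  rw [rq_eq_zero.2, zero_add]
  rintro _ ⟨x, hx, rfl⟩
  exact bc_map e (fun j => j.elim) (mem_Bc.2 ⟨_, c1_map (Z1.c1 hx.1) s, fun _ _ _ _ => rfl,
    fun _ _ _ => rfl⟩)

theorem gain : GAIN := by
  intro G _ _ k _ N N₂ _ _ _ _ I Γ ι D θ ρ ρ₂ i π j₀ t u n _ R _ S le ht hn H
  classical
  obtain ⟨⟨r, hr⟩, s, hs⟩ := ex_rs S
  let b : ι → G → N := Pi.single j₀ fun g => t g • n
  have b0 : b j₀ = fun g => t g • n := Pi.single_eq_same _ _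
  have b1 : ∀ j ≠ j₀, b j = 0 := fun j hj => Pi.single_eq_of_ne hj _
  have bc : ∀ j, b j ∈ C1 k N ∅ (D j) := fun j => by
    by_cases e : j = j₀
    · rw [e, b0]
      exact c1_map ht.c1 (· • n)
    · rw [b1 j e]
      exact zero_mem _
  have db : ∀ g ∈ D j₀, ∀ l ∈ D j₀, d1 ρ (b j₀) g l = i (cup u t g l) := fun g hg l hl => by
    rw [b0, d1_apply, ht.1 g hg l hl, map_smul, cup, mul_comm, ← smul_eq_mul, map_smul, ← hn g hg]
    module
  refine rq_succ ?_ (y := pc π (0, b)) ⟨Z2.congr (zero_mem (Z2 I Γ ρ₂))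
    (fun _ _ _ _ => map_zero π) fun _ _ => rfl, fun j => ⟨c1_map (bc j) π,
    fun g hg l hl => Eq.trans ?_ (d1_map (c := b j) (S.eqp g (le j hg) _))⟩⟩ ?_
  · rintro _ ⟨y, hy, rfl⟩
    exact zc_map hy (fun g hg _ _ _ _ => S.eqp g hg _) fun j g hg _ _ => S.eqp g (le j hg) _
  · by_cases e : j = j₀
    · subst e
      rw [db g hg l hl, pi_i S]
      exact map_zero π
    · rw [b1 j e, map_zero]
      rfl
  rintro _ ⟨y, hy, rfl⟩ hb
  obtain ⟨x, hx, h1, h2⟩ := mem_Bc.1 hb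
  have ps : pt G ι π (pt G ι s x) = x := Prod.ext (funext fun _ => hs _) (funext fun _ => hs _)
  have hw := add_mem hy (dc_zc R le (x := pt G ι s x) (c1_map hx s))
  generalize hy' : y + dc ι ρ (pt G ι s x) = w at hw
  have a1 : ∀ g ∈ Γ, ∀ l ∈ Γ, π (w.1 g l) = 0 := fun g hg l hl => by
    rw [← hy']
    refine (map_add π _ _).trans ?_
    rw [(dc_map S.eqp le _).1 g hg l hl, ps, ← h1 g hg l hl]
    exact (add_sub_cancel _ _).trans (map_zero π)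
  have a2 : ∀ j, ∀ d ∈ D j, π ((w.2 j - b j) d) = 0 := fun j d hd => by
    rw [← hy', Pi.sub_apply, map_sub, sub_eq_zero]
    refine (map_add π _ _).trans ?_
    rw [(dc_map S.eqp le _).2 j d hd, ps, ← h2 j d hd]
    exact add_sub_cancel _ _
  have a3 : ∀ j, (fun g l => r (w.1 g l - d1 ρ (b j) g l)) ∈ B2 ∅ (D j) (ch θ) := fun j =>
    ⟨_, c1_map (sub_mem (hw.2 j).1 (bc j)) r, fun g hg l hl => by
      rw [← d1_map (rr S hr (le j hg) (a2 j l hl)), map_sub (d1 ρ)]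
      exact congrArg (fun x => r (x - _)) ((hw.2 j).2 g hg l hl)⟩
  refine H (fun g l => r (w.1 g l)) ⟨fun g hg l hl m hm => ?_, c2_map hw.1.2 r⟩
    (fun j hj => by simpa [b1 j hj] using a3 j) (B2.congr (a3 j₀) (fun g hg l hl => ?_)
      fun _ _ => rfl)
  · rw [← rr S hr hg (a1 l hl m hm), ← map_add, ← map_add, hw.1.1 g hg l hl m hm]
  · rw [db g hg l hl, map_sub, hr]
    rfl

theorem finz : FINZ := by
  intro G _ _ k _ N _ _ I Γ U ρ fin r l u h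
  have : Finite (Γ ⧸ U.subgroupOf Γ) := Nat.finite_of_card_ne_zero l.relIndex
  have := Module.rank_lt_aleph0_iff.1 h
  let b := Module.finBasis k N
  let F : Z1 I Γ ρ →ₗ[k] ((Γ ⧸ U.subgroupOf Γ) → N) × (_ → Z1 I (Γ ⊓ U) (tr G k)) :=
    .prod (.pi fun q => .proj (q.out : G) ∘ₗ (Z1 I Γ ρ).subtype) (.pi fun j => .codRestrict _
      ((b.coord j).compLeft G ∘ₗ ind (Γ ⊓ U : Subgroup G) ∘ₗ (Z1 I Γ ρ).subtype) fun c =>
        (tn_map (D := Empty.elim) (π := b.coord j) (fun g hg n => by rw [u g hg.1 hg.2]; rfl)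
          (fun j => j.elim) (x := (_, 0))
          ⟨Z1.res c.2 subset_rfl inf_le_left, fun j => j.elim⟩).1)
  have := Module.Finite.of_injective F ((injective_iff_map_eq_zero _).2 fun c e =>
    Subtype.ext (funext fun g => ?_))
  · exact Module.rank_lt_aleph0 k _
  by_cases hg : g ∈ Γ
  · obtain ⟨w, hw⟩ := QuotientGroup.mk_out_eq_mul (U.subgroupOf Γ) ⟨g, hg⟩
    have e1 : c.1 _ = 0 := congrFun (congrArg Prod.fst e) (QuotientGroup.mk ⟨g, hg⟩)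
    have e2 : c.1 w = 0 := b.forall_coord_eq_zero_iff.1 fun j => by
      have : b.coord j (Set.indicator _ c.1 (w : G)) = 0 :=
        congrFun (congrArg Subtype.val (congrFun (congrArg Prod.snd e) j)) w
      rwa [Set.indicator_of_mem (show (w : G) ∈ (Γ ⊓ U : Subgroup G) from ⟨w.1.2, w.2⟩)] at this
    rwa [hw, Subgroup.coe_mul, c.2.1 g hg _ w.1.2, e2, map_zero, add_zero] at e1
  · exact c.2.2.1 g hg

end Vale.Agent.P022K.G2
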