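import Mathlib

/-!
# P022K, block G2: cochains of an abstract group (definitions and statements, pure group theory)

`G` is a group with a topology, `Γ` a subgroup, a representation of `Γ` is a function
`ρ : G → End N` which is multiplicative on `Γ`, cochains are functions on `G`. A level is an open
normal subgroup of finite index of `G` which contains a given set `I` (the inertia elements at the
places where no ramification is allowed; `I = ∅` for locally constant cochains).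
-/

set_option linter.all false

noncomputable section

namespace Vale.Agent.P022K.G2

open Module

section defs

variable {G : Type} [Group G] [TopologicalSpace G]

/-- levels -/
structure Lv (I : Set G) (W : Subgroup G) : Prop where
  nrm : W.Normal
  opn : IsOpen (W : Set G)
  fin : W.FiniteIndex
  sub : I ⊆ W

theorem Lv.inf {I : Set G} {W W' : Subgroup G} (h : Lv I W) (h' : Lv I W') : Lv I (W ⊓ W') :=
  haveI := h.nrm; haveI := h'.nrm; haveI := h.fin; haveI := h'.fin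
  ⟨inferInstance, h.opn.inter h'.opn, inferInstance, fun _ hx => ⟨h.sub hx, h'.sub hx⟩⟩

theorem Lv.top (I : Set G) : Lv I ⊤ := ⟨inferInstance, isOpen_univ, inferInstance, fun _ _ => trivial⟩

theorem Lv.mono {I J : Set G} {W : Subgroup G} (h : Lv I W) (e : J ⊆ I) : Lv J W :=
  ⟨h.nrm, h.opn, h.fin, e.trans h.sub⟩

/-- `U` contains the trace on `Γ` of a level -/
def Le (I : Set G) (Γ U : Subgroup G) : Prop := ∃ W, Lv I W ∧ ∀ w ∈ Γ, w ∈ W → w ∈ U

/-- `Γ` normalises `U` -/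
def Nz (Γ U : Subgroup G) : Prop := ∀ g ∈ Γ, ∀ u ∈ U, g * u * g⁻¹ ∈ U

/-- a left transversal of `U` in `Γ` -/
structure Tv (Γ U : Subgroup G) (R : Finset G) : Prop where
  mem : ∀ r ∈ R, r ∈ Γ
  ex : ∀ g ∈ Γ, ∃ r ∈ R, r⁻¹ * g ∈ U
  un : ∀ r ∈ R, ∀ r' ∈ R, r⁻¹ * r' ∈ U → r = r'

/-- representatives of the orbits of `Γ` in `S` -/
structure Reps {Ω ι : Type} [MulAction G Ω] (Γ : Subgroup G) (S : Set Ω) (x : ι → Ω) : Prop where
  mem : ∀ i, ∀ g ∈ Γ, g • x i ∈ S
  ex : ∀ y ∈ S, ∃ i, ∃ g ∈ Γ, y = g • x i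
  un : ∀ i j, ∀ g ∈ Γ, x j = g • x i → i = j

/-- the decomposition groups -/
def Dv {Ω ι : Type} [MulAction G Ω] (Γ : Subgroup G) (x : ι → Ω) (i : ι) : Subgroup G :=
  Γ ⊓ MulAction.stabilizer G (x i)

variable {k : Type} [Field k] {N : Type} [AddCommGroup N] [Module k N]

/-- `ρ` is a representation of `Γ` of level `I` -/
structure Rp (I : Set G) (Γ : Subgroup G) (ρ : G → End k N) : Prop where
  one : ρ 1 = 1
  mul : ∀ g ∈ Γ, ∀ h ∈ Γ, ρ (g * h) = ρ g * ρ h
  lv : ∃ W, Lv I W ∧ ∀ w ∈ Γ, w ∈ W → ρ w = 1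

/-- the representation on `k` given by a character -/
def ch (θ : G → k) : G → End k k := fun g => θ g • (1 : End k k)

/-- `ω` is multiplicative on `Γ` -/
def Mu (Γ : Subgroup G) (ω : G → k) : Prop :=
  ω 1 = 1 ∧ ∀ g ∈ Γ, ∀ h ∈ Γ, ω (g * h) = ω g * ω h

variable (G k) in
/-- the trivial representation on `k` -/
def tr : G → End k k := fun _ => 1

variable (k N) in
/-- one cochains of level `I` -/
def C1 (I : Set G) (Γ : Subgroup G) : Submodule k (G → N) where
  carrier := {c | ∃ W, Lv I W ∧ ∀ g ∈ Γ, ∀ w ∈ Γ, w ∈ W → c (g * w) = c g}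
  add_mem' := by
    rintro a b ⟨W, hW, h⟩ ⟨V, hV, e⟩
    exact ⟨W ⊓ V, hW.inf hV, fun g hg w hw m => by
      rw [Pi.add_apply, Pi.add_apply, h g hg w hw m.1, e g hg w hw m.2]⟩
  zero_mem' := ⟨⊤, Lv.top I, fun _ _ _ _ _ => rfl⟩
  smul_mem' := by
    rintro r a ⟨W, hW, h⟩
    exact ⟨W, hW, fun g hg w hw m => by rw [Pi.smul_apply, Pi.smul_apply, h g hg w hw m]⟩

variable (k N) in
/-- two cochains of level `I` -/
def C2 (I : Set G) (Γ : Subgroup G) : Submodule k (G → G → N) where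
  carrier := {z | ∃ W, Lv I W ∧ ∀ g ∈ Γ, ∀ h ∈ Γ, ∀ w ∈ Γ, w ∈ W →
    z (g * w) h = z g h ∧ z g (h * w) = z g h}
  add_mem' := by
    rintro a b ⟨W, hW, h⟩ ⟨V, hV, e⟩
    exact ⟨W ⊓ V, hW.inf hV, fun g hg j hj w hw m => by
      simp only [Pi.add_apply]
      rw [(h g hg j hj w hw m.1).1, (h g hg j hj w hw m.1).2, (e g hg j hj w hw m.2).1,
        (e g hg j hj w hw m.2).2]
      exact ⟨rfl, rfl⟩⟩
  zero_mem' := ⟨⊤, Lv.top I, fun _ _ _ _ _ _ _ => ⟨rfl, rfl⟩⟩
  smul_mem' := by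
    rintro r a ⟨W, hW, h⟩
    exact ⟨W, hW, fun g hg j hj w hw m => by
      simp only [Pi.smul_apply]
      rw [(h g hg j hj w hw m).1, (h g hg j hj w hw m).2]
      exact ⟨rfl, rfl⟩⟩

/-- the differential in degree zero -/
def d0 (ρ : G → End k N) : N →ₗ[k] G → N where
  toFun n g := ρ g n - n
  map_add' a b := funext fun g => by simp only [map_add, Pi.add_apply]; abel
  map_smul' r a := funext fun g => by simp only [map_smul, Pi.smul_apply, smul_sub, RingHom.id_apply]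

/-- the differential in degree one -/
def d1 (ρ : G → End k N) : (G → N) →ₗ[k] G → G → N where
  toFun c g h := ρ g (c h) - c (g * h) + c g
  map_add' a b := funext fun g => funext fun h => by simp only [map_add, Pi.add_apply]; abel
  map_smul' r a := funext fun g => funext fun h => by
    simp only [map_smul, Pi.smul_apply, smul_sub, smul_add, RingHom.id_apply]

theorem d0_apply (ρ : G → End k N) (n : N) (g : G) : d0 ρ n g = ρ g n - n := rfl

theorem d1_apply (ρ : G → End k N) (c : G → N) (g h : G) :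
    d1 ρ c g h = ρ g (c h) - c (g * h) + c g := rfl

/-- the vectors on which `Γ` acts through `χ` -/
def H0 (Γ : Subgroup G) (ρ : G → End k N) (χ : G → k) : Submodule k N where
  carrier := {n | ∀ g ∈ Γ, ρ g n = χ g • n}
  add_mem' ha hb g hg := by rw [map_add, ha g hg, hb g hg, smul_add]
  zero_mem' g _ := by rw [map_zero, smul_zero]
  smul_mem' r a ha g hg := by rw [map_smul, ha g hg, smul_comm]

/-- the equivariant maps to `k(ω)` -/
def Hm (Γ : Subgroup G) (ρ : G → End k N) (ω : G → k) : Submodule k (Dual k N) where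
  carrier := {f | ∀ g ∈ Γ, ∀ n, f (ρ g n) = ω g * f n}
  add_mem' ha hb g hg n := by
    rw [LinearMap.add_apply, LinearMap.add_apply, ha g hg, hb g hg, mul_add]
  zero_mem' g _ n := by simp
  smul_mem' r a ha g hg n := by
    rw [LinearMap.smul_apply, LinearMap.smul_apply, ha g hg, smul_eq_mul, smul_eq_mul]; ring

/-- the functions which are coboundaries on `Γ` -/
def B1 (Γ : Subgroup G) (ρ : G → End k N) : Submodule k (G → N) where
  carrier := {c | ∃ n, ∀ g ∈ Γ, c g = d0 ρ n g}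
  add_mem' := by
    rintro a b ⟨n, h⟩ ⟨m, e⟩
    exact ⟨n + m, fun g hg => by rw [map_add, Pi.add_apply, Pi.add_apply, h g hg, e g hg]⟩
  zero_mem' := ⟨0, fun g _ => by rw [map_zero]⟩
  smul_mem' := by
    rintro r a ⟨n, h⟩
    exact ⟨r • n, fun g hg => by rw [map_smul, Pi.smul_apply, Pi.smul_apply, h g hg]⟩

/-- one cocycles of level `I`, extended by zero -/
def Z1 (I : Set G) (Γ : Subgroup G) (ρ : G → End k N) : Submodule k (G → N) where
  carrier := {c | (∀ g ∈ Γ, ∀ h ∈ Γ, c (g * h) = c g + ρ g (c h)) ∧ (∀ g ∉ Γ, c g = 0) ∧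
    ∃ W, Lv I W ∧ ∀ w ∈ Γ, w ∈ W → c w = 0}
  add_mem' := by
    rintro a b ⟨h1, h2, W, hW, h⟩ ⟨e1, e2, V, hV, e⟩
    refine ⟨fun g hg j hj => ?_, fun g hg => ?_, W ⊓ V, hW.inf hV, fun w hw m => ?_⟩
    · simp only [Pi.add_apply, map_add]; rw [h1 g hg j hj, e1 g hg j hj]; abel
    · rw [Pi.add_apply, h2 g hg, e2 g hg, add_zero]
    · rw [Pi.add_apply, h w hw m.1, e w hw m.2, add_zero]
  zero_mem' := ⟨fun _ _ _ _ => by simp, fun _ _ => rfl, ⊤, Lv.top I, fun _ _ _ => rfl⟩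
  smul_mem' := by
    rintro r a ⟨h1, h2, W, hW, h⟩
    refine ⟨fun g hg j hj => ?_, fun g hg => ?_, W, hW, fun w hw m => ?_⟩
    · simp only [Pi.smul_apply, map_smul]; rw [h1 g hg j hj, smul_add]
    · rw [Pi.smul_apply, h2 g hg, smul_zero]
    · rw [Pi.smul_apply, h w hw m, smul_zero]

/-- two cocycles of level `I` -/
def Z2 (I : Set G) (Γ : Subgroup G) (ρ : G → End k N) : Submodule k (G → G → N) where
  carrier := {z | (∀ g ∈ Γ, ∀ h ∈ Γ, ∀ j ∈ Γ,
    ρ g (z h j) + z g (h * j) = z (g * h) j + z g h) ∧ z ∈ C2 k N I Γ}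
  add_mem' {a b} ha hb := ⟨fun g hg h hh j hj => by
      simp only [Pi.add_apply, map_add]
      rw [add_add_add_comm, ha.1 g hg h hh j hj, hb.1 g hg h hh j hj]; abel,
    add_mem ha.2 hb.2⟩
  zero_mem' := ⟨fun _ _ _ _ _ _ => by simp, zero_mem _⟩
  smul_mem' r a ha := ⟨fun g hg h hh j hj => by
      simp only [Pi.smul_apply, map_smul]
      rw [← smul_add, ha.1 g hg h hh j hj, smul_add],
    Submodule.smul_mem _ r ha.2⟩

/-- the functions which are coboundaries of level `I` on `Γ` -/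
def B2 (I : Set G) (Γ : Subgroup G) (ρ : G → End k N) : Submodule k (G → G → N) where
  carrier := {z | ∃ c ∈ C1 k N I Γ, ∀ g ∈ Γ, ∀ h ∈ Γ, z g h = d1 ρ c g h}
  add_mem' := by
    rintro a b ⟨n, hn, h⟩ ⟨m, hm, e⟩
    exact ⟨n + m, add_mem hn hm, fun g hg j hj => by
      simp only [map_add, Pi.add_apply]; rw [h g hg j hj, e g hg j hj]⟩
  zero_mem' := ⟨0, zero_mem _, fun g _ h _ => by rw [map_zero]⟩
  smul_mem' := by
    rintro r a ⟨n, hn, h⟩
    exact ⟨r • n, Submodule.smul_mem _ r hn, fun g hg j hj => by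
      simp only [map_smul, Pi.smul_apply]; rw [h g hg j hj]⟩

/-- the dimension of `Z / (Z ∩ B)` -/
def rq {X : Type} [AddCommGroup X] [Module k X] (Z B : Submodule k X) : Cardinal :=
  Module.rank k (Z.map B.mkQ)

/-- the dimension of a subspace -/
abbrev rk {X : Type} [AddCommMonoid X] [Module k X] (Z : Submodule k X) : Cardinal :=
  Module.rank k Z

section cone

variable {ι : Type}

/-- cocycles with trivialisations on the groups `D i` (the relative tangent space) -/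
def Tn (I : Set G) (Γ : Subgroup G) (D : ι → Subgroup G) (ρ : G → End k N) :
    Submodule k ((G → N) × (ι → N)) where
  carrier := {x | x.1 ∈ Z1 I Γ ρ ∧ ∀ i, ∀ d ∈ D i, x.1 d = d0 ρ (x.2 i) d}
  add_mem' {a b} ha hb := ⟨add_mem ha.1 hb.1, fun i d hd => by
    simp only [Prod.fst_add, Prod.snd_add, map_add, Pi.add_apply]
    rw [ha.2 i d hd, hb.2 i d hd]⟩
  zero_mem' := ⟨zero_mem _, fun i d _ => by simp⟩
  smul_mem' r a ha := ⟨Submodule.smul_mem _ r ha.1, fun i d hd => by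
    simp only [Prod.smul_fst, Prod.smul_snd, map_smul, Pi.smul_apply]
    rw [ha.2 i d hd]⟩

/-- two cocycles with trivialisations on the groups `D i` -/
def Zc (I : Set G) (Γ : Subgroup G) (D : ι → Subgroup G) (ρ : G → End k N) :
    Submodule k ((G → G → N) × (ι → G → N)) where
  carrier := {x | x.1 ∈ Z2 I Γ ρ ∧ ∀ i, x.2 i ∈ C1 k N ∅ (D i) ∧
    ∀ g ∈ D i, ∀ h ∈ D i, x.1 g h = d1 ρ (x.2 i) g h}
  add_mem' {a b} ha hb := ⟨add_mem ha.1 hb.1, fun i => ⟨add_mem (ha.2 i).1 (hb.2 i).1,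
    fun g hg h hh => by
      simp only [Prod.fst_add, Prod.snd_add, map_add, Pi.add_apply]
      rw [(ha.2 i).2 g hg h hh, (hb.2 i).2 g hg h hh]⟩⟩
  zero_mem' := ⟨zero_mem _, fun i => ⟨zero_mem _, fun g _ h _ => by simp⟩⟩
  smul_mem' r a ha := ⟨Submodule.smul_mem _ r ha.1, fun i =>
    ⟨Submodule.smul_mem _ r (ha.2 i).1, fun g hg h hh => by
      simp only [Prod.smul_fst, Prod.smul_snd, map_smul, Pi.smul_apply]
      rw [(ha.2 i).2 g hg h hh]⟩⟩

/-- the coboundaries of the cone -/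
def Bc (I : Set G) (Γ : Subgroup G) (D : ι → Subgroup G) (ρ : G → End k N) :
    Submodule k ((G → G → N) × (ι → G → N)) where
  carrier := {x | ∃ c ∈ C1 k N I Γ, ∃ a : ι → N, (∀ g ∈ Γ, ∀ h ∈ Γ, x.1 g h = d1 ρ c g h) ∧
    ∀ i, ∀ d ∈ D i, x.2 i d = c d + d0 ρ (a i) d}
  add_mem' := by
    rintro x y ⟨c, hc, a, h1, h2⟩ ⟨c', hc', a', e1, e2⟩
    refine ⟨c + c', add_mem hc hc', a + a', fun g hg h hh => ?_, fun i d hd => ?_⟩
    · simp only [Prod.fst_add, map_add, Pi.add_apply]; rw [h1 g hg h hh, e1 g hg h hh]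
    · simp only [Prod.snd_add, map_add, Pi.add_apply]; rw [h2 i d hd, e2 i d hd]; abel
  zero_mem' := ⟨0, zero_mem _, 0, fun _ _ _ _ => by simp, fun _ _ _ => by simp⟩
  smul_mem' := by
    rintro r x ⟨c, hc, a, h1, h2⟩
    refine ⟨r • c, Submodule.smul_mem _ r hc, r • a, fun g hg h hh => ?_, fun i d hd => ?_⟩
    · simp only [Prod.smul_fst, map_smul, Pi.smul_apply]; rw [h1 g hg h hh]
    · simp only [Prod.smul_snd, map_smul, Pi.smul_apply]; rw [h2 i d hd, smul_add]

/-- two cocycles which are coboundaries on the groups `D i` -/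
def Sh (I : Set G) (Γ : Subgroup G) (D : ι → Subgroup G) (ρ : G → End k N) :
    Submodule k (G → G → N) := Z2 I Γ ρ ⊓ ⨅ i, B2 ∅ (D i) ρ

/-- the second cohomology of the cone -/
def hc (I : Set G) (Γ : Subgroup G) (D : ι → Subgroup G) (ρ : G → End k N) : Cardinal :=
  rq (Zc I Γ D ρ) (Bc I Γ D ρ)

/-- the locally trivial classes of degree two -/
def sh (I : Set G) (Γ : Subgroup G) (D : ι → Subgroup G) (ρ : G → End k N) : Cardinal :=
  rq (Sh I Γ D ρ) (B2 I Γ ρ)

/-- the map on the cochains of the cone -/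
def pc {N' : Type} [AddCommGroup N'] [Module k N'] (π : N →ₗ[k] N') :
    ((G → G → N) × (ι → G → N)) →ₗ[k] ((G → G → N') × (ι → G → N')) :=
  ((π.compLeft G).compLeft G).prodMap ((π.compLeft G).compLeft ι)

end cone

/-- the second cohomology -/
def h2 (I : Set G) (Γ : Subgroup G) (ρ : G → End k N) : Cardinal := rq (Z2 I Γ ρ) (B2 I Γ ρ)

/-- `ρ` is projective relative to `U` (criterion of Higman) -/
def Prj (Γ U : Subgroup G) (ρ : G → End k N) : Prop :=
  ∃ (R : Finset G) (φ : End k N), Tv Γ U R ∧ (∀ u ∈ Γ, u ∈ U → φ * ρ u = ρ u * φ) ∧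
    ∑ r ∈ R, ρ r * φ * ρ r⁻¹ = 1

/-- the equivariant homomorphisms from `Γ ⊓ U` -/
def Eq1 (I : Set G) (Γ U : Subgroup G) (ρ : G → End k N) : Submodule k (G → N) where
  carrier := {c | c ∈ Z1 I (Γ ⊓ U) ρ ∧ ∀ g ∈ Γ, ∀ u ∈ Γ ⊓ U, c (g * u * g⁻¹) = ρ g (c u)}
  add_mem' {a b} ha hb := ⟨add_mem ha.1 hb.1, fun g hg u hu => by
    simp only [Pi.add_apply, map_add]; rw [ha.2 g hg u hu, hb.2 g hg u hu]⟩
  zero_mem' := ⟨zero_mem _, fun _ _ _ _ => by simp⟩
  smul_mem' r a ha := ⟨Submodule.smul_mem _ r ha.1, fun g hg u hu => by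
    simp only [Pi.smul_apply, map_smul]; rw [ha.2 g hg u hu]⟩

/-- the equivariant pairings `A × N → k(ω)`, `A` an abelian group with an action `α` of `Γ` -/
def Ev {A : Type} [AddCommGroup A] (Γ : Subgroup G) (α : G → A →+ A) (ρ : G → End k N)
    (ω : G → k) : Submodule k (A →+ Dual k N) where
  carrier := {f | ∀ g ∈ Γ, ∀ a n, f (α g a) (ρ g n) = ω g * f a n}
  add_mem' ha hb g hg a n := by
    simp only [AddMonoidHom.add_apply, LinearMap.add_apply]; rw [ha g hg, hb g hg, mul_add]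
  zero_mem' g _ a n := by simp
  smul_mem' r f ha g hg a n := by
    simp only [AddMonoidHom.smul_apply, LinearMap.smul_apply, smul_eq_mul]; rw [ha g hg]; ring

/-- `α` is an action of `Γ` which is trivial on `U` -/
structure Ac {A : Type} [AddCommGroup A] (Γ U : Subgroup G) (α : G → A →+ A) : Prop where
  mul : ∀ g ∈ Γ, ∀ h ∈ Γ, ∀ a, α (g * h) a = α g (α h a)
  tri : ∀ u ∈ Γ, u ∈ U → ∀ a, α u a = a

/-- the elements killed by `p` -/
def Kp (p : ℕ) (A : Type) [AddCommGroup A] : AddSubgroup A where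
  carrier := {a | p • a = 0}
  add_mem' {a b} ha hb := by
    show p • (a + b) = 0
    rw [nsmul_add, show p • a = 0 from ha, show p • b = 0 from hb, add_zero]
  zero_mem' := nsmul_zero p
  neg_mem' {a} ha := by
    show p • (-a) = 0
    rw [neg_nsmul, show p • a = 0 from ha, neg_zero]

/-- the action on the elements killed by `p` -/
def tor {A : Type} [AddCommGroup A] (p : ℕ) (α : G → A →+ A) (g : G) : Kp p A →+ Kp p A where
  toFun a := ⟨α g a, by
    show p • α g a = 0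
    rw [← map_nsmul, show p • (a : A) = 0 from a.2, map_zero]⟩
  map_zero' := Subtype.ext (map_zero _)
  map_add' a b := Subtype.ext (map_add _ _ _)

/-- `a` is a locally constant additive function on `A` -/
def Ch (A : Subgroup G) (a : G → k) : Prop :=
  (∀ g ∈ A, ∀ h ∈ A, a (g * h) = a g + a h) ∧ ∃ W, Lv ∅ W ∧ ∀ w ∈ A, w ∈ W → a w = 0

/-- cup product of two functions with values in `k` -/
def cup (a b : G → k) : G → G → k := fun g h => a g * b h

/-- a short exact sequence of representations -/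
structure Ses {N₁ N₂ : Type} [AddCommGroup N₁] [Module k N₁] [AddCommGroup N₂] [Module k N₂]
    (Γ : Subgroup G) (ρ₁ : G → End k N₁) (ρ : G → End k N) (ρ₂ : G → End k N₂)
    (i : N₁ →ₗ[k] N) (π : N →ₗ[k] N₂) : Prop where
  inj : Function.Injective i
  sur : Function.Surjective π
  exa : ∀ n, π n = 0 ↔ ∃ a, i a = n
  eqi : ∀ g ∈ Γ, ∀ a, i (ρ₁ g a) = ρ g (i a)
  eqp : ∀ g ∈ Γ, ∀ n, π (ρ g n) = ρ₂ g (π n)

/-- a perfect pairing `N × M → k(ω)` -/
structure Pf {M : Type} [AddCommGroup M] [Module k M] (Γ : Subgroup G) (ρ : G → End k N)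
    (σ : G → End k M) (ω : G → k) (β : N →ₗ[k] Dual k M) : Prop where
  bij : Function.Bijective β
  eqv : ∀ g ∈ Γ, ∀ n m, β (ρ g n) (σ g m) = ω g * β n m

/-- `ρ` has a filtration by characters of `B` which are trivial on `H`; if a character is `ω`, it
splits off over `B` or does not split off over some cyclic subgroup of `H` -/
inductive Tri (B H : Subgroup G) (ω : G → k) :
    (N : Type) → [AddCommGroup N] → [Module k N] → (G → End k N) → Prop
  | nil (N : Type) [AddCommGroup N] [Module k N] (ρ : G → End k N) (h : ∀ n : N, n = 0) :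
      Tri B H ω N ρ
  | cons (N : Type) [AddCommGroup N] [Module k N] (ρ : G → End k N) (N₂ : Type)
      [AddCommGroup N₂] [Module k N₂] (ρ₂ : G → End k N₂) (θ : G → k) (i : k →ₗ[k] N)
      (π : N →ₗ[k] N₂) (s : Ses B (ch θ) ρ ρ₂ i π) (t : ∀ h ∈ H, θ h = 1)
      (c : (∀ b ∈ B, θ b = ω b) → (∃ r ∈ Hm B ρ ω, ∀ a, r (i a) = a) ∨
        ∃ h ∈ H, ∃ n, ρ h n - n = i 1)
      (r : Tri B H ω N₂ ρ₂) : Tri B H ω N ρ

end defs

end Vale.Agent.P022K.G2
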