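import Vale.Agent.P022K.G2.Tam
import Vale.Agent.P022K.G2.Unr
import Vale.Agent.P022D.Loc2.Dec

/-!
# P022K, block G2: approximation of local elements (row `EXT`; helper69)
-/

set_option linter.all false

noncomputable section

namespace Vale.Agent.P022K.G2

open NumberField Module IsDedekindDomain
open Vale.Agent.P022 Vale.Agent.P022.C Vale.Agent.P022.H443 Vale.Agent.P022.H916
open Vale.Agent.P022D.W Vale.Agent.P022D.Loc2
open Vale.Agent.P022E.GW (Ov Fb)
open scoped Pointwise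

variable {p : ℕ} [Fact p.Prime] {l : ℕ} {P : Ideal (𝓞 Qb)}

theorem below_q (h : Ov l P) : below (algebraMap ℚ Qb) P = Ideal.span {(l : 𝓞 ℚ)} := by
  have l0 : (l : 𝓞 ℚ) ≠ 0 := by exact_mod_cast h.1.ne_zero
  have q : (Ideal.span {(l : 𝓞 ℚ)}).IsPrime := Ideal.isPrime_of_irreducible_absNorm (by
    rw [Ideal.absNorm_span_natCast, RingOfIntegers.rank, Module.finrank_self, pow_one]
    exact h.1.prime.irreducible)
  refine ((q.isMaximal (by rwa [Ne, Ideal.span_singleton_eq_bot])).eq_of_le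
    (blw (algebraMap ℚ Qb) h).isPrime.ne_top ?_).symm
  rw [Ideal.span_singleton_le_iff_mem]
  show RingOfIntegers.mapRingHom (algebraMap ℚ Qb) (l : 𝓞 ℚ) ∈ P
  rw [map_natCast]; exact h.2.2

/-- the embedding which belongs to `P` -/
structure Em (l : ℕ) [Fact l.Prime] (P : Ideal (𝓞 Qb)) (e : Qb →+* PadicAlgCl l) : Prop where
  mem : ∀ x : 𝓞 Qb, x ∈ P ↔ ‖e x‖ < 1
  loc : ∀ g ∈ dec P, ∃ σ : Gal(PadicAlgCl l / ℚ_[l]), ∀ x, e (g x) = σ (e x)
  glo : ∀ σ : Gal(PadicAlgCl l / ℚ_[l]), ∃ g ∈ dec P, ∀ x, e (g x) = σ (e x)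

theorem ex_em [Fact l.Prime] (h : Ov l P) : ∃ e, Em l P e := by
  obtain ⟨⟨s, -⟩, rfl⟩ := exists_smul (algebraMap ℚ Qb) (PP_prime l) h.2.1
    ((below_q ⟨h.1, PP_prime l, p_mem_PP l⟩).trans (below_q h).symm)
  have key : ∀ g : GQ, s * g * s⁻¹ ∈ dec (s • PP l) ↔ g ∈ dec (PP l) := fun g => by
    rw [← st_fp, ← st_fp, ← smul_fp, St, MulAction.stabilizer_smul_eq_stabilizer_map_conj]
    exact Subgroup.mem_map_iff_mem (f := (MulAut.conj s).toMonoidHom) (MulAut.conj s).injective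
  have e1 : ∀ (g : GQ) x, s⁻¹ ((s * g * s⁻¹) x) = g (s⁻¹ x) := fun g x => by
    rw [← AlgEquiv.mul_apply, ← AlgEquiv.mul_apply]
    congr 1
    group
  refine ⟨(io l).toRingHom.comp (s⁻¹ : GQ), fun x => mem_smul, fun g hg => ?_, fun σ => ?_⟩
  · obtain ⟨σ, hσ⟩ := (range_jj l (s⁻¹ * g * s)).1 ((key _).1 (by convert hg using 1; group))
    refine ⟨σ, fun x => ?_⟩
    show io l (s⁻¹ (g x)) = σ (io l (s⁻¹ x))
    rw [← io_jj, hσ, ← e1]
    congr 3
    group
  · refine ⟨_, (key _).2 ((range_jj l _).2 ⟨σ, rfl⟩), fun x => ?_⟩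
    show io l (s⁻¹ _) = σ (io l (s⁻¹ x))
    rw [← io_jj, e1]

section

variable [Fact l.Prime] {e : Qb →+* PadicAlgCl l}

theorem Em.norm (h : Em l P e) {g : GQ} (hg : g ∈ dec P) (x : Qb) : ‖e (g x)‖ = ‖e x‖ := by
  obtain ⟨σ, hσ⟩ := h.loc g hg
  rw [hσ]
  exact (spectralNorm_eq_of_equiv σ (e x)).symm

/-- a number field is dense in its decomposition field -/
theorem Em.dense (h : Em l P e) {K : Type} [Field K] (j : K →+* Qb) {b : Qb}
    (hb : ∀ g ∈ GK j ⊓ dec P, g b = b) {ε : ℝ} (hε : 0 < ε) : ∃ a : K, ‖e b - e (j a)‖ < ε := by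
  let S := (e.comp j).fieldRange
  have hS : ∀ x, algebraMap ℚ_[l] (PadicAlgCl l) x ∈ S.topologicalClosure := fun x => by
    refine (Padic.denseRange_ratCast l).induction_on x
      (S.isClosed_topologicalClosure.preimage (continuous_algebraMap _ _)) fun q => ?_
    rw [map_ratCast]
    exact SubfieldClass.ratCast_mem _ q
  let E := S.topologicalClosure.toIntermediateField hS
  have m : e b ∈ E := by
    rw [← InfiniteGalois.fixedField_fixingSubgroup E, IntermediateField.mem_fixedField_iff]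
    intro σ hσ
    obtain ⟨g, hg, e1⟩ := h.glo σ
    rw [← e1, hb g ⟨fun a => e.injective (by
      rw [e1]
      exact (IntermediateField.mem_fixingSubgroup_iff _ _).1 hσ _
        (S.le_topologicalClosure ⟨a, rfl⟩)), hg⟩]
  obtain ⟨_, ⟨a, rfl⟩, ha⟩ := Metric.mem_closure_iff.1 m ε hε
  exact ⟨a, by rwa [dist_eq_norm] at ha⟩

end

/-- an element close to one has a root in the decomposition field -/
theorem ka_near {C : Type} [NormedField C] [IsUltrametricDist C] {e : Qb →+* C} {c : Qb}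
    (c0 : c ≠ 0) (hc : ‖1 - e c‖ < ‖(p : C)‖ ^ p) {A : Subgroup GQ} (hA : A ≤ Gz p)
    (h1 : ∀ g ∈ A, g c = c) (h2 : ∀ g ∈ A, ∀ x, ‖e (g x)‖ = ‖e x‖) : ∀ g ∈ A, ka p c g = 0 := by
  have hp : p.Prime := Fact.out
  intro g hg
  by_contra ne
  have hk := ka_ch hA c0 h1
  obtain ⟨s, hs, s1⟩ : ∃ s ∈ A, ka p c s = 1 := ⟨g ^ (ka p c g)⁻¹.val, A.pow_mem hg _, by
    rw [hk.pow hg, ZMod.natCast_zmod_val, inv_mul_cancel₀ ne]⟩
  set y := rt p c
  have e1 : ∀ i : ℕ, ‖e (1 - zt p ^ i * y)‖ = ‖e (1 - y)‖ := fun i => by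
    rw [← h2 _ (A.pow_mem hs i) (1 - y), map_sub (s ^ i), map_one,
      ka_spec (h1 _ (A.pow_mem hs i)), hk.pow hs, s1, mul_one, pw_nat]
  have e2 : 1 - c = ∏ i ∈ Finset.range p, (1 - zt p ^ i * y) := by
    have := congrArg (Polynomial.eval 1) (X_pow_sub_C_eq_prod (zt_prim p) hp.pos (rt_pow p c))
    simpa [Polynomial.eval_prod] using this
  have e3 : (p : Qb) = ∑ i ∈ Finset.range p, (1 - zt p ^ i * y) := by
    rw [Finset.sum_sub_distrib, ← Finset.sum_mul, (zt_prim p).geom_sum_eq_zero hp.one_lt]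
    simp
  have e4 : ‖(p : C)‖ ≤ ‖e (1 - y)‖ := by
    rw [← map_natCast e, e3, map_sum]
    exact IsUltrametricDist.norm_sum_le_of_forall_le_of_nonneg (norm_nonneg _)
      fun i _ => (e1 i).le
  rw [← map_one e, ← map_sub, e2, map_prod, norm_prod, Finset.prod_congr rfl fun i _ => e1 i,
    Finset.prod_const, Finset.card_range] at hc
  exact hc.not_ge (pow_le_pow_left₀ (norm_nonneg _) e4 p)

theorem cc_ne {c : GQ} {φ : Qb →+* ℂ} (hc : ∀ x, φ (c x) = starRingEnd ℂ (φ x)) {i : Qb}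
    (hi : i ^ 2 = -1) : c i ≠ i := fun e => by
  have h1 := Complex.conj_eq_iff_im.1 ((hc i).symm.trans (congrArg φ e))
  have h2 := congrArg (fun x => (φ x).re) hi
  simp only [map_pow, map_neg, map_one, sq, Complex.mul_re, h1, Complex.neg_re,
    Complex.one_re, map_mul] at h2
  nlinarith [mul_self_nonneg (φ i).re]

theorem two_ne : ∀ u v : ZMod 2, u ≠ 0 → v ≠ 0 → u = v := by decide

/-- **local elements are global up to powers** -/
theorem ext (p : ℕ) [Fact p.Prime] : EXT p := fun K _ _ j x b hK hx b0 hb => by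
  have hp : p.Prime := Fact.out
  have hD : GK j ⊓ St x ≤ Gz p := inf_le_left.trans hK
  rcases hx with ⟨l, -, P, h, rfl⟩ | ⟨-, w, rfl⟩
  · rw [st_fp] at *
    haveI : Fact l.Prime := ⟨h.1⟩
    obtain ⟨e, he⟩ := ex_em h
    have n0 : 0 < ‖e b‖ := norm_pos_iff.2 ((map_ne_zero e).2 b0)
    have p0 : 0 < ‖(p : PadicAlgCl l)‖ ^ p :=
      pow_pos (norm_pos_iff.2 (Nat.cast_ne_zero.2 hp.ne_zero)) p
    have p1 : ‖(p : PadicAlgCl l)‖ ^ p ≤ 1 :=
      pow_le_one₀ (norm_nonneg _) (IsUltrametricDist.norm_natCast_le_one _ _)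
    obtain ⟨a, ha⟩ := he.dense j hb (mul_pos p0 n0)
    have a0 : j a ≠ 0 := fun c => by
      rw [c, map_zero, sub_zero] at ha
      nlinarith
    refine ⟨a, (map_ne_zero j).1 a0, fun g hg => ?_⟩
    rw [← sub_eq_zero, ← ka_div a0 b0 (hD hg) (hg.1 a) (hb g hg)]
    refine ka_near (e := e) (div_ne_zero a0 b0) ?_ hD
      (fun g hg => by rw [map_div₀, hg.1 a, hb g hg]) (fun g hg => he.norm hg.2) g hg
    rwa [map_div₀, one_sub_div ((map_ne_zero e).2 b0), norm_div, div_lt_iff₀ n0]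
  · obtain ⟨c, -, -, hS, hc⟩ := ex_cc w
    have k1 : ∀ y : Qb, y ≠ 0 → ka p y 1 = 0 := fun y hy =>
      (ka_eq_zero hy (rt_pow p y) (one_mem _) rfl).2 rfl
    by_cases h0 : ∀ g ∈ GK j ⊓ St (ip w), ka p b g = 0
    · exact ⟨1, one_ne_zero, fun g hg => by rw [map_one, ka_one (hD hg), h0 g hg]⟩
    push Not at h0
    obtain ⟨s, hs, s0⟩ := h0
    obtain rfl : s = c := ((hS s).1 hs.2).resolve_left fun e => s0 (e ▸ k1 b b0)
    obtain rfl : p = 2 := by
      have h2 : ((2 : ℕ) : ZMod p) = 0 := by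
        have := (oz_cc hc).symm.trans (mem_Gz.1 (hD hs))
        rw [Nat.cast_ofNat]
        linear_combination -this
      exact (Nat.prime_dvd_prime_iff_eq hp Nat.prime_two).1 ((ZMod.natCast_eq_zero_iff 2 p).1 h2)
    have m0 : (-1 : Qb) ≠ 0 := neg_ne_zero.2 one_ne_zero
    refine ⟨-1, neg_ne_zero.2 one_ne_zero, fun g hg => ?_⟩
    rw [map_neg, map_one]
    rcases (hS g).1 hg.2 with rfl | rfl
    · rw [k1 _ m0, k1 _ b0]
    · have s1 : ka 2 (-1) g ≠ 0 := fun z => cc_ne hc (rt_pow 2 (-1))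
        ((ka_eq_zero m0 (rt_pow 2 _) (hD hs) (by rw [map_neg, map_one])).1 z)
      exact two_ne _ _ s1 s0

end Vale.Agent.P022K.G2
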