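import Vale.Agent.P022K.G2.Bas

/-!
# P022K, block G2: counting with projective modules (rows `HQ2`, `HQ0`)
-/

set_option linter.all false

noncomputable section

namespace Vale.Agent.P022K.G2

open Module

namespace Hq

variable {G : Type} [Group G] [TopologicalSpace G] {k : Type} [Field k] {N : Type}
  [AddCommGroup N] [Module k N] {I : Set G} {Γ U : Subgroup G} {ρ : G → End k N} {ω : G → k}
  {A B : Type} [AddCommGroup A] [AddCommGroup B] {α : G → A →+ A} {β : G → B →+ B}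

theorem rk_map {X Y : Type} [AddCommGroup X] [Module k X] [AddCommGroup Y] [Module k Y]
    (f : X →ₗ[k] Y) (Z : Submodule k X) : rk Z = rk (Z.map f) + rk (Z ⊓ LinearMap.ker f) := by
  have h := LinearMap.rank_range_add_rank_ker (f.domRestrict Z)
  rw [LinearMap.range_domRestrict, LinearMap.ker_domRestrict] at h
  rw [rk, ← h]
  congr 1
  rw [← Submodule.map_comap_subtype]
  exact (Submodule.equivMapOfInjective _ Z.injective_subtype _).rank_eq

theorem rk_map' {X Y : Type} [AddCommMonoid X] [Module k X] [AddCommMonoid Y] [Module k Y]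
    (f : X →ₗ[k] Y) (Z : Submodule k X) : rk Z = rk (Z.map f) + rk (Z ⊓ LinearMap.ker f) :=
  @rk_map k _ X Y (Module.addCommMonoidToAddCommGroup k) _ (Module.addCommMonoidToAddCommGroup k) _
    f Z

omit [TopologicalSpace G] in
theorem tv_sum {R : Finset G} (h : Tv Γ U R) {M : Type} [AddCommMonoid M] (F : G → M)
    (hF : ∀ x ∈ Γ, ∀ u ∈ Γ, u ∈ U → F (x * u) = F x) {g : G} (hg : g ∈ Γ) :
    ∑ r ∈ R, F (g * r) = ∑ r ∈ R, F r := by
  choose s hs using fun r (hr : r ∈ R) => h.ex (g * r) (Γ.mul_mem hg (h.mem r hr))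
  have inj : ∀ a ha b hb, s a ha = s b hb → a = b := fun a ha b hb e => h.un a ha b hb (by
    have := U.mul_mem (U.inv_mem (hs a ha).2) (hs b hb).2
    rw [← e] at this
    convert this using 1
    group)
  refine Finset.sum_bij s (fun a ha => (hs a ha).1) inj (fun b hb => ?_) fun a ha => ?_
  · obtain ⟨a, ha, e⟩ := Finset.surj_on_of_inj_on_of_card_le s (fun a ha => (hs a ha).1)
      (fun a b ha hb => inj a ha b hb) le_rfl b hb
    exact ⟨a, ha, e.symm⟩
  · have m := h.mem _ (hs a ha).1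
    rw [← hF _ m _ (Γ.mul_mem (Γ.inv_mem m) (Γ.mul_mem hg (h.mem a ha))) (hs a ha).2,
      mul_inv_cancel_left]

/-- the pairings which kill `S` -/
def Ek (Γ : Subgroup G) (α : G → A →+ A) (ρ : G → End k N) (ω : G → k) (S : Set A) :
    Submodule k (A →+ Dual k N) where
  carrier := {f | f ∈ Ev Γ α ρ ω ∧ ∀ a ∈ S, f a = 0}
  add_mem' ha hb := ⟨add_mem ha.1 hb.1, fun a h => by
    rw [AddMonoidHom.add_apply, ha.2 a h, hb.2 a h, add_zero]⟩
  zero_mem' := ⟨zero_mem _, fun _ _ => rfl⟩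
  smul_mem' r f ha := ⟨Submodule.smul_mem _ r ha.1, fun a h => by
    rw [AddMonoidHom.smul_apply, ha.2 a h, smul_zero]⟩

theorem Ek_ev {S : Set A} (h : ∀ a ∈ S, a = 0) : Ek Γ α ρ ω S = Ev Γ α ρ ω :=
  Submodule.ext fun f => ⟨fun e => e.1, fun e => ⟨e, fun a ha => by rw [h a ha, map_zero]⟩⟩

/-- pull back -/
def pb (j : B →+ A) : (A →+ Dual k N) →ₗ[k] (B →+ Dual k N) where
  toFun f := f.comp j
  map_add' _ _ := rfl
  map_smul' _ _ := rfl

theorem pb_ev {j : B →+ A} (hj : ∀ g ∈ Γ, ∀ b, j (β g b) = α g (j b)) {f : A →+ Dual k N}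
    (hf : f ∈ Ev Γ α ρ ω) : f.comp j ∈ Ev Γ β ρ ω := fun g hg b n => by
  rw [AddMonoidHom.comp_apply, AddMonoidHom.comp_apply, hj g hg, hf g hg]

theorem Ac.one (h : Ac Γ U α) (a : A) : α 1 a = a := h.tri 1 Γ.one_mem U.one_mem a

/-- averaging -/
theorem avg (h : Pd I Γ U ρ ω) (hα : Ac Γ U α) (hβ : Ac Γ U β) {j : B →+ A}
    (hj : ∀ g ∈ Γ, ∀ b, j (β g b) = α g (j b)) {F : A →+ Dual k N}
    (hf : F.comp j ∈ Ev Γ β ρ ω) : ∃ F' ∈ Ev Γ α ρ ω, F'.comp j = F.comp j := by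
  obtain ⟨R, φ, hR, -, hφ⟩ := h.prj
  let F' : A →+ Dual k N :=
    ∑ r ∈ R, ω r • ((φ * ρ r⁻¹).dualMap.toAddMonoidHom.comp (F.comp (α r⁻¹)))
  have e : ∀ a n, F' a n = ∑ r ∈ R, ω r * F (α r⁻¹ a) (φ (ρ r⁻¹ n)) := fun a n => by
    simp only [F', AddMonoidHom.finsetSum_apply, LinearMap.sum_apply]
    rfl
  refine ⟨F', fun g hg a n => ?_, AddMonoidHom.ext fun b => LinearMap.ext fun n => ?_⟩
  · rw [e, e, ← tv_sum hR (fun r => ω r * F (α r⁻¹ a) (φ (ρ r⁻¹ n))) (fun x hx u hu m => ?_)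
      (Γ.inv_mem hg), Finset.mul_sum]
    · refine Finset.sum_congr rfl fun r hr => ?_
      have m := Γ.inv_mem (hR.mem r hr)
      rw [mul_inv_rev, inv_inv, hα.mul _ m _ hg, h.rp.mul' m hg, ← mul_assoc,
        ← h.mu.2 _ hg _ (Γ.mul_mem (Γ.inv_mem hg) (hR.mem r hr)), mul_inv_cancel_left]
    · have m1 := Γ.inv_mem hu
      have m2 := Γ.inv_mem hx
      rw [h.mu.2 _ hx _ hu, h.om u hu m, mul_one, mul_inv_rev, hα.mul _ m1 _ m2,
        hα.tri _ m1 (U.inv_mem m), h.rp.mul' m1 m2, h.tri _ m1 (U.inv_mem m), End.one_apply]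
  · rw [AddMonoidHom.comp_apply, e]
    have k1 : n = ∑ r ∈ R, ρ r (φ (ρ r⁻¹ n)) := by
      conv_lhs => rw [show n = (1 : End k N) n from rfl, ← hφ, LinearMap.sum_apply]
      rfl
    conv_rhs => rw [k1, map_sum]
    refine Finset.sum_congr rfl fun r hr => ?_
    have m := hR.mem r hr
    have := hf r m (β r⁻¹ b) (φ (ρ r⁻¹ n))
    rw [← hβ.mul _ m _ (Γ.inv_mem m), mul_inv_cancel, Ac.one hβ] at this
    rw [← hj _ (Γ.inv_mem m)]
    exact this.symm

theorem ext1 (p : ℕ) [Fact p.Prime] {Q V : Type} [AddCommGroup Q] [AddCommGroup V]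
    [Module (ZMod p) Q] [Module (ZMod p) V] (H : AddSubgroup Q) (g : H →+ V) :
    ∃ F : Q →+ V, ∀ x : H, F x = g x := by
  let g' : AddSubgroup.toZModSubmodule p H →+ V := g
  obtain ⟨F, hF⟩ := LinearMap.exists_extend (AddMonoidHom.toZModLinearMap p g')
  exact ⟨F.toAddMonoidHom, fun x => LinearMap.congr_fun hF x⟩

/-- extension of additive maps into a group killed by `p` -/
theorem ext0 (p : ℕ) [Fact p.Prime] {V : Type} [AddCommGroup V] (hV : ∀ v : V, p • v = 0)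
    (j : B →+ A) (f : B →+ V) (hf : ∀ b, (∃ a, j b = p • a) → f b = 0) :
    ∃ F : A →+ V, F.comp j = f := by
  let P : AddSubgroup A := (nsmulAddMonoidHom p : A →+ A).range
  let _ : Module (ZMod p) V := AddCommGroup.zmodModule hV
  let _ : Module (ZMod p) (A ⧸ P) := QuotientAddGroup.zmodModule fun a => ⟨a, rfl⟩
  let q : B →+ A ⧸ P := (QuotientAddGroup.mk' P).comp j
  have hq : q.ker ≤ f.ker := fun b hb => hf b (by
    obtain ⟨a, ha⟩ := (QuotientAddGroup.eq_zero_iff _).1 hb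
    exact ⟨a, ha.symm⟩)
  let g : q.range →+ V := (QuotientAddGroup.lift q.ker f hq).comp
    (QuotientAddGroup.quotientKerEquivRange q).symm.toAddMonoidHom
  obtain ⟨F, hF⟩ := ext1 p q.range g
  refine ⟨F.comp (QuotientAddGroup.mk' P), AddMonoidHom.ext fun b => ?_⟩
  refine (hF ⟨q b, b, rfl⟩).trans ?_
  have e : (QuotientAddGroup.quotientKerEquivRange q).symm ⟨q b, b, rfl⟩ = (b : B ⧸ q.ker) :=
    (AddEquiv.symm_apply_eq _).2 rfl
  show QuotientAddGroup.lift q.ker f hq ((QuotientAddGroup.quotientKerEquivRange q).symm _) = _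
  rw [e]; rfl

theorem p_dual (p : ℕ) [CharP k p] (v : Dual k N) : p • v = 0 := by
  rw [← Nat.cast_smul_eq_nsmul k, CharP.cast_eq_zero, zero_smul]

/-- **exactness** -/
theorem fund (p : ℕ) [Fact p.Prime] [CharP k p] (h : Pd I Γ U ρ ω) (hα : Ac Γ U α)
    (hβ : Ac Γ U β) (j : B →+ A) (hj : ∀ g ∈ Γ, ∀ b, j (β g b) = α g (j b)) :
    rk (Ev Γ α ρ ω) = rk (Ek Γ β ρ ω {b | ∃ a, j b = p • a}) + rk (Ek Γ α ρ ω (Set.range j)) := by
  have e1 : (Ev Γ α ρ ω).map (pb j) = Ek Γ β ρ ω {b | ∃ a, j b = p • a} := by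
    refine Submodule.ext fun f => ⟨?_, fun hf => ?_⟩
    · rintro ⟨F, hF, rfl⟩
      refine ⟨pb_ev hj hF, ?_⟩
      rintro b ⟨a, e⟩
      show F (j b) = 0
      rw [e, map_nsmul, p_dual]
    · obtain ⟨F, rfl⟩ := ext0 p (p_dual p) j f hf.2
      exact avg h hα hβ hj hf.1
  have e2 : Ev Γ α ρ ω ⊓ LinearMap.ker (pb j) = Ek Γ α ρ ω (Set.range j) :=
    Submodule.ext fun f => and_congr_right fun _ =>
      ⟨fun e => by rintro _ ⟨b, rfl⟩; exact DFunLike.congr_fun e b,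
        fun e => AddMonoidHom.ext fun b => e _ ⟨b, rfl⟩⟩
  rw [← e1, ← e2]
  exact rk_map' (pb j) _

/-- pull back along a surjection -/
theorem sur (j : B →+ A) (hj : ∀ g ∈ Γ, ∀ b, j (β g b) = α g (j b)) (hs : Function.Surjective j)
    {S : Set A} (h0 : 0 ∈ S) : rk (Ek Γ α ρ ω S) = rk (Ek Γ β ρ ω (j ⁻¹' S)) := by
  have e1 : (Ek Γ α ρ ω S).map (pb j) = Ek Γ β ρ ω (j ⁻¹' S) := by
    refine Submodule.ext fun f => ⟨?_, fun hf => ?_⟩
    · rintro ⟨F, hF, rfl⟩
      exact ⟨pb_ev hj hF.1, fun b hb => hF.2 _ hb⟩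
    · let F := j.liftOfSurjective hs ⟨f, fun b hb => hf.2 b (by
        show j b ∈ S
        rw [show j b = 0 from hb]; exact h0)⟩
      have e : ∀ b, F (j b) = f b := fun b => j.liftOfRightInverse_comp_apply _ _ _ b
      refine ⟨F, ⟨fun g hg a n => ?_, fun a ha => ?_⟩, AddMonoidHom.ext e⟩
      · obtain ⟨b, rfl⟩ := hs a
        rw [← hj g hg, e, e, hf.1 g hg]
      · obtain ⟨b, rfl⟩ := hs a
        rw [e, hf.2 b ha]
  rw [← e1]
  exact (Submodule.equivMapOfInjective (pb j) (fun f f' e => AddMonoidHom.ext fun a => by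
    obtain ⟨b, rfl⟩ := hs a
    exact DFunLike.congr_fun e b) _).rank_eq

/-- isomorphic modules -/
theorem iso (j : B →+ A) (hj : ∀ g ∈ Γ, ∀ b, j (β g b) = α g (j b)) (hs : Function.Bijective j) :
    rk (Ev Γ α ρ ω) = rk (Ev Γ β ρ ω) := by
  rw [← Ek_ev (S := {0}) fun _ h => h, sur j hj hs.2 (S := {0}) rfl,
    Ek_ev fun b hb => hs.1 (by rw [map_zero]; exact hb)]

open Classical in
/-- the action on a stable subgroup -/
def res (α : G → A →+ A) (S : AddSubgroup A) (h : ∀ g ∈ Γ, ∀ a ∈ S, α g a ∈ S) (g : G) :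
    S →+ S :=
  if m : g ∈ Γ then ((α g).comp S.subtype).codRestrict S fun a => h g m a a.2 else 0

theorem res_coe {S : AddSubgroup A} (h : ∀ g ∈ Γ, ∀ a ∈ S, α g a ∈ S) {g : G} (m : g ∈ Γ)
    (a : S) : (res α S h g a : A) = α g a := by
  rw [res, dif_pos m]; rfl

/-- an action is checked along an injection -/
theorem ac_inj (hα : Ac Γ U α) {j : B →+ A} (hj : ∀ g ∈ Γ, ∀ b, j (β g b) = α g (j b))
    (hi : Function.Injective j) : Ac Γ U β :=
  ⟨fun g hg h hh b => hi (by rw [hj _ (Γ.mul_mem hg hh), hj _ hg, hj _ hh, hα.mul g hg h hh]),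
    fun u hu m b => hi (by rw [hj _ hu, hα.tri u hu m])⟩

/-- an action is checked along a surjection -/
theorem ac_sur (hβ : Ac Γ U β) {j : B →+ A} (hj : ∀ g ∈ Γ, ∀ b, j (β g b) = α g (j b))
    (hs : Function.Surjective j) : Ac Γ U α :=
  ⟨fun g hg h hh a => by
      obtain ⟨b, rfl⟩ := hs a
      rw [← hj _ (Γ.mul_mem hg hh), ← hj _ hh, ← hj _ hg, hβ.mul g hg h hh],
    fun u hu m a => by
      obtain ⟨b, rfl⟩ := hs a
      rw [← hj _ hu, hβ.tri u hu m]⟩

theorem ac_res (hα : Ac Γ U α) {S : AddSubgroup A} (h : ∀ g ∈ Γ, ∀ a ∈ S, α g a ∈ S) :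
    Ac Γ U (res α S h) :=
  ac_inj hα (j := S.subtype) (fun _ m a => res_coe h m a) S.subtype_injective

theorem ac_tor (hα : Ac Γ U α) (p : ℕ) : Ac Γ U (tor p α) :=
  ac_inj hα (j := (Kp p A).subtype) (fun _ _ _ => rfl) (Kp p A).subtype_injective

/-- the map on the elements killed by `p` -/
def km (p : ℕ) (j : B →+ A) : Kp p B →+ Kp p A :=
  (j.comp (Kp p B).subtype).codRestrict _ fun b => by
    show p • j b = 0
    rw [← map_nsmul, show p • (b : B) = 0 from b.2, map_zero]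

theorem kp_p {p : ℕ} (a : Kp p A) : p • a = 0 := Subtype.ext a.2

theorem fin_ev (hN : Module.Finite k N) [Finite A] : rk (Ev Γ α ρ ω) < Cardinal.aleph0 := by
  let c : (A →+ Dual k N) →ₗ[k] (A → Dual k N) :=
    { toFun := fun f => f, map_add' := fun _ _ => rfl, map_smul' := fun _ _ => rfl }
  haveI : Module.Finite k (A →+ Dual k N) :=
    Module.Finite.of_injective c fun _ _ e => DFunLike.coe_injective e
  exact (Submodule.rank_le _).trans_lt (Module.rank_lt_aleph0 k (A →+ Dual k N))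

theorem ev_zero (h : ∀ f : A →+ Dual k N, f = 0) : rk (Ev Γ α ρ ω) = 0 :=
  haveI : Subsingleton (Ev Γ α ρ ω) := ⟨fun a b => Subtype.ext ((h _).trans (h _).symm)⟩
  rank_subsingleton' k _

end Hq

open Hq

theorem hq2 : HQ2 := by
  intro p _ G _ _ k _ _ N _ _ I Γ U ρ ω A₁ A A₂ _ _ _ α₁ α α₂ i π h h1 h0 h2 hi hs ex ei eπ
  let B : AddSubgroup A₁ := (nsmulAddMonoidHom p : A →+ A).range.comap i
  let C : AddSubgroup A := (Kp p A₂).comap π
  have sB : ∀ g ∈ Γ, ∀ b ∈ B, α₁ g b ∈ B := by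
    rintro g hg b ⟨a, e⟩
    refine ⟨α g a, ?_⟩
    rw [ei g hg, ← e]
    exact (map_nsmul _ _ _).symm
  have sC : ∀ g ∈ Γ, ∀ c ∈ C, α g c ∈ C := fun g hg c hc => by
    show p • π _ = 0
    rw [eπ g hg, ← map_nsmul, show p • π c = 0 from hc, map_zero]
  choose m hm using fun c : C => (ex (p • (c : A))).1 ((map_nsmul _ _ _).trans c.2)
  let μ : C →+ B := AddMonoidHom.mk' (fun c => ⟨m c, c, (hm c).symm⟩) fun c c' =>
    Subtype.ext (hi (by
      show i (m _) = i (m c + m c')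
      rw [map_add, hm, hm, hm, ← nsmul_add]; rfl))
  have iμ : ∀ c, i (μ c) = p • (c : A) := hm
  let q : C →+ Kp p A₂ := (π.comp C.subtype).codRestrict _ fun c => c.2
  have e1 := sur (ρ := ρ) (ω := ω) π eπ hs (S := {0}) rfl
  have e2 := fund p h h0 h1 i ei
  have e3 := fund p h h1 (ac_res h1 sB) B.subtype fun g hg b => res_coe sB hg b
  have e4 := sur (ρ := ρ) (ω := ω) (α := res α₁ B sB) (β := res α C sC) μ
    (fun g hg c => Subtype.ext (hi (by
      rw [iμ, res_coe sC hg, res_coe sB hg, ei g hg, iμ, map_nsmul])))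
    (by
      rintro ⟨b, a, e⟩
      have e' : p • a = i b := e
      refine ⟨⟨a, ?_⟩, Subtype.ext (hi ((iμ _).trans e'))⟩
      show p • π a = 0
      rw [← map_nsmul, e']
      exact (ex _).2 ⟨b, rfl⟩)
    (S := {b | ∃ a, B.subtype b = p • a}) ⟨0, by simp⟩
  have e5 := sur (ρ := ρ) (ω := ω) (α := tor p α₂) (β := res α C sC) q
    (fun g hg c => Subtype.ext (by
      show π (res α C sC g c) = α₂ g (π c)
      rw [res_coe sC hg, eπ g hg]))
    (by
      rintro ⟨b, hb⟩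
      obtain ⟨a, rfl⟩ := hs b
      exact ⟨⟨a, hb⟩, rfl⟩)
    (S := Set.range (km p π)) ⟨0, map_zero _⟩
  have e6 := fund p h (ac_tor h2 p) (ac_tor h0 p) (km p π)
    fun g hg a => Subtype.ext (eπ g hg a)
  have e7 := fund p h (ac_tor h0 p) (ac_tor h1 p) (km p i)
    fun g hg a => Subtype.ext (ei g hg a)
  have s1 : π ⁻¹' {0} = Set.range i := Set.ext ex
  have s2 : Set.range B.subtype = {b | ∃ a, i b = p • a} := Set.ext fun b =>
    ⟨by rintro ⟨⟨b, a, e⟩, rfl⟩; exact ⟨a, e.symm⟩, fun ⟨a, e⟩ => ⟨⟨b, a, e.symm⟩, rfl⟩⟩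
  have s3 : μ ⁻¹' {b | ∃ a, B.subtype b = p • a} = q ⁻¹' Set.range (km p π) := Set.ext fun c => by
    constructor
    · rintro ⟨a, e⟩
      have e' : p • (c : A) = p • i a := by
        rw [← iμ, ← map_nsmul, ← e]; rfl
      refine ⟨⟨c - i a, show p • _ = 0 by rw [nsmul_sub, e', sub_self]⟩, Subtype.ext ?_⟩
      show π (c - i a) = π c
      rw [map_sub, (ex _).2 ⟨a, rfl⟩, sub_zero]
    · rintro ⟨t, e⟩
      have e' : π t = π c := congrArg Subtype.val e
      obtain ⟨a, ha⟩ := (ex (c - t)).1 (by rw [map_sub, e', sub_self])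
      refine ⟨a, hi ?_⟩
      rw [map_nsmul, ha, nsmul_sub, show p • (t : A) = 0 from t.2, sub_zero]
      exact iμ c
  have s4 : {t | ∃ s, km p π t = p • s} = Set.range (km p i) := Set.ext fun t => by
    constructor
    · rintro ⟨s, e⟩
      rw [kp_p] at e
      obtain ⟨a, ha⟩ := (ex t).1 (congrArg Subtype.val e)
      exact ⟨⟨a, hi (by rw [map_nsmul, ha, map_zero]; exact t.2)⟩, Subtype.ext ha⟩
    · rintro ⟨a, rfl⟩
      exact ⟨0, Subtype.ext (((ex _).2 ⟨a, rfl⟩).trans (nsmul_zero p).symm)⟩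
  rw [Ek_ev (S := {0}) fun _ h => h, s1] at e1
  rw [Ek_ev (S := {b | ∃ a, km p i b = p • a}) (by
    rintro b ⟨a, e⟩
    rw [kp_p] at e
    exact Subtype.ext (hi ((congrArg Subtype.val e).trans (map_zero i).symm)))] at e7
  rw [e2, e3, e6, e7, e4, e5, e1, s2, s3, s4]
  abel

theorem hq0 : HQ0 := by
  intro p _ G _ _ k _ _ N _ _ I Γ U ρ ω A _ _ α h hα
  refine ⟨?_, fin_ev h.fin⟩
  induction hn : Nat.card A using Nat.strong_induction_on generalizing A with
  | _ n ih =>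
  let P : AddSubgroup A := (nsmulAddMonoidHom p : A →+ A).range
  have sP : ∀ g ∈ Γ, ∀ b ∈ P, α g b ∈ P := by
    rintro g hg _ ⟨a, rfl⟩
    exact ⟨α g a, (map_nsmul _ _ _).symm⟩
  by_cases c : P = ⊤
  · have hs : Function.Surjective (nsmulAddMonoidHom p : A →+ A) := AddMonoidHom.range_eq_top.1 c
    have hi := Finite.injective_iff_surjective.2 hs
    rw [ev_zero, ev_zero]
    · exact fun f => AddMonoidHom.ext fun a => by
        rw [show a = 0 from Subtype.ext (hi (a.2.trans (nsmul_zero p).symm)), map_zero, map_zero]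
    · exact fun f => AddMonoidHom.ext fun a => by
        obtain ⟨b, rfl⟩ := hs a
        exact (map_nsmul _ _ _).trans (p_dual p _)
  have lt : Nat.card P < n := hn ▸ (AddSubgroup.card_le_card_addGroup P).lt_of_ne fun e =>
    c (AddSubgroup.eq_top_of_card_eq P e)
  have e1 := ih _ lt P (res α P sP) (ac_res hα sP) rfl
  have e2 := hq2 p G k N I Γ U ρ ω (Kp p A) A P (tor p α) α (res α P sP) (Kp p A).subtype
    (nsmulAddMonoidHom p : A →+ A).rangeRestrict h (ac_tor hα p) hα (ac_res hα sP)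
    (Kp p A).subtype_injective (AddMonoidHom.rangeRestrict_surjective _)
    (fun a => ⟨fun e => ⟨⟨a, congrArg Subtype.val e⟩, rfl⟩, by
      rintro ⟨b, rfl⟩; exact Subtype.ext b.2⟩) (fun _ _ _ => rfl)
    fun g hg a => Subtype.ext (by rw [res_coe sP hg]; exact (map_nsmul _ _ _).symm)
  have e3 := iso (ρ := ρ) (ω := ω) (Γ := Γ) (α := tor p α) (β := tor p (tor p α))
    (Kp p (Kp p A)).subtype (fun _ _ _ => rfl)
    ⟨AddSubgroup.subtype_injective _, fun a => ⟨⟨a, kp_p a⟩, rfl⟩⟩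
  rw [← e3, ← e1, add_right_comm _ (rk (Ev Γ (res α P sP) ρ ω))] at e2
  exact (Cardinal.add_right_inj_of_lt_aleph0 (fin_ev h.fin)).1
    ((Cardinal.add_right_inj_of_lt_aleph0 (fin_ev h.fin)).1 e2)

end Vale.Agent.P022K.G2
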