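import Vale.Agent.P022K.G2.Hq
import Vale.Agent.P022K.G2.Tr

/-!
# P022K, block G2: equivariant pairings (finite index, reduction modulo `p`, free lattices)
-/

set_option linter.all false

noncomputable section

namespace Vale.Agent.P022K.G2.Lp

open Module Hq

variable {G : Type} [Group G] [TopologicalSpace G] {k : Type} [Field k] {N : Type}
  [AddCommGroup N] [Module k N] {I : Set G} {Γ U Δ : Subgroup G} {ρ : G → End k N} {ω : G → k}
  {A B : Type} [AddCommGroup A] [AddCommGroup B] {α : G → A →+ A} {β : G → B →+ B}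
  (p : ℕ) [Fact p.Prime] [CharP k p]

theorem ac_fix (mul : ∀ g h a, α (g * h) a = α g (α h a)) {S : AddSubgroup A}
    (h : ∀ g ∈ Γ, ∀ a ∈ S, α g a ∈ S) (t : ∀ u ∈ Γ, u ∈ U → ∀ a ∈ S, α u a = a) :
    Ac Γ U (res α S h) :=
  ⟨fun g hg j hj a => Subtype.ext (by
    rw [res_coe h (mul_mem hg hj), res_coe h hg, res_coe h hj, mul]),
    fun u hu m a => Subtype.ext (by rw [res_coe h hu, t u hu m a a.2])⟩

theorem tor0 (h : ∀ a : A, p • a = 0 → a = 0) : rk (Ev Γ (tor p α) ρ ω) = 0 :=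
  ev_zero fun f => AddMonoidHom.ext fun a => by
    rw [show a = 0 from Subtype.ext (h a a.2), map_zero, map_zero]

/-- a subgroup of finite index -/
theorem fi (h : Pd I Γ U ρ ω) (hα : Ac Γ U α) (hβ : Ac Γ U β) (j : B →+ A)
    (hj : ∀ g ∈ Γ, ∀ b, j (β g b) = α g (j b)) (hi : Function.Injective j) {C : Type} [Finite C]
    (c : A → C) (hc : ∀ x y, c x = c y → x - y ∈ j.range) :
    rk (Ev Γ α ρ ω) + rk (Ev Γ (tor p β) ρ ω) = rk (Ev Γ β ρ ω) + rk (Ev Γ (tor p α) ρ ω) := by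
  classical
  haveI : Finite (A ⧸ j.range) := Finite.of_injective (fun q => c q.out) fun q q' e => by
    rw [← q.out_eq, ← q'.out_eq]
    exact QuotientAddGroup.eq_iff_sub_mem.2 (hc _ _ e)
  let γ : G → A ⧸ j.range →+ A ⧸ j.range := fun g => if m : g ∈ Γ then
    QuotientAddGroup.map _ _ (α g) (by rintro _ ⟨b, rfl⟩; exact ⟨_, hj g m b⟩) else 0
  have e : ∀ g ∈ Γ, ∀ a, QuotientAddGroup.mk' j.range (α g a) =
      γ g (QuotientAddGroup.mk' j.range a) := fun g m a => by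
    simp only [γ, dif_pos m]; rfl
  have hγ := ac_sur hα e (QuotientAddGroup.mk'_surjective _)
  have h2 := hq2 p G k N I Γ U ρ ω B A _ β α γ j _ h hβ hα hγ hi (QuotientAddGroup.mk'_surjective _)
    (fun a => QuotientAddGroup.eq_zero_iff a) hj e
  obtain ⟨h3, h4⟩ := hq0 p G k N I Γ U ρ ω _ γ h hγ
  rw [← h3, add_right_comm (rk (Ev Γ β ρ ω))] at h2
  exact (Cardinal.add_right_inj_of_lt_aleph0 h4).1 h2

/-- an isomorphism modulo `p` -/
theorem modp (h : Pd I Γ U ρ ω) (hα : Ac Γ U α) (hβ : Ac Γ U β) (j : B →+ A)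
    (hj : ∀ g ∈ Γ, ∀ b, j (β g b) = α g (j b)) (s : ∀ a, ∃ b, a = j b)
    (i : ∀ b a, j b = p • a → ∃ b', b = p • b') : rk (Ev Γ α ρ ω) = rk (Ev Γ β ρ ω) := by
  have e1 : Ek Γ β ρ ω {b | ∃ a, j b = p • a} = Ev Γ β ρ ω :=
    Submodule.ext fun f => ⟨fun e => e.1, fun e => ⟨e, fun b ⟨a, ha⟩ => by
      obtain ⟨b', rfl⟩ := i b a ha
      rw [map_nsmul, p_dual]⟩⟩
  have e2 : Ek Γ α ρ ω (Set.range j) = ⊥ := eq_bot_iff.2 fun f e => AddMonoidHom.ext fun a => by
    obtain ⟨b, rfl⟩ := s a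
    exact e.2 _ ⟨b, rfl⟩
  rw [fund p h hα hβ j hj, e1, e2]
  exact (congrArg _ (rank_bot _ _)).trans (add_zero _)

/-- a map which is additive modulo `p` -/
theorem twist (h : Pd I Γ U ρ ω) (hα : Ac Γ U α) (hβ : Ac Γ U β) (s : B → A)
    (su : Function.Surjective s) (ad : ∀ b b', ∃ a, s (b + b') = s b + s b' + p • a)
    (hs : ∀ g ∈ Γ, ∀ b, s (β g b) = α g (s b)) (i : ∀ b a, s b = p • a → ∃ b', b = p • b') :
    rk (Ev Γ α ρ ω) = rk (Ev Γ β ρ ω) := by
  let P : AddSubgroup A := (nsmulAddMonoidHom p : A →+ A).range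
  let π := QuotientAddGroup.mk' P
  let γ : G → A ⧸ P →+ A ⧸ P := fun g => QuotientAddGroup.map _ _ (α g) (by
    rintro _ ⟨b, rfl⟩; exact ⟨α g b, (map_nsmul (α g) p b).symm⟩)
  have z : ∀ a, π (p • a) = 0 := fun a => (QuotientAddGroup.eq_zero_iff _).2 ⟨a, rfl⟩
  have su' : ∀ q, ∃ a, q = π a := fun q => (QuotientAddGroup.mk'_surjective P q).imp fun _ => Eq.symm
  have k : ∀ a q, π a = p • q → ∃ a', a = p • a' := fun a q e => by
    obtain ⟨b, rfl⟩ := su' q
    rw [← map_nsmul, z] at e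
    exact ((QuotientAddGroup.eq_zero_iff _).1 e).imp fun _ => Eq.symm
  have hγ : Ac Γ U γ := ac_sur hα (j := π) (fun _ _ _ => rfl) (QuotientAddGroup.mk'_surjective _)
  rw [← modp p h hγ hα π (fun _ _ _ => rfl) su' k]
  refine modp p h hγ hβ (AddMonoidHom.mk' (fun b => π (s b)) fun b b' => ?_)
    (fun g hg b => congrArg π (hs g hg b)) (fun q => ?_) fun b q e => ?_
  · obtain ⟨a, e⟩ := ad b b'
    rw [e, map_add, map_add, z, add_zero]
  · obtain ⟨a, rfl⟩ := su' q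
    obtain ⟨b, rfl⟩ := su a
    exact ⟨b, rfl⟩
  · obtain ⟨a, e⟩ := k _ q e
    exact i b a e

variable (k N) in
/-- evaluation -/
def ev (b : B) : (B →+ Dual k N) →ₗ[k] Dual k N where
  toFun f := f b
  map_add' _ _ := rfl
  map_smul' _ _ := rfl

theorem ev_bij {b : B} (s : ∀ x, ∃ (m : ℤ) (y : B), x = m • b + p • y)
    (i : ∀ (m : ℤ) (y : B), m • b = p • y → (p : ℤ) ∣ m) : Function.Bijective (ev k N b) := by
  refine ⟨(injective_iff_map_eq_zero _).2 fun f e => AddMonoidHom.ext fun x => ?_, fun φ => ?_⟩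
  · obtain ⟨m, y, rfl⟩ := s x
    rw [map_add, map_zsmul, map_nsmul, p_dual, show f b = 0 from e, smul_zero, add_zero]; rfl
  · obtain ⟨F, hF⟩ := ext0 p (p_dual p) (zmultiplesHom B b) (zmultiplesHom _ φ) (by
      rintro m ⟨y, hy⟩
      obtain ⟨c, rfl⟩ := i m y hy
      rw [zmultiplesHom_apply, mul_comm, mul_smul, natCast_zsmul, p_dual, smul_zero])
    exact ⟨F, show F b = φ by simpa using DFunLike.congr_fun hF 1⟩

/-- groups which are cyclic modulo `p` -/
theorem cyc {b : B} (s : ∀ x, ∃ m : ℤ, x = m • b)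
    (i : ∀ (m : ℤ) (y : B), m • b = p • y → (p : ℤ) ∣ m) (e : G → ℤ) (χ : G → k)
    (he : ∀ g ∈ Γ, β g b = e g • b ∧ (e g : k) ≠ 0 ∧ ω g = e g * χ g) :
    rk (Ev Γ β ρ ω) = rk (Hm Γ ρ χ) := by
  have hb := ev_bij (k := k) (N := N) p (fun x => (s x).imp fun m h => ⟨0, by simpa using h⟩) i
  have : (Ev Γ β ρ ω).map (ev k N b) = Hm Γ ρ χ := by
    refine le_antisymm ?_ fun φ hφ => ?_
    · rintro _ ⟨f, hf, rfl⟩ g hg n
      have := hf g hg b n
      rw [(he g hg).1, (he g hg).2.2, map_zsmul, LinearMap.smul_apply, zsmul_eq_mul,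
        mul_assoc] at this
      exact mul_left_cancel₀ (he g hg).2.1 this
    · obtain ⟨f, rfl⟩ := hb.2 φ
      refine ⟨f, fun g hg x n => ?_, rfl⟩
      obtain ⟨m, rfl⟩ := s x
      have := hφ g hg n
      simp only [map_zsmul, (he g hg).1, (he g hg).2.2, LinearMap.smul_apply, zsmul_eq_mul]
      rw [show f b (ρ g n) = χ g * f b n from this]
      ring
  rw [← this]
  exact (Submodule.equivMapOfInjective _ hb.1 _).rank_eq

/-- the product with `ℤ` -/
theorem prodZ (h : Pd I Γ U ρ ω) (hβ : Ac Γ U β) (t : ∀ b : B, p • b = 0 → b = 0) :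
    Ac Γ U (fun g => (AddMonoidHom.id ℤ).prodMap (β g)) ∧
    rk (Ev Γ (tor p fun g => (AddMonoidHom.id ℤ).prodMap (β g)) ρ ω) = 0 ∧
    rk (Ev Γ (fun g => (AddMonoidHom.id ℤ).prodMap (β g)) ρ ω) =
      rk (Ev Γ β ρ ω) + rk (Hm Γ ρ ω) := by
  have p0 := (Fact.out : p.Prime).ne_zero
  have tz : ∀ m : ℤ, p • m = 0 → m = 0 := fun m e => by simpa [p0] using e
  have a : Ac Γ U (fun g => (AddMonoidHom.id ℤ).prodMap (β g)) :=
    ⟨fun g hg j hj x => Prod.ext rfl (hβ.mul g hg j hj x.2),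
      fun u hu m x => Prod.ext rfl (hβ.tri u hu m x.2)⟩
  have t' := tor0 (Γ := Γ) (ρ := ρ) (ω := ω) (α := fun g => (AddMonoidHom.id ℤ).prodMap (β g)) p
    fun x e => Prod.ext (tz _ (congrArg Prod.fst e)) (t _ (congrArg Prod.snd e))
  have := hq2 p G k N I Γ U ρ ω B _ ℤ β _ (fun _ => AddMonoidHom.id ℤ) (.inr ℤ B) (.fst ℤ B) h hβ a
    ⟨fun _ _ _ _ _ => rfl, fun _ _ _ _ => rfl⟩ (fun _ _ e => congrArg Prod.snd e)
    (fun m => ⟨(m, 0), rfl⟩) (fun x => ⟨fun e => ⟨x.2, Prod.ext (Eq.symm e) rfl⟩,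
      fun ⟨b, e⟩ => e ▸ rfl⟩) (fun _ _ _ => rfl) fun _ _ _ => rfl
  rw [t', tor0 p t, tor0 p tz, add_zero, add_zero, add_zero,
    cyc p (β := fun _ => AddMonoidHom.id ℤ) (b := 1) (fun x => ⟨x, by simp⟩)
      (fun m y e => ⟨y, by simpa using e⟩) (fun _ => 1) ω fun g _ => by simp] at this
  exact ⟨a, t', this⟩

variable (Δ Γ U B) in
/-- the functions on the cosets -/
def La : AddSubgroup (G → B) where
  carrier := {ψ | (∀ g ∈ Δ, ∀ u ∈ Γ, u ∈ U → ψ (g * u) = ψ g) ∧ ∀ g ∉ Δ, ψ g = 0}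
  add_mem' ha hb := ⟨fun g hg u hu m => by
    rw [Pi.add_apply, Pi.add_apply, ha.1 g hg u hu m, hb.1 g hg u hu m], fun g hg => by
    rw [Pi.add_apply, ha.2 g hg, hb.2 g hg, add_zero]⟩
  zero_mem' := ⟨fun _ _ _ _ _ => rfl, fun _ _ => rfl⟩
  neg_mem' ha := ⟨fun g hg u hu m => by rw [Pi.neg_apply, Pi.neg_apply, ha.1 g hg u hu m],
    fun g hg => by rw [Pi.neg_apply, ha.2 g hg, neg_zero]⟩

variable (B) in
/-- right translation -/
def rr (g : G) : (G → B) →+ (G → B) := AddMonoidHom.mk' (fun ψ x => ψ (x * g)) fun _ _ => rfl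

theorem la_st (le : Γ ≤ Δ) (n : Nz Γ U) : ∀ g ∈ Γ, ∀ ψ ∈ La Γ U Δ B, rr B g ψ ∈ La Γ U Δ B :=
  fun g hg ψ h => ⟨fun x hx u hu m => by
    show ψ (x * u * g) = ψ (x * g)
    rw [← h.1 _ (mul_mem hx (le hg)) _ (cj_mem hg hu) (n.conj' hg m)]
    congr 1; group,
    fun x hx => h.2 _ fun m => hx (by simpa using mul_mem m (inv_mem (le hg)))⟩

theorem la_ac (le : Γ ≤ Δ) (n : Nz Γ U) : Ac Γ U (res (rr B) _ (la_st le n)) :=
  ac_fix (fun g h ψ => funext fun x => congrArg ψ (mul_assoc x g h).symm) _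
    fun u hu m ψ h => funext fun x => by
      by_cases hx : x ∈ Δ
      · exact h.1 x hx u hu m
      · exact (h.2 _ fun m => hx (by simpa using mul_mem m (inv_mem (le hu)))).trans (h.2 x hx).symm

/-- a free lattice -/
theorem la_rk (h : Pd I Γ U ρ ω) (le : Γ ≤ Δ) {T : Finset G} (hT : Tv Δ Γ T) :
    rk (Ev Γ (res (rr B) _ (la_st le h.nz)) ρ ω) = T.card * Module.rank k (B →+ Dual k N) := by
  classical
  obtain ⟨R, hR⟩ := ex_tv h.le.relIndex
  let δ : ∀ t ∈ Δ, B →+ La Γ U Δ B := fun t ht => AddMonoidHom.mk' (fun b =>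
    ⟨fun x => if t⁻¹ * x ∈ Γ ⊓ U then b else 0, fun x hx u hu m => by
      have : t⁻¹ * (x * u) ∈ Γ ⊓ U ↔ t⁻¹ * x ∈ Γ ⊓ U := by
        rw [← mul_assoc]; exact Subgroup.mul_mem_cancel_right _ ⟨hu, m⟩
      simp only [this], fun x hx => if_neg fun m => hx (by simpa using mul_mem ht (le m.1))⟩)
    fun a b => Subtype.ext (funext fun x => by
      simp only [AddSubgroup.coe_add, Pi.add_apply]; split_ifs <;> simp)
  have hδ : ∀ t ht b x, (δ t ht b).1 x = if t⁻¹ * x ∈ Γ ⊓ U then b else 0 := fun _ _ _ _ => rfl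
  have act : ∀ g ∈ Γ, ∀ (ψ : La Γ U Δ B) x,
      (res (rr B) _ (la_st le h.nz) g ψ).1 x = ψ.1 (x * g) := fun g hg ψ x => by
    rw [res_coe _ hg]; rfl
  have one : ∀ (t t' : T) (r : G), r ∈ Γ → (t : G)⁻¹ * (t' * r) ∈ Γ ⊓ U → t = t' := fun t t' r hr m =>
    Subtype.ext (hT.un _ t.2 _ t'.2 (by simpa [mul_assoc] using Γ.mul_mem m.1 (inv_mem hr)))
  let E : Ev Γ (res (rr B) _ (la_st le h.nz)) ρ ω →ₗ[k] (T → B →+ Dual k N) :=
    { toFun := fun f t => f.1.comp (δ t (hT.mem _ t.2))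
      map_add' := fun _ _ => rfl
      map_smul' := fun _ _ => rfl }
  have hE : Function.Bijective E := by
    refine ⟨fun f f' e => Subtype.ext (AddMonoidHom.ext fun ψ => ?_), fun l => ?_⟩
    · have d : ψ = ∑ t : T, ∑ r ∈ R, res (rr B) _ (la_st le h.nz) r⁻¹
          (δ t (hT.mem _ t.2) (ψ.1 (t * r))) := Subtype.ext (funext fun x => by
        simp only [AddSubmonoidClass.coe_finset_sum, Finset.sum_apply]
        rw [Finset.sum_congr rfl fun t _ => Finset.sum_congr rfl fun r hr => by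
          rw [act _ (inv_mem (hR.mem r hr)), hδ _ (hT.mem _ t.2)]]
        by_cases hx : x ∈ Δ
        · obtain ⟨t, t1, t2⟩ := hT.ex x hx
          obtain ⟨r, r1, r2⟩ := hR.ex _ t2
          have r3 := hR.mem r r1
          rw [Finset.sum_eq_single ⟨t, t1⟩ (fun t' _ z => Finset.sum_eq_zero fun r' hr' =>
            if_neg fun m => z (Subtype.ext (hT.un _ t'.2 _ t1 (by
              simpa [mul_assoc] using Γ.mul_mem (Γ.mul_mem m.1 (hR.mem _ hr')) (inv_mem t2)))))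
            (by simp), Finset.sum_eq_single r (fun r' hr' z => if_neg fun m => z (hR.un _ hr' _ r1
              (by simpa [mul_assoc] using mul_mem (h.nz.conj' (hR.mem _ hr') m.2) (inv_mem r2))))
            (fun z => (z r1).elim), if_pos ⟨by
              simpa [mul_assoc] using mul_mem t2 (inv_mem r3), by
              simpa [mul_assoc] using h.nz r r3 _ r2⟩,
            ← ψ.2.1 _ (mul_mem (hT.mem t t1) (le r3)) _ (mul_mem (inv_mem r3) t2) r2]
          congr 1; group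
        · rw [ψ.2.2 x hx]
          exact (Finset.sum_eq_zero fun t _ => Finset.sum_eq_zero fun r hr => if_neg fun m => hx (by
            simpa [mul_assoc] using mul_mem (mul_mem (hT.mem _ t.2) (le m.1))
              (le (hR.mem r hr)))).symm)
      rw [d, map_sum, map_sum]
      refine Finset.sum_congr rfl fun t _ => ?_
      rw [map_sum, map_sum]
      refine Finset.sum_congr rfl fun r hr => LinearMap.ext fun n => ?_
      rw [← h.rp.inv' (hR.mem r hr) n, f.2 _ (inv_mem (hR.mem r hr)),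
        f'.2 _ (inv_mem (hR.mem r hr)),
        show f.1 (δ t (hT.mem _ t.2) _) = f'.1 (δ t (hT.mem _ t.2) _) from DFunLike.congr_fun (congrFun e t) _]
    · let F : La Γ U Δ B →+ Dual k N := ∑ t : T, ∑ r ∈ R, ω r⁻¹ •
        ((ρ r).dualMap.toAddMonoidHom.comp ((l t).comp
          ((Pi.evalAddMonoidHom (fun _ => B) (t * r)).comp (La Γ U Δ B).subtype)))
      have hF : ∀ ψ n, F ψ n = ∑ t : T, ∑ r ∈ R, ω r⁻¹ * l t (ψ.1 (t * r)) (ρ r n) := fun ψ n => by
        simp [F, AddMonoidHom.finset_sum_apply]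
      have iv : ∀ (ψ : La Γ U Δ B) n (t : T), ∀ y ∈ Γ, ∀ u ∈ Γ, u ∈ U →
          ω (y * u)⁻¹ * l t (ψ.1 (t * (y * u))) (ρ (y * u) n) =
            ω y⁻¹ * l t (ψ.1 (t * y)) (ρ y n) := fun ψ n t y hy u hu m => by
        have m' := h.nz y hy u m
        rw [mul_inv_rev, h.mu.2 _ (inv_mem hu) _ (inv_mem hy), h.om _ (inv_mem hu) (inv_mem m),
          one_mul, ← mul_assoc, ψ.2.1 _ (mul_mem (hT.mem _ t.2) (le hy)) u hu m, h.rp.mul' hy hu,
          h.tri u hu m]; rfl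
      refine ⟨⟨F, fun g hg ψ n => ?_⟩, funext fun t => AddMonoidHom.ext fun b =>
        LinearMap.ext fun n => ?_⟩
      · rw [hF, hF, Finset.mul_sum]
        refine Finset.sum_congr rfl fun t _ => ?_
        rw [← hR.sum_mul' h.nz hg (fun y => ω y⁻¹ * l t (ψ.1 (t * y)) (ρ y n)) (iv ψ n t),
          Finset.mul_sum]
        refine Finset.sum_congr rfl fun r hr => ?_
        have r1 := hR.mem r hr
        rw [act g hg, mul_assoc, h.rp.mul' r1 hg, mul_inv_rev, h.mu.2 _ (inv_mem hg) _ (inv_mem r1),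
          ← mul_assoc (ω g), ← mul_assoc (ω g), h.mu.inv hg, one_mul]
      · obtain ⟨r, r1, r2⟩ := hR.ex 1 (one_mem _)
        rw [mul_one, inv_mem_iff] at r2
        have r3 := hR.mem r r1
        show F (δ t (hT.mem _ t.2) b) n = l t b n
        rw [hF, Finset.sum_eq_single t (fun t' _ z => Finset.sum_eq_zero fun r' hr' => by
          rw [hδ _ (hT.mem _ t.2), if_neg fun m => z (one t t' r' (hR.mem _ hr') m).symm]; simp) (by simp),
          Finset.sum_eq_single r (fun r' hr' z => by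
            rw [hδ _ (hT.mem _ t.2), if_neg fun m => z (hR.un _ r1 _ hr' (by
              simpa using mul_mem (inv_mem r2) m.2)).symm]; simp) (fun z => (z r1).elim),
          hδ _ (hT.mem _ t.2),
          if_pos (by simpa using ⟨r3, r2⟩), h.om _ (inv_mem r3) (inv_mem r2), h.tri r r3 r2, one_mul]
        rfl
  haveI : Module.Free k (B →+ Dual k N) :=
    @Module.Free.of_divisionRing k _ _ (Module.addCommMonoidToAddCommGroup k) _
  rw [rk, (LinearEquiv.ofBijective E hE).rank_eq, rank_pi]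
  simp

end Vale.Agent.P022K.G2.Lp
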