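import Vale.Agent.P022K.G2.Rps

/-!
# P022K, block G2: permutation modules, the lemma of Shapiro, conjugation, direct sums
-/

set_option linter.all false

noncomputable section

namespace Vale.Agent.P022K.G2.Sb

open Module

variable {G : Type} [Group G] [TopologicalSpace G] {k : Type} [Field k] {N : Type}
  [AddCommGroup N] [Module k N] {I : Set G} {Γ A A' : Subgroup G} {ρ : G → End k N} {ω : G → k}
  {Q J : Type} {a : G → Equiv.Perm Q}

theorem rk_pi (ι : Type) [Fintype ι] : ∀ (M : ι → Type) [∀ i, AddCommGroup (M i)]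
    [∀ i, Module k (M i)], Module.rank k (∀ i, M i) = ∑ i, Module.rank k (M i) := by
  refine Fintype.induction_empty_option (P := fun ι _ => ∀ (M : ι → Type)
    [∀ i, AddCommGroup (M i)] [∀ i, Module k (M i)],
    Module.rank k (∀ i, M i) = ∑ i, Module.rank k (M i)) (fun α β _ e h M _ _ => ?_)
    (fun M _ _ => by simp [rank_subsingleton']) (fun α _ h M _ _ => ?_) ι
  · let _ := Fintype.ofEquiv β e.symm
    rw [← (LinearEquiv.piCongrLeft k M e).rank_eq, h, e.sum_comp fun i => Module.rank k (M i)]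
  · rw [(LinearEquiv.piOptionEquivProd k).rank_eq, rank_prod', h, Fintype.sum_option]

theorem rk_prod {X Y : Type} [AddCommGroup X] [Module k X] [AddCommGroup Y] [Module k Y]
    (Z : Submodule k X) (Z' : Submodule k Y) : Module.rank k (Z × Z') = rk Z + rk Z' := rank_prod'

theorem rk_pi' {X : Type} [AddCommGroup X] [Module k X] [Fintype J] (Z : J → Submodule k X) :
    Module.rank k (∀ j, Z j) = ∑ j, rk (Z j) := rk_pi J fun j => Z j

theorem rk_le {X Y : Type} [AddCommGroup X] [Module k X] [AddCommGroup Y] [Module k Y]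
    {Z : Submodule k X} {Z' : Submodule k Y} (f : X →ₗ[k] Y) (h : ∀ z ∈ Z, f z ∈ Z')
    (i : Function.Injective f) : rk Z ≤ rk Z' :=
  (f.restrict h).rank_le_of_injective fun _ _ e => Subtype.ext (i (congrArg Subtype.val e))

theorem lv_iInf [Finite J] {W : J → Subgroup G} (h : ∀ j, Lv I (W j)) : Lv I (⨅ j, W j) :=
  ⟨Subgroup.normal_iInf_normal fun j => (h j).nrm,
    by rw [Subgroup.coe_iInf]; exact isOpen_iInter_of_finite fun j => (h j).opn,
    Subgroup.finiteIndex_iInf fun j => (h j).fin,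
    fun _ x => Subgroup.mem_iInf.2 fun j => (h j).sub x⟩

/-! ### conjugation -/

theorem cj_z (r : Rp I Γ ρ) {I' : Set G} {g : G} (hg : g ∈ Γ) (le : A ≤ Γ)
    (e : ∀ x, x ∈ A' ↔ g⁻¹ * x * g ∈ A) : rk (Z1 I' A ρ) ≤ rk (Z1 I' A' ρ) := by
  have m : ∀ x ∈ A', x ∈ Γ := fun x hx => by
    simpa [mul_assoc] using mul_mem (mul_mem hg (le ((e x).1 hx))) (inv_mem hg)
  refine rk_le (((ρ g).compLeft G).comp (LinearMap.funLeft k N fun x => g⁻¹ * x * g))
    (fun c ⟨h1, h2, W, hW, h3⟩ => ⟨fun x hx y hy => ?_, fun x hx => ?_, W, hW, fun w hw m => ?_⟩)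
    fun c c' h => funext fun x => ?_
  · change ρ g (c (g⁻¹ * (x * y) * g)) = ρ g (c (g⁻¹ * x * g)) + ρ x (ρ g (c (g⁻¹ * y * g)))
    rw [show g⁻¹ * (x * y) * g = g⁻¹ * x * g * (g⁻¹ * y * g) by group,
      h1 _ ((e x).1 hx) _ ((e y).1 hy), map_add, ← r.mul' hg (le ((e x).1 hx)),
      ← r.mul' (m x hx) hg, show g * (g⁻¹ * x * g) = x * g by group]
  · exact (congrArg (ρ g) (h2 _ (mt (e x).2 hx))).trans (map_zero _)
  · exact (congrArg (ρ g) (h3 _ ((e w).1 hw) (by simpa using hW.nrm.conj_mem w m g⁻¹))).trans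
      (map_zero _)
  · have : ρ g (c _) = ρ g (c' _) := congrFun h (g * x * g⁻¹)
    have := congrArg (ρ g⁻¹) this
    simpa [r.inv' hg, mul_assoc] using this

theorem cj_h (r : Rp I Γ ρ) (u : Mu Γ ω) {g : G} (hg : g ∈ Γ) (le : A ≤ Γ)
    (e : ∀ x, x ∈ A' ↔ g⁻¹ * x * g ∈ A) : rk (Hm A ρ ω) ≤ rk (Hm A' ρ ω) := by
  have m : ∀ x ∈ A', x ∈ Γ := fun x hx => by
    simpa [mul_assoc] using mul_mem (mul_mem hg (le ((e x).1 hx))) (inv_mem hg)
  refine rk_le (ρ g⁻¹).dualMap (fun φ h x hx n => ?_) (LinearMap.dualMap_injective_of_surjective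
    fun n => ⟨_, r.inv' hg n⟩)
  have := h _ ((e x).1 hx) (ρ g⁻¹ n)
  rw [← r.mul' (le ((e x).1 hx)) (inv_mem hg), mul_inv_cancel_right, r.mul' (inv_mem hg) (m x hx),
    u.2 _ (mul_mem (inv_mem hg) (m x hx)) g hg, u.2 _ (inv_mem hg) x (m x hx),
    mul_right_comm (ω g⁻¹), mul_comm (ω g⁻¹), u.inv hg, one_mul] at this
  exact this

/-! ### direct sums -/

section sum

variable {X M : Type} [AddCommGroup X] [Module k X] [AddCommGroup M] [Module k M]
  {ξ : G → End k X} {μ : G → End k M} (e : (N × X) ≃ₗ[k] M)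
  (h : ∀ g ∈ A, ∀ n y, μ g (e (n, y)) = e (ρ g n, ξ g y))
include h

theorem sum_z : rk (Z1 I A ρ) + rk (Z1 I A ξ) = rk (Z1 I A μ) := by
  let F : (Z1 I A ρ × Z1 I A ξ) →ₗ[k] G → M :=
    { toFun := fun c g => e (c.1.1 g, c.2.1 g)
      map_add' := fun _ _ => funext fun _ => map_add e (_, _) (_, _)
      map_smul' := fun r _ => funext fun _ => map_smul e r (_, _) }
  rw [← rank_prod', ← rank_range_of_injective F fun c d w => Prod.ext
    (Subtype.ext (funext fun g => congrArg Prod.fst (e.injective (congrFun w g))))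
    (Subtype.ext (funext fun g => congrArg Prod.snd (e.injective (congrFun w g))))]
  refine congrArg rk (le_antisymm ?_ fun u ⟨h1, h2, W, hW, h3⟩ => ?_)
  · rintro _ ⟨⟨⟨c, c1, c2, W, hW, c3⟩, d, d1, d2, V, hV, d3⟩, rfl⟩
    refine ⟨fun g hg j hj => ?_, fun g hg => ?_, _, hW.inf hV, fun w hw m => ?_⟩
    · change e (c _, d _) = e (c _, d _) + μ g (e (c _, d _))
      rw [h g hg, ← map_add, c1 g hg j hj, d1 g hg j hj]
      rfl
    · exact (congrArg₂ (fun a b => e (a, b)) (c2 g hg) (d2 g hg)).trans (map_zero e)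
    · exact (congrArg₂ (fun a b => e (a, b)) (c3 w hw m.1) (d3 w hw m.2)).trans (map_zero e)
  · have k : ∀ g ∈ A, ∀ j ∈ A, e.symm (u (g * j)) =
        e.symm (u g) + (ρ g (e.symm (u j)).1, ξ g (e.symm (u j)).2) := fun g hg j hj => by
      rw [e.symm_apply_eq, map_add, ← h g hg, e.apply_symm_apply, e.apply_symm_apply, h1 g hg j hj]
    exact ⟨(⟨fun g => (e.symm (u g)).1, fun g hg j hj => congrArg Prod.fst (k g hg j hj),
      fun g hg => by simp [h2 g hg], W, hW, fun w hw m => by simp [h3 w hw m]⟩,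
      ⟨fun g => (e.symm (u g)).2, fun g hg j hj => congrArg Prod.snd (k g hg j hj),
      fun g hg => by simp [h2 g hg], W, hW, fun w hw m => by simp [h3 w hw m]⟩),
      funext fun g => e.apply_symm_apply _⟩

omit [TopologicalSpace G] in
theorem sum_h : rk (Hm A ρ ω) + rk (Hm A ξ ω) = rk (Hm A μ ω) := by
  let F : (Hm A ρ ω × Hm A ξ ω) →ₗ[k] Dual k M :=
    { toFun := fun c => (c.1.1.coprod c.2.1).comp e.symm.toLinearMap
      map_add' := fun _ _ => LinearMap.ext fun _ => by simp; abel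
      map_smul' := fun r _ => LinearMap.ext fun _ => by simp [mul_add] }
  refine (rk_prod (Hm A ρ ω) (Hm A ξ ω)).symm.trans ?_
  rw [← rank_range_of_injective F fun c d w => Prod.ext
    (Subtype.ext (LinearMap.ext fun n => by simpa [F] using LinearMap.congr_fun w (e (n, 0))))
    (Subtype.ext (LinearMap.ext fun n => by simpa [F] using LinearMap.congr_fun w (e (0, n))))]
  refine congrArg rk (le_antisymm ?_ fun u hu => ?_)
  · rintro _ ⟨⟨⟨c, hc⟩, d, hd⟩, rfl⟩ g hg m
    obtain ⟨⟨n, y⟩, rfl⟩ := e.surjective m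
    simp [F, h g hg, hc g hg n, hd g hg y, mul_add]
  · refine ⟨(⟨u.comp (e.toLinearMap.comp (.inl k N X)), fun g hg n => ?_⟩,
      ⟨u.comp (e.toLinearMap.comp (.inr k N X)), fun g hg n => ?_⟩), LinearMap.ext fun m => ?_⟩
    · simpa [h g hg] using hu g hg (e (n, 0))
    · simpa [h g hg] using hu g hg (e (0, n))
    · simp [F, ← map_add]

end sum

/-! ### permutation modules -/

/-- an action of `A` on `Q` -/
structure Act (A : Subgroup G) (a : G → Equiv.Perm Q) : Prop where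
  one : ∀ x, a 1 x = x
  mul : ∀ g ∈ A, ∀ h ∈ A, ∀ x, a (g * h) x = a g (a h x)

omit [TopologicalSpace G] in
theorem Act.mono (h : Act Γ a) (e : A ≤ Γ) : Act A a :=
  ⟨h.one, fun g hg j hj => h.mul g (e hg) j (e hj)⟩

omit [TopologicalSpace G] in
theorem Act.inv (h : Act A a) {g : G} (hg : g ∈ A) (x : Q) : a g (a g⁻¹ x) = x := by
  rw [← h.mul g hg _ (inv_mem hg), mul_inv_cancel, h.one]

omit [TopologicalSpace G] in
theorem Act.inv' (h : Act A a) {g : G} (hg : g ∈ A) (x : Q) : a g⁻¹ (a g x) = x := by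
  rw [← h.mul _ (inv_mem hg) g hg, inv_mul_cancel, h.one]

/-- the functions on `Q` -/
def pm (ρ : G → End k N) (a : G → Equiv.Perm Q) (g : G) : End k (Q → N) :=
  ((ρ g).compLeft Q).comp (LinearMap.funLeft k N (a g⁻¹))

omit [TopologicalSpace G] in
theorem pm_apply (g : G) (f : Q → N) (x : Q) : pm ρ a g f x = ρ g (f (a g⁻¹ x)) := rfl

omit [TopologicalSpace G] in
theorem pm_single [DecidableEq Q] (h : Act A a) {g : G} (hg : g ∈ A) (x : Q) (n : N) :
    pm ρ a g (Pi.single x n) = Pi.single (a g x) (ρ g n) := funext fun y => by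
  obtain ⟨y, rfl⟩ := (a g).surjective y
  rw [pm_apply, h.inv' hg]
  by_cases e : y = x <;> simp [e]

/-- representatives `q j` of the orbits, their stabilisers, a section -/
structure Orb (A : Subgroup G) (a : G → Equiv.Perm Q) (q : J → Q) (D : J → Subgroup G)
    (o : Q → J) (s : Q → G) : Prop where
  act : Act A a
  st : ∀ j g, g ∈ D j ↔ g ∈ A ∧ a g (q j) = q j
  oq : ∀ j, o (q j) = j
  oa : ∀ g ∈ A, ∀ x, o (a g x) = o x
  sA : ∀ x, s x ∈ A
  sq : ∀ x, a (s x) (q (o x)) = x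
  s1 : ∀ j, s (q j) = 1

omit [TopologicalSpace G] in
theorem exists_orb (h : Act A a) {q : J → Q} {D : J → Subgroup G}
    (st : ∀ j g, g ∈ D j ↔ g ∈ A ∧ a g (q j) = q j) (ex : ∀ x, ∃ j, ∃ g ∈ A, a g (q j) = x)
    (un : ∀ i j, ∀ g ∈ A, a g (q i) = q j → i = j) : ∃ o s, Orb A a q D o s := by
  choose o s s1 s2 using ex
  have oq : ∀ j, o (q j) = j := fun j => un _ _ _ (s1 _) (s2 _)
  refine ⟨o, fun x => s x * (s (q (o x)))⁻¹, h, st, oq, fun g hg x => (un _ _ _
    (mul_mem (inv_mem (s1 (a g x))) (mul_mem hg (s1 x))) ?_).symm,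
    fun x => mul_mem (s1 _) (inv_mem (s1 _)), fun x => ?_, fun j => by rw [oq, mul_inv_cancel]⟩
  · rw [h.mul _ (inv_mem (s1 _)) _ (mul_mem hg (s1 x)), h.mul g hg _ (s1 x), s2,
      ← congrArg (a (s (a g x))⁻¹) (s2 (a g x)), h.inv' (s1 _)]
  · have := s2 (q (o x))
    rw [oq] at this
    rw [h.mul _ (s1 _) _ (inv_mem (s1 _)), ← congrArg (a (s (q (o x)))⁻¹) this, h.inv' (s1 _), s2]

namespace Orb

variable {q : J → Q} {D : J → Subgroup G} {o : Q → J} {s : Q → G} (h : Orb A a q D o s)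
include h

omit [TopologicalSpace G] in
theorem le (j : J) : D j ≤ A := fun g m => ((h.st j g).1 m).1

omit [TopologicalSpace G] in
theorem si (x : Q) : a (s x)⁻¹ x = q (o x) := by
  rw [← congrArg (a (s x)⁻¹) (h.sq x), h.act.inv' (h.sA x)]

omit [TopologicalSpace G] in
theorem bm {g : G} (hg : g ∈ A) (x : Q) : (s x)⁻¹ * g * s (a g⁻¹ x) ∈ D (o x) := by
  have m := mul_mem (inv_mem (h.sA x)) hg
  refine (h.st _ _).2 ⟨mul_mem m (h.sA _), ?_⟩
  rw [h.act.mul _ m _ (h.sA _), ← h.oa _ (inv_mem hg) x, h.sq, h.act.mul _ (inv_mem (h.sA x)) g hg,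
    h.act.inv hg, h.si, h.oa _ (inv_mem hg)]

theorem key (r : Rp I A ρ) {g : G} (hg : g ∈ A) (x : Q) (n : N) :
    ρ (s x) (ρ ((s x)⁻¹ * g * s (a g⁻¹ x)) n) = ρ g (ρ (s (a g⁻¹ x)) n) := by
  rw [← r.mul' (h.sA x) (h.le _ (h.bm hg x)), ← r.mul' hg (h.sA _), mul_assoc,
    mul_inv_cancel_left]

variable [Fintype Q] [Fintype J]

/-- **lemma of Shapiro**, cocycles -/
theorem shz (r : Rp I A ρ) (tv : ∃ W, Lv I W ∧ ∀ w ∈ A, w ∈ W → ∀ x, a w x = x) :
    rk (Z1 I A (pm ρ a)) + Fintype.card J * Module.rank k N =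
      ∑ j, rk (Z1 I (D j) ρ) + Fintype.card Q * Module.rank k N := by
  classical
  let F : ((∀ j, Z1 I (D j) ρ) × (Q → N)) →ₗ[k] G → Q → N :=
    { toFun := fun z g x => if g ∈ A then z.2 x - ρ g (z.2 (a g⁻¹ x)) +
        ρ (s x) ((z.1 (o x)).1 ((s x)⁻¹ * g * s (a g⁻¹ x))) else 0
      map_add' := fun _ _ => funext₂ fun g x => by
        by_cases e : g ∈ A <;> simp [e]
        abel
      map_smul' := fun _ _ => funext₂ fun g x => by
        by_cases e : g ∈ A <;> simp [e, smul_sub] }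
  have hF : ∀ z, ∀ g ∈ A, ∀ x, F z g x = z.2 x - ρ g (z.2 (a g⁻¹ x)) +
      ρ (s x) ((z.1 (o x)).1 ((s x)⁻¹ * g * s (a g⁻¹ x))) := fun z g hg x => if_pos hg
  let K : (J → N) →ₗ[k] (∀ j, Z1 I (D j) ρ) × (Q → N) :=
    { toFun := fun n => (fun j => ⟨_, d0_mem (r.mono subset_rfl (h.le j)) (n j)⟩,
        fun x => ρ (s x) (n (o x)))
      map_add' := fun _ _ => Prod.ext (funext fun j => Subtype.ext (funext fun g => by
        by_cases e : g ∈ D j <;> simp [e])) (funext fun x => by simp)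
      map_smul' := fun _ _ => Prod.ext (funext fun j => Subtype.ext (funext fun g => by
        by_cases e : g ∈ D j <;> simp [e])) (funext fun x => by simp) }
  have e1 : LinearMap.range F = Z1 I A (pm ρ a) := by
    refine le_antisymm ?_ fun c hc => ?_
    · rintro _ ⟨z, rfl⟩
      obtain ⟨W, hW, w1⟩ := tv
      obtain ⟨V, hV, v1⟩ := r.lv
      choose T hT t1 using fun j => (z.1 j).2.2.2
      refine ⟨fun g hg j hj => funext fun x => ?_, fun g hg => funext fun x => if_neg hg,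
        _, (hW.inf hV).inf (lv_iInf hT), fun w hw m => funext fun x => ?_⟩
      · have b := h.bm hj (a g⁻¹ x)
        rw [Pi.add_apply, pm_apply, hF _ _ (mul_mem hg hj), hF _ _ hg, hF _ _ hj, mul_inv_rev,
          h.act.mul _ (inv_mem hj) _ (inv_mem hg), show (s x)⁻¹ * (g * j) * s (a j⁻¹ (a g⁻¹ x)) =
            (s x)⁻¹ * g * s (a g⁻¹ x) * ((s (a g⁻¹ x))⁻¹ * j * s (a j⁻¹ (a g⁻¹ x))) by group,
          (z.1 (o x)).2.1 _ (h.bm hg x) _ (h.oa _ (inv_mem hg) x ▸ b), map_add, h.key r hg,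
          r.mul' hg hj, congrArg (fun j => (z.1 j).1) (h.oa _ (inv_mem hg) x), map_add, map_sub]
        abel
      · have b := h.bm hw x
        rw [w1 _ (inv_mem hw) (inv_mem m.1.1)] at b
        rw [hF _ _ hw, w1 _ (inv_mem hw) (inv_mem m.1.1), v1 w hw m.1.2, t1 _ _ b (by
          simpa using (hT _).nrm.conj_mem w (Subgroup.mem_iInf.1 m.2 _) (s x)⁻¹)]
        simp
    · refine ⟨(fun j => ⟨(D j : Set G).indicator fun d => c d (q j), fun g hg l hl => ?_,
        fun g hg => Set.indicator_of_notMem hg _, hc.2.2.imp fun W hW => ⟨hW.1, fun w hw m => ?_⟩⟩,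
        fun x => c (s x) x), funext₂ fun g x => ?_⟩
      · rw [Set.indicator_of_mem (mul_mem hg hl), Set.indicator_of_mem hg,
          Set.indicator_of_mem hl, hc.1 g (h.le j hg) l (h.le j hl), Pi.add_apply, pm_apply,
          ((h.st j _).1 (inv_mem hg)).2]
      · rw [Set.indicator_of_mem hw, hW.2 w (h.le j hw) m]
        rfl
      by_cases hg : g ∈ A
      · have a1 := congrFun (hc.1 g hg _ (h.sA (a g⁻¹ x))) x
        have a2 := congrFun (hc.1 _ (h.sA x) _ (h.le _ (h.bm hg x))) x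
        rw [mul_assoc, mul_inv_cancel_left, a1, Pi.add_apply, Pi.add_apply, pm_apply, pm_apply,
          h.si, ← mul_assoc] at a2
        rw [hF _ _ hg]
        simp only [Set.indicator_of_mem (h.bm hg x)]
        rw [sub_add_eq_add_sub, ← a2, add_sub_cancel_right]
      · rw [hc.2.1 g hg]
        exact if_neg hg
  have e2 : LinearMap.ker F = LinearMap.range K := by
    refine le_antisymm (fun z hz => ?_) ?_
    refine ⟨fun j => z.2 (q j), Prod.ext (funext fun j => Subtype.ext (funext fun d => ?_))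
      (funext fun x => ?_)⟩
    · by_cases hd : d ∈ D j
      · have := (hF z d (h.le j hd) (q j)).symm.trans (congrFun₂ hz d (q j))
        rw [((h.st j _).1 (inv_mem hd)).2, h.s1, congrArg (fun j => (z.1 j).1) (h.oq j), r.one,
          inv_one, one_mul, mul_one, ← neg_sub] at this
        exact (Set.indicator_of_mem hd _).trans (neg_add_eq_zero.1 this)
      · exact (Set.indicator_of_notMem hd _).trans ((z.1 j).2.2.1 d hd).symm
    · have := (hF z _ (h.sA x) x).symm.trans (congrFun₂ hz _ x)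
      rw [h.si, h.s1, inv_mul_cancel, mul_one, Z1.one (z.1 _).2 r.one, map_zero, add_zero] at this
      exact (sub_eq_zero.1 this).symm
    · rintro _ ⟨n, rfl⟩
      refine funext₂ fun g x => ?_
      by_cases hg : g ∈ A
      · rw [hF _ _ hg]
        change ρ _ _ - ρ g (ρ _ (n _)) + ρ _ (Set.indicator _ _ _) = 0
        rw [Set.indicator_of_mem (h.bm hg x), d0_apply, map_sub, h.key r hg, h.oa _ (inv_mem hg)]
        abel
      · exact if_neg hg
  have := F.rank_range_add_rank_ker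
  rwa [e1, e2, rank_range_of_injective K fun n m e => funext fun j => by
    simpa [K, h.s1, h.oq, r.one] using congrFun (congrArg Prod.snd e) (q j), rank_prod', rk_pi,
    rk_pi, rk_pi, Finset.sum_const, Finset.sum_const, nsmul_eq_mul, nsmul_eq_mul] at this

/-- **lemma of Shapiro**, homomorphisms -/
theorem shh (r : Rp I A ρ) (u : Mu A ω) : rk (Hm A (pm ρ a) ω) = ∑ j, rk (Hm (D j) ρ ω) := by
  classical
  let F : (∀ j, Hm (D j) ρ ω) →ₗ[k] Dual k (Q → N) :=
    { toFun := fun ψ => ∑ x, ω (s x) • ((ψ (o x)).1.comp (ρ (s x)⁻¹)).comp (.proj x)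
      map_add' := fun _ _ => LinearMap.ext fun _ => by simp [mul_add, Finset.sum_add_distrib]
      map_smul' := fun _ _ => LinearMap.ext fun _ => by simp [Finset.mul_sum, mul_left_comm] }
  have hF : ∀ ψ f, F ψ f = ∑ x, ω (s x) * (ψ (o x)).1 (ρ (s x)⁻¹ (f x)) := fun ψ f => by simp [F]
  have h1 : ∀ ψ x n, F ψ (Pi.single x n) = ω (s x) * (ψ (o x)).1 (ρ (s x)⁻¹ n) := fun ψ x n => by
    rw [hF, Finset.sum_eq_single x (fun y _ e => by simp [e]) (by simp), Pi.single_eq_same]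
  refine Eq.trans ?_ (rk_pi' fun j => Hm (D j) ρ ω)
  rw [← rank_range_of_injective F fun ψ ψ' e => funext fun j => Subtype.ext
    (LinearMap.ext fun n => by
      have := LinearMap.congr_fun e (Pi.single (q j) n)
      rw [h1, h1, congrArg (fun j => (ψ j).1) (h.oq j), congrArg (fun j => (ψ' j).1) (h.oq j),
        h.s1, inv_one, r.one, u.1, one_mul, one_mul] at this
      exact this)]
  refine congrArg rk (le_antisymm (fun φ hφ => ?_) ?_)
  refine ⟨fun j => ⟨φ.comp (.single k (fun _ => N) (q j)), fun g hg n => ?_⟩,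
    LinearMap.pi_ext fun x n => ?_⟩
  · have := hφ g (h.le j hg) (Pi.single (q j) n)
    rw [pm_single h.act (h.le j hg), ((h.st j g).1 hg).2] at this
    exact this
  · have := hφ _ (h.sA x) (Pi.single (q (o x)) (ρ (s x)⁻¹ n))
    rw [pm_single h.act (h.sA x), h.sq, r.inv (h.sA x)] at this
    exact (h1 _ _ _).trans this.symm
  · rintro _ ⟨ψ, rfl⟩ g hg f
    rw [hF, hF, ← Equiv.sum_comp (a g⁻¹) fun x => ω (s x) * (ψ (o x)).1 (ρ (s x)⁻¹ (f x)),
      Finset.mul_sum]
    refine Finset.sum_congr rfl fun x _ => ?_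
    have b := h.bm hg x
    have k1 := congrArg (ρ (s x)⁻¹) (h.key r hg x (ρ (s (a g⁻¹ x))⁻¹ (f (a g⁻¹ x))))
    rw [r.inv' (h.sA x), r.inv (h.sA _)] at k1
    rw [pm_apply, ← k1, (ψ (o x)).2 _ b, ← mul_assoc, ← u.2 _ (h.sA x) _ (h.le _ b),
      mul_assoc (s x)⁻¹, mul_inv_cancel_left, u.2 g hg _ (h.sA _),
      congrArg (fun j => (ψ j).1) (h.oa _ (inv_mem hg) x), mul_assoc]

end Orb

end Vale.Agent.P022K.G2.Sb
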