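import Vale.Agent.P022K.G2.Hq
import Vale.Agent.P022K.G2.StbA

/-!
# P022K, block G2: permutation lattices, cyclic modules, the count of Herbrand
-/

set_option linter.all false

noncomputable section

namespace Vale.Agent.P022K.G2

open Module Hq

namespace Prm

variable {G : Type} [Group G] [TopologicalSpace G] {k : Type} [Field k] {N : Type}
  [AddCommGroup N] [Module k N] {I : Set G} {Γ U : Subgroup G} {ρ : G → End k N} {ω : G → k}
  {A J : Type} [AddCommGroup A] {α : G → A →+ A} {π : G → J → J}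

/-- `π` is an action of `Γ` which is trivial on `U` -/
structure Pa (Γ U : Subgroup G) (π : G → J → J) : Prop where
  mul : ∀ g ∈ Γ, ∀ h ∈ Γ, ∀ j, π (g * h) j = π g (π h j)
  tri : ∀ u ∈ Γ, u ∈ U → ∀ j, π u j = j

theorem Pa.inv (h : Pa Γ U π) {g : G} (hg : g ∈ Γ) (j : J) : π g (π g⁻¹ j) = j := by
  rw [← h.mul g hg _ (Γ.inv_mem hg), mul_inv_cancel, h.tri 1 Γ.one_mem U.one_mem]

theorem Pa.inv' (h : Pa Γ U π) {g : G} (hg : g ∈ Γ) (j : J) : π g⁻¹ (π g j) = j := by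
  rw [← h.mul _ (Γ.inv_mem hg) g hg, inv_mul_cancel, h.tri 1 Γ.one_mem U.one_mem]

/-- the action on the free module -/
def fr (π : G → J → J) (g : G) : (J →₀ ℤ) →+ (J →₀ ℤ) := Finsupp.mapDomain.addMonoidHom (π g)

theorem fr_single (g : G) (j : J) (n : ℤ) : fr π g (Finsupp.single j n) = .single (π g j) n :=
  Finsupp.mapDomain_single

theorem ac_fr (h : Pa Γ U π) : Ac Γ U (fr π) :=
  ⟨fun g hg j hj a => by
      show Finsupp.mapDomain _ a = Finsupp.mapDomain _ (Finsupp.mapDomain _ a)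
      rw [← Finsupp.mapDomain_comp, funext (h.mul g hg j hj)]; rfl,
    fun u hu m a => by
      show Finsupp.mapDomain _ a = a
      rw [show π u = id from funext (h.tri u hu m), Finsupp.mapDomain_id]⟩

theorem fr_ext {V : Type} [AddCommGroup V] {f f' : (J →₀ ℤ) →+ V}
    (h : ∀ j, f (Finsupp.single j 1) = f' (Finsupp.single j 1)) : f = f' :=
  Finsupp.addHom_ext' fun j => AddMonoidHom.ext_int (h j)

/-- the map with given values on the basis -/
def lf {V : Type} [AddCommGroup V] (y : J → V) : (J →₀ ℤ) →+ V :=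
  Finsupp.liftAddHom fun j => zmultiplesHom V (y j)

theorem lf_single {V : Type} [AddCommGroup V] (y : J → V) (j : J) :
    lf y (Finsupp.single j 1) = y j := by
  rw [lf, Finsupp.liftAddHom_apply_single]
  exact one_zsmul _

theorem lf_sum {V : Type} [AddCommGroup V] [Fintype J] (y : J → V) (c : J →₀ ℤ) :
    lf y c = ∑ j, c j • y j := by
  rw [lf, Finsupp.liftAddHom_apply, Finsupp.sum_fintype _ _ fun _ => map_zero _]
  rfl

theorem mem_fr {f : (J →₀ ℤ) →+ Dual k N} (h : ∀ g ∈ Γ, ∀ j n,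
    f (Finsupp.single (π g j) 1) (ρ g n) = ω g * f (Finsupp.single j 1) n) :
    f ∈ Ev Γ (fr π) ρ ω := fun g hg a n =>
  DFunLike.congr_fun (fr_ext (f := (Dual.eval k N (ρ g n)).toAddMonoidHom.comp (f.comp (fr π g)))
    (f' := (ω g • Dual.eval k N n).toAddMonoidHom.comp f) fun j => by
      show f (fr π g _) (ρ g n) = _
      rw [fr_single]
      exact h g hg j n) a

/-- **the lemma of Shapiro** -/
theorem shap (h : Pd I Γ U ρ ω) (hπ : Pa Γ U π) {ι : Type} [Fintype ι] (z : ι → J)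
    (D : ι → Subgroup G) (hD : ∀ i, ∀ d ∈ D i, d ∈ Γ ∧ π d (z i) = z i)
    (ex : ∀ j, ∃ i, ∃ g ∈ Γ, j = π g (z i))
    (un : ∀ i i', ∀ g ∈ Γ, π g (z i) = z i' → i = i' ∧ ∃ u ∈ Γ, u ∈ U ∧ u * g ∈ D i) :
    rk (Ev Γ (fr π) ρ ω) = ∑ i, rk (Hm (D i) ρ ω) := by
  let F : Ev Γ (fr π) ρ ω →ₗ[k] ∀ i, Hm (D i) ρ ω :=
    { toFun := fun f i => ⟨f.1 (Finsupp.single (z i) 1), fun d hd n => by
        rw [← f.2 d (hD i d hd).1, fr_single, (hD i d hd).2]⟩
      map_add' := fun _ _ => rfl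
      map_smul' := fun _ _ => rfl }
  have val : ∀ f ∈ Ev Γ (fr π) ρ ω, ∀ g ∈ Γ, ∀ j n, f (Finsupp.single (π g j) 1) n =
      ω g * f (Finsupp.single j 1) (ρ g⁻¹ n) := fun f hf g hg j n => by
    rw [← hf g hg, fr_single, h.rp.inv hg]
  rw [← Sb.rk_pi']
  refine (LinearEquiv.ofBijective F ⟨fun f f' e => Subtype.ext (fr_ext fun j => ?_),
    fun ψ => ?_⟩).rank_eq
  · obtain ⟨i, g, hg, rfl⟩ := ex j
    refine LinearMap.ext fun n => ?_
    rw [val _ f.2 g hg, val _ f'.2 g hg]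
    exact congrArg (fun x : Hm (D i) ρ ω => ω g * x.1 (ρ g⁻¹ n)) (congrFun e i)
  choose o s hs e using ex
  let f := lf fun j => ω (s j) • (ψ (o j)).1 ∘ₗ ρ (s j)⁻¹
  have key : ∀ i, ∀ g ∈ Γ, ∀ n,
      f (Finsupp.single (π g (z i)) 1) n = ω g * (ψ i).1 (ρ g⁻¹ n) := fun i g hg n => by
    have : ∀ i', ∀ t ∈ Γ, π g (z i) = π t (z i') →
        ω t * (ψ i').1 (ρ t⁻¹ n) = ω g * (ψ i).1 (ρ g⁻¹ n) := fun i' t ht e => by
      have m := Γ.mul_mem (Γ.inv_mem ht) hg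
      obtain ⟨rfl, u, hu, hU, hd⟩ := un i i' _ m (by
        rw [hπ.mul _ (Γ.inv_mem ht) _ hg, e, hπ.inv' ht])
      have := (ψ i).2 _ hd (ρ g⁻¹ n)
      rw [h.rp.mul' hu m, h.tri u hu hU, End.one_apply, h.rp.mul' (Γ.inv_mem ht) hg, h.rp.inv hg,
        h.mu.2 _ hu _ m, h.om u hu hU, one_mul] at this
      rw [this, ← mul_assoc, ← h.mu.2 _ ht _ m, mul_inv_cancel_left]
    rw [lf_single]
    exact this _ _ (hs _) (e _)
  refine ⟨⟨f, mem_fr fun g hg j n => ?_⟩, funext fun i => Subtype.ext (LinearMap.ext fun n => ?_)⟩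
  · have m := Γ.mul_mem hg (hs j)
    rw [e j, ← hπ.mul _ hg _ (hs j), key _ _ m, key _ _ (hs j), h.mu.2 _ hg _ (hs j), mul_assoc,
      mul_inv_rev, h.rp.mul' (Γ.inv_mem (hs j)) (Γ.inv_mem hg), h.rp.inv' hg]
  · have := key i 1 Γ.one_mem n
    rwa [hπ.tri 1 Γ.one_mem U.one_mem, h.mu.1, one_mul, inv_one, h.rp.one] at this

/-- cyclic modules -/
theorem cyc (p : ℕ) [CharP k p] {a : A} (hs : ∀ b, ∃ n : ℤ, n • a = b)
    (h0 : ∀ n : ℤ, n • a = 0 → (p : ℤ) ∣ n) (θ : G → ℤ) (hθ : ∀ g ∈ Γ, α g a = θ g • a)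
    (χ : G → k) (hχ : ∀ g ∈ Γ, (θ g : k) ≠ 0 ∧ ω g = θ g * χ g) :
    rk (Ev Γ α ρ ω) = rk (Hm Γ ρ χ) := by
  let F : Ev Γ α ρ ω →ₗ[k] Hm Γ ρ χ :=
    { toFun := fun f => ⟨f.1 a, fun g hg n => mul_left_cancel₀ (hχ g hg).1 (by
        rw [← mul_assoc, ← (hχ g hg).2, ← f.2 g hg, hθ g hg, map_zsmul, LinearMap.smul_apply,
          zsmul_eq_mul])⟩
      map_add' := fun _ _ => rfl
      map_smul' := fun _ _ => rfl }
  refine (LinearEquiv.ofBijective F ⟨fun f f' e => Subtype.ext (AddMonoidHom.ext fun b => ?_),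
    fun ψ => ?_⟩).rank_eq
  · obtain ⟨n, rfl⟩ := hs b
    rw [map_zsmul, map_zsmul, show f.1 a = f'.1 a from congrArg Subtype.val e]
  let f := (zmultiplesHom A a).liftOfSurjective hs ⟨zmultiplesHom _ ψ.1, fun n hn => by
    obtain ⟨m, rfl⟩ := h0 n hn
    show ((p : ℤ) * m) • ψ.1 = 0
    rw [mul_zsmul, natCast_zsmul, p_dual]⟩
  have e : ∀ n : ℤ, f (n • a) = n • ψ.1 := fun n =>
    (zmultiplesHom A a).liftOfRightInverse_comp_apply _ _ _ n
  refine ⟨⟨f, fun g hg b n => ?_⟩, Subtype.ext ?_⟩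
  · obtain ⟨m, rfl⟩ := hs b
    rw [map_zsmul, hθ g hg, ← mul_zsmul, e, e, LinearMap.smul_apply, LinearMap.smul_apply,
      ψ.2 g hg, (hχ g hg).2, zsmul_eq_mul, zsmul_eq_mul]
    push_cast
    ring
  · exact (congrArg f (one_zsmul a).symm).trans ((e 1).trans (one_zsmul _))

open Classical in
/-- the action on a quotient -/
def quo (α : G → A →+ A) (S : AddSubgroup A) (h : ∀ g ∈ Γ, ∀ a ∈ S, α g a ∈ S) (g : G) :
    A ⧸ S →+ A ⧸ S :=
  if m : g ∈ Γ then QuotientAddGroup.map S S (α g) (h g m) else 0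

theorem quo_mk {S : AddSubgroup A} (h : ∀ g ∈ Γ, ∀ a ∈ S, α g a ∈ S) {g : G} (m : g ∈ Γ) (a : A) :
    QuotientAddGroup.mk' S (α g a) = quo α S h g (QuotientAddGroup.mk' S a) := by
  rw [quo, dif_pos m]; rfl

theorem tor_zero {p : ℕ} (h : ∀ a : A, p • a = 0 → a = 0) : rk (Ev Γ (tor p α) ρ ω) = 0 :=
  ev_zero fun f => AddMonoidHom.ext fun a => by
    rw [show a = 0 from Subtype.ext (h _ a.2), map_zero, map_zero]

theorem fg_of [Fintype J] (y : J → A) {M : ℕ} (hM : ∀ a, ∃ c : J → ℤ, ∑ j, c j • y j = M • a)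
    [Finite (Kp M A)] : AddGroup.FG A := by
  let f : A →ₗ[ℤ] A := (nsmulAddMonoidHom M : A →+ A).toIntLinearMap
  refine Module.Finite.iff_addGroup_fg.1 ⟨Submodule.fg_of_fg_map_of_fg_inf_ker f
    (Submodule.FG.of_le (Submodule.fg_span (Set.finite_range y)) ?_) ?_⟩
  · rintro _ ⟨a, -, rfl⟩
    obtain ⟨c, e⟩ := hM a
    rw [show f a = M • a from rfl, ← e]
    exact sum_mem fun j _ => Submodule.smul_mem _ _ (Submodule.subset_span ⟨j, rfl⟩)
  · rw [top_inf_eq]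
    haveI : Finite (LinearMap.ker f) := ‹Finite (Kp M A)›
    exact Module.Finite.iff_fg.1 inferInstance

/-- **the count of Herbrand** -/
theorem herb (p : ℕ) [Fact p.Prime] [CharP k p] (h : Pd I Γ U ρ ω) (hα : Ac Γ U α)
    (hπ : Pa Γ U π) [Fintype J] (y : J → A) (hy : ∀ g ∈ Γ, ∀ j, α g (y j) = y (π g j))
    (e : J → ℤ) (he : ∀ g ∈ Γ, ∀ j, e (π g j) = e j) (e0 : e ≠ 0)
    (rel : ∀ c : J → ℤ, ∑ j, c j • y j = 0 ↔ ∃ t : ℤ, c = t • e) {M : ℕ} (M0 : M ≠ 0)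
    (hM : ∀ a, ∃ c : J → ℤ, ∑ j, c j • y j = M • a) [Finite (Kp M A)] [Finite (Kp p A)] :
    rk (Ev Γ α ρ ω) + rk (Hm Γ ρ ω) = rk (Ev Γ (fr π) ρ ω) + rk (Ev Γ (tor p α) ρ ω) := by
  have pp : p.Prime := Fact.out
  let Y := lf y
  have eY : ∀ g ∈ Γ, ∀ c, Y (fr π g c) = α g (Y c) := fun g hg c =>
    DFunLike.congr_fun (fr_ext (f := Y.comp (fr π g)) (f' := (α g).comp Y) fun j => by
      show Y (fr π g _) = α g (Y _)
      rw [fr_single, lf_single, lf_single, hy g hg]) c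
  have sY : ∀ g ∈ Γ, ∀ a ∈ Y.range, α g a ∈ Y.range := by
    rintro g hg _ ⟨c, rfl⟩
    exact ⟨_, eY g hg c⟩
  let E : J →₀ ℤ := Finsupp.equivFunOnFinite.symm e
  have eE : ∀ g ∈ Γ, fr π g E = E := fun g hg => Finsupp.ext fun j => by
    rw [← hπ.inv hg j]
    exact (Finsupp.mapDomain_apply (Function.LeftInverse.injective (hπ.inv' hg)) _ _).trans
      (he g hg _).symm
  have e1 := hq2 p G k N I Γ U ρ ω ℤ (J →₀ ℤ) Y.range (fun _ => AddMonoidHom.id ℤ) (fr π)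
    (res α _ sY) (zmultiplesHom _ E) Y.rangeRestrict h ⟨fun _ _ _ _ _ => rfl, fun _ _ _ _ => rfl⟩
    (ac_fr hπ) (ac_res hα sY)
    ((injective_iff_map_eq_zero _).2 fun t ht => (smul_eq_zero.1 (show t • E = 0 from ht)).resolve_right
      fun c => e0 (funext fun j => DFunLike.congr_fun c j))
    (AddMonoidHom.rangeRestrict_surjective _)
    (fun c => Subtype.ext_iff.trans (((congrArg (· = 0) (lf_sum y c)).to_iff.trans (rel c)).trans
      (exists_congr fun t => ⟨fun e => Finsupp.ext fun j => (congrFun e j).symm,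
        fun e => funext fun j => (DFunLike.congr_fun e j).symm⟩)))
    (fun g hg t => by
      show t • E = fr π g (t • E)
      rw [map_zsmul, eE g hg])
    fun g hg c => Subtype.ext ((eY g hg c).trans (res_coe sY hg (Y.rangeRestrict c)).symm)
  haveI := fg_of y hM
  haveI : Finite (A ⧸ Y.range) := AddCommGroup.finite_of_fg_torsion _ fun q => by
    obtain ⟨a, rfl⟩ := QuotientAddGroup.mk'_surjective _ q
    obtain ⟨c, e⟩ := hM a
    refine isOfFinAddOrder_iff_nsmul_eq_zero.2 ⟨M, M0.bot_lt, ?_⟩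
    rw [← map_nsmul]
    exact (QuotientAddGroup.eq_zero_iff _).2
      ⟨Finsupp.equivFunOnFinite.symm c, (lf_sum y _).trans e⟩
  have aQ := ac_sur hα (fun g hg => quo_mk sY hg) (QuotientAddGroup.mk'_surjective _)
  have e2 := hq2 p G k N I Γ U ρ ω Y.range A (A ⧸ Y.range) (res α _ sY) α (quo α _ sY)
    Y.range.subtype (QuotientAddGroup.mk' _) h (ac_res hα sY) hα aQ Y.range.subtype_injective
    (QuotientAddGroup.mk'_surjective _)
    (fun a => (QuotientAddGroup.eq_zero_iff a).trans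
      ⟨fun m => ⟨⟨a, m⟩, rfl⟩, by rintro ⟨b, rfl⟩; exact b.2⟩)
    (fun g hg a => res_coe sY hg a) fun g hg => quo_mk sY hg
  have e3 := hq0 p G k N I Γ U ρ ω _ _ h aQ
  haveI : Finite (Kp p Y.range) := Finite.of_injective (km p Y.range.subtype)
    fun _ _ e => Subtype.ext (Subtype.ext (congrArg (fun x : Kp p A => x.1) e))
  rw [tor_zero fun a ha => (smul_eq_zero.1 ha).resolve_left pp.ne_zero,
    tor_zero (α := fr π) fun a ha => (smul_eq_zero.1 ha).resolve_left pp.ne_zero, add_zero, add_zero,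
    cyc (α := fun _ => AddMonoidHom.id ℤ) p (a := 1) (fun b => ⟨b, by simp⟩)
      (fun n hn => by simp at hn; simp [hn]) (fun _ => 1) (fun _ _ => by simp) ω
      fun _ _ => by simp] at e1
  rw [← e3.1, add_right_comm _ (rk (Ev Γ (quo α _ sY) ρ ω)),
    Cardinal.add_right_inj_of_lt_aleph0 e3.2] at e2
  refine (Cardinal.add_right_inj_of_lt_aleph0
    (fin_ev (Γ := Γ) (α := tor p (res α _ sY)) (ρ := ρ) (ω := ω) h.fin)).1 ?_
  rw [add_right_comm, e2, add_right_comm (rk (Ev Γ (fr π) ρ ω)), e1]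
  abel

end Prm

end Vale.Agent.P022K.G2
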