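import Vale.Agent.P022K.G2.Defs

/-!
# P022K, block G2: the rows of pure group theory
-/

set_option linter.all false

noncomputable section

namespace Vale.Agent.P022K.G2

open Module

/-! ### transfer, conjugation, relative projectivity -/

/-- transfer in degree one -/
def TR1 : Prop := ∀ (G : Type) [Group G] [TopologicalSpace G] (k : Type) [Field k] (N : Type)
  [AddCommGroup N] [Module k N] (I : Set G) (Γ U : Subgroup G) (ρ : G → End k N) (c : G → N),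
  Rp I Γ ρ → Prj Γ U ρ → c ∈ Z1 I Γ ρ → c ∈ B1 (Γ ⊓ U) ρ → c ∈ B1 Γ ρ

/-- transfer in degree two -/
def TR2 : Prop := ∀ (G : Type) [Group G] [TopologicalSpace G] (k : Type) [Field k] (N : Type)
  [AddCommGroup N] [Module k N] (I : Set G) (Γ U : Subgroup G) (ρ : G → End k N) (z : G → G → N),
  Rp I Γ ρ → Prj Γ U ρ → Le I Γ U → z ∈ Z2 I Γ ρ → z ∈ B2 I (Γ ⊓ U) ρ → z ∈ B2 I Γ ρ

/-- the projection formula -/
def TRC : Prop := ∀ (G : Type) [Group G] [TopologicalSpace G] (k : Type) [Field k]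
  (A U : Subgroup G) (R : Finset G) (z : G → G → k) (a b : G → k), Tv A U R → Le ∅ A U →
  z ∈ Z2 ∅ A (tr G k) → Ch A a → Ch (A ⊓ U) b →
  z - cup a b ∈ B2 ∅ (A ⊓ U) (tr G k) → ∃ v : G → k, Ch A v ∧
    (R.card : k) • z - cup a v ∈ B2 ∅ A (tr G k) ∧ ∀ g ∈ A, ∀ s : G → G,
      (∀ r ∈ R, s r ∈ R ∧ (s r)⁻¹ * (g * r) ∈ U) → v g = ∑ r ∈ R, b ((s r)⁻¹ * (g * r))

/-- inner automorphisms act trivially -/
def CJ0 : Prop := ∀ (G : Type) [Group G] [TopologicalSpace G] (k : Type) [Field k] (N : Type)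
  [AddCommGroup N] [Module k N] (I : Set G) (Γ : Subgroup G) (ρ : G → End k N) (z : G → G → N)
  (g : G), Rp I Γ ρ → z ∈ Z2 I Γ ρ → g ∈ Γ →
  (z - fun x y => ρ g⁻¹ (z (g * x * g⁻¹) (g * y * g⁻¹))) ∈ B2 I Γ ρ

/-- triviality on conjugate subgroups -/
def CJ2 : Prop := ∀ (G : Type) [Group G] [TopologicalSpace G] (k : Type) [Field k] (N : Type)
  [AddCommGroup N] [Module k N] (I : Set G) (Γ A A' : Subgroup G) (ρ : G → End k N)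
  (z : G → G → N) (g : G), Rp I Γ ρ → z ∈ Z2 I Γ ρ → g ∈ Γ → A ≤ Γ →
  (∀ x, x ∈ A ↔ g * x * g⁻¹ ∈ A') → z ∈ B2 ∅ A ρ → z ∈ B2 ∅ A' ρ

/-- invertible index -/
def PR0 : Prop := ∀ (G : Type) [Group G] [TopologicalSpace G] (k : Type) [Field k] (N : Type)
  [AddCommGroup N] [Module k N] (I : Set G) (Γ U : Subgroup G) (ρ : G → End k N),
  Rp I Γ ρ → ((U.relIndex Γ : ℕ) : k) ≠ 0 → Prj Γ U ρ

/-- restriction -/
def PRR : Prop := ∀ (G : Type) [Group G] [TopologicalSpace G] (k : Type) [Field k] (N : Type)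
  [AddCommGroup N] [Module k N] (I : Set G) (Γ U A : Subgroup G) (ρ : G → End k N),
  Rp I Γ ρ → Prj Γ U ρ → Nz Γ U → (∀ u ∈ Γ, u ∈ U → ρ u = 1) → A ≤ Γ → Prj A U ρ

/-- transitivity -/
def PRT : Prop := ∀ (G : Type) [Group G] [TopologicalSpace G] (k : Type) [Field k] (N : Type)
  [AddCommGroup N] [Module k N] (I : Set G) (Γ H U : Subgroup G) (ρ : G → End k N),
  Rp I Γ ρ → U ≤ H → H ≤ Γ → Prj Γ H ρ → Prj H U ρ → Prj Γ U ρ

/-- invariants and coinvariants of a projective module -/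
def PRD : Prop := ∀ (G : Type) [Group G] [TopologicalSpace G] (k : Type) [Field k] (N : Type)
  [AddCommGroup N] [Module k N] (I : Set G) (Γ U : Subgroup G) (ρ : G → End k N) (ω : G → k),
  Module.Finite k N → Rp I Γ ρ → Prj Γ U ρ → Nz Γ U → (∀ u ∈ Γ, u ∈ U → ρ u = 1) → Mu Γ ω →
  (∀ u ∈ Γ, u ∈ U → ω u = 1) → rk (H0 Γ ρ ω) = rk (Hm Γ ρ ω)

/-- inflation and restriction for a projective module -/
def EQV : Prop := ∀ (G : Type) [Group G] [TopologicalSpace G] (k : Type) [Field k] (N : Type)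
  [AddCommGroup N] [Module k N] (I : Set G) (Γ U : Subgroup G) (ρ : G → End k N),
  Rp I Γ ρ → Prj Γ U ρ → Nz Γ U → (∀ u ∈ Γ, u ∈ U → ρ u = 1) → Le I Γ U →
  rk (Z1 I Γ ρ) + rk (H0 Γ ρ fun _ => 1) = rk (Eq1 I Γ U ρ) + Module.rank k N

/-- from the prime field to a module with trivial action -/
def COORD : Prop := ∀ (p : ℕ) [Fact p.Prime] (G : Type) [Group G] [TopologicalSpace G] (k : Type)
  [Field k] [Finite k] [CharP k p] (N : Type) [AddCommGroup N] [Module k N] (I : Set G)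
  (A : Subgroup G) (Ds : Set (Subgroup G)) (ρ : G → End k N), Module.Finite k N →
  (∀ g ∈ A, ρ g = 1) → (∀ D ∈ Ds, D ≤ A) →
  (∀ z ∈ Z2 I A (tr G (ZMod p)), (∀ D ∈ Ds, z ∈ B2 ∅ D (tr G (ZMod p))) →
    z ∈ B2 I A (tr G (ZMod p))) →
  ∀ z ∈ Z2 I A ρ, (∀ D ∈ Ds, z ∈ B2 ∅ D ρ) → z ∈ B2 I A ρ

/-- induction along a tower -/
def TOW : Prop := ∀ (p : ℕ) [Fact p.Prime] (G : Type) [Group G] [TopologicalSpace G]
  (A : Subgroup G) (z : G → G → ZMod p) (Pp : Subgroup G → Prop), z ∈ Z2 ∅ A (tr G (ZMod p)) →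
  (∀ A', A' ≤ A → Le ∅ A A' → z ∈ B2 ∅ A' (tr G (ZMod p)) → Pp A') →
  (∀ A' A'' (η : G → ZMod p), A' ≤ A → Le ∅ A A'' → Ch A' η →
    (∀ g, g ∈ A'' ↔ g ∈ A' ∧ η g = 0) → Pp A'' → Pp A') →
  (∀ A' A'', A'' ≤ A' → A' ≤ A → Le ∅ A A'' → ¬ p ∣ A''.relIndex A' → Pp A'' → Pp A') → Pp A

/-! ### counting with projective modules -/

/-- the data of a projective module in characteristic `p` -/
structure Pd {G : Type} [Group G] [TopologicalSpace G] {k : Type} [Field k] {N : Type}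
    [AddCommGroup N] [Module k N] (I : Set G) (Γ U : Subgroup G) (ρ : G → End k N) (ω : G → k) :
    Prop where
  fin : Module.Finite k N
  rp : Rp I Γ ρ
  prj : Prj Γ U ρ
  nz : Nz Γ U
  le : Le I Γ U
  tri : ∀ u ∈ Γ, u ∈ U → ρ u = 1
  mu : Mu Γ ω
  om : ∀ u ∈ Γ, u ∈ U → ω u = 1

/-- the six term sequence -/
def HQ2 : Prop := ∀ (p : ℕ) [Fact p.Prime] (G : Type) [Group G] [TopologicalSpace G] (k : Type)
  [Field k] [CharP k p] (N : Type) [AddCommGroup N] [Module k N] (I : Set G) (Γ U : Subgroup G)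
  (ρ : G → End k N) (ω : G → k) (A₁ A A₂ : Type) [AddCommGroup A₁] [AddCommGroup A]
  [AddCommGroup A₂] (α₁ : G → A₁ →+ A₁) (α : G → A →+ A) (α₂ : G → A₂ →+ A₂) (i : A₁ →+ A)
  (π : A →+ A₂), Pd I Γ U ρ ω → Ac Γ U α₁ → Ac Γ U α → Ac Γ U α₂ → Function.Injective i →
  Function.Surjective π → (∀ a, π a = 0 ↔ ∃ b, i b = a) →
  (∀ g ∈ Γ, ∀ a, i (α₁ g a) = α g (i a)) → (∀ g ∈ Γ, ∀ a, π (α g a) = α₂ g (π a)) →
  rk (Ev Γ α ρ ω) + rk (Ev Γ (tor p α₁) ρ ω) + rk (Ev Γ (tor p α₂) ρ ω) =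
    rk (Ev Γ α₁ ρ ω) + rk (Ev Γ α₂ ρ ω) + rk (Ev Γ (tor p α) ρ ω)

/-- finite modules -/
def HQ0 : Prop := ∀ (p : ℕ) [Fact p.Prime] (G : Type) [Group G] [TopologicalSpace G] (k : Type)
  [Field k] [CharP k p] (N : Type) [AddCommGroup N] [Module k N] (I : Set G) (Γ U : Subgroup G)
  (ρ : G → End k N) (ω : G → k) (A : Type) [AddCommGroup A] [Finite A] (α : G → A →+ A),
  Pd I Γ U ρ ω → Ac Γ U α →
  rk (Ev Γ α ρ ω) = rk (Ev Γ (tor p α) ρ ω) ∧ rk (Ev Γ α ρ ω) < Cardinal.aleph0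

/-- Kummer duality -/
def KD : Prop := ∀ (p : ℕ) [Fact p.Prime] (G : Type) [Group G] [TopologicalSpace G] (k : Type)
  [Field k] [CharP k p] (N : Type) [AddCommGroup N] [Module k N] (I : Set G) (Γ U : Subgroup G)
  (ρ : G → End k N) (ω₀ : G → ZMod p) (A : Type) [AddCommGroup A] (α : G → A →+ A)
  (κ : A →+ G → ZMod p), Pd I Γ U ρ (fun g => ZMod.castHom (dvd_refl p) k (ω₀ g)) → Ac Γ U α →
  (∀ χ, χ ∈ Z1 I (Γ ⊓ U) (tr G (ZMod p)) ↔ ∃ a, κ a = χ) → (∀ a, κ a = 0 ↔ ∃ b, a = p • b) →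
  (∀ g ∈ Γ, ∀ u ∈ Γ ⊓ U, ∀ a, κ (α g a) (g * u * g⁻¹) = ω₀ g * κ a u) → Finite κ.range →
  rk (Eq1 I Γ U ρ) = rk (Ev Γ α ρ fun g => ZMod.castHom (dvd_refl p) k (ω₀ g))

/-! ### induction from `B`, the Steinberg complement -/

/-- representatives for a subgroup of finite index -/
def REPS : Prop := ∀ (G : Type) [Group G] (Ω ι : Type) [MulAction G Ω] [Fintype ι]
  (Γ B : Subgroup G) (S : Set Ω) (x : ι → Ω), Reps Γ S x → B ≤ Γ → B.relIndex Γ ≠ 0 →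
  ∃ (ι' : Type) (_ : Fintype ι') (y : ι' → Ω), Reps B S y

/-- the chain `U ≤ H ≤ B ≤ Γ`; `H / U` is a Sylow subgroup with trivial intersections -/
structure Chn {G : Type} [Group G] (p : ℕ) (Γ B H U : Subgroup G) : Prop where
  uh : U ≤ H
  hb : H ≤ B
  bg : B ≤ Γ
  nu : Nz Γ U
  nh : Nz B H
  ib : ¬ p ∣ B.relIndex Γ
  ih : ¬ p ∣ H.relIndex B
  ti : ∀ g ∈ Γ, g ∉ B → ∀ h ∈ H, g * h * g⁻¹ ∈ B → h ∈ U

/-- the induced module is `N ⊕ X`, `X` projective; lemma of Shapiro and formula of Mackey -/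
def STB : Prop := ∀ (p : ℕ) [Fact p.Prime] (G : Type) [Group G] [TopologicalSpace G] (k : Type)
  [Field k] [CharP k p] (N : Type) [AddCommGroup N] [Module k N] (I : Set G)
  (Γ B H U : Subgroup G) (ρ : G → End k N), Module.Finite k N → Rp I Γ ρ → Chn p Γ B H U →
  Le I Γ U → (∀ u ∈ U, ρ u = 1) →
  ∃ (X : Type) (_ : AddCommGroup X) (_ : Module k X) (ξ : G → End k X), Module.Finite k X ∧
    Rp I Γ ξ ∧ (∀ u ∈ U, ξ u = 1) ∧ Prj Γ U ξ ∧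
    rk (Z1 I Γ ρ) + rk (Z1 I Γ ξ) = rk (Z1 I B ρ) + Module.rank k X ∧
    (∀ ω : G → k, Mu Γ ω → rk (Hm Γ ρ ω) + rk (Hm Γ ξ ω) = rk (Hm B ρ ω)) ∧
    ∀ (Ω ι ι' : Type) [MulAction G Ω] [Fintype ι] [Fintype ι'] (S : Set Ω) (x : ι → Ω)
      (y : ι' → Ω), Reps Γ S x → Reps B S y →
      (∑ i, rk (Z1 ∅ (Dv Γ x i) ρ) + ∑ i, rk (Z1 ∅ (Dv Γ x i) ξ) +
          Fintype.card ι' * Module.rank k N =
        ∑ j, rk (Z1 ∅ (Dv B y j) ρ) + Fintype.card ι * (Module.rank k N + Module.rank k X)) ∧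
      ∀ ω : G → k, Mu Γ ω → ∑ i, rk (Hm (Dv Γ x i) ρ ω) + ∑ i, rk (Hm (Dv Γ x i) ξ ω) =
        ∑ j, rk (Hm (Dv B y j) ρ ω)

/-- restriction of the locally trivial classes -/
def RSH : Prop := ∀ (G : Type) [Group G] [TopologicalSpace G] (k : Type) [Field k] (N : Type)
  [AddCommGroup N] [Module k N] (I : Set G) (Γ B : Subgroup G) (ρ : G → End k N) (Ω ι ι' : Type)
  [MulAction G Ω] (S : Set Ω) (x : ι → Ω) (y : ι' → Ω), Rp I Γ ρ → B ≤ Γ →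
  ((B.relIndex Γ : ℕ) : k) ≠ 0 → Le I Γ B → Reps Γ S x → Reps B S y →
  sh I Γ (Dv Γ x) ρ ≤ sh I B (Dv B y) ρ

/-! ### the cone -/

/-- the long exact sequence of the cone -/
def CONE : Prop := ∀ (G : Type) [Group G] [TopologicalSpace G] (k : Type) [Field k] (N : Type)
  [AddCommGroup N] [Module k N] (I : Set G) (Γ : Subgroup G) (ι : Type) [Fintype ι]
  (D : ι → Subgroup G) (ρ : G → End k N), Rp I Γ ρ → (∀ i, D i ≤ Γ) →
  hc I Γ D ρ + rk (Z1 I Γ ρ) + Fintype.card ι * Module.rank k N =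
    sh I Γ D ρ + ∑ i, rk (Z1 ∅ (D i) ρ) + rk (Tn I Γ D ρ)

/-- the long exact sequence of an extension -/
def STEP : Prop := ∀ (G : Type) [Group G] [TopologicalSpace G] (k : Type) [Field k]
  (N₁ N N₂ : Type) [AddCommGroup N₁] [Module k N₁] [AddCommGroup N] [Module k N]
  [AddCommGroup N₂] [Module k N₂] (I : Set G) (Γ : Subgroup G) (ι : Type) (D : ι → Subgroup G)
  (ρ₁ : G → End k N₁) (ρ : G → End k N) (ρ₂ : G → End k N₂) (i : N₁ →ₗ[k] N) (π : N →ₗ[k] N₂),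
  Rp I Γ ρ₁ → Rp I Γ ρ → Rp I Γ ρ₂ → Ses Γ ρ₁ ρ ρ₂ i π → (∀ j, D j ≤ Γ) →
  hc I Γ D ρ + rk (Tn I Γ D ρ₁) + rk (Tn I Γ D ρ₂) ≤
      hc I Γ D ρ₁ + rq ((Zc I Γ D ρ).map (pc π)) (Bc I Γ D ρ₂) + rk (Tn I Γ D ρ) ∧
    rq ((Zc I Γ D ρ).map (pc π)) (Bc I Γ D ρ₂) ≤ hc I Γ D ρ₂

/-- a class of the cone which does not lift -/
def GAIN : Prop := ∀ (G : Type) [Group G] [TopologicalSpace G] (k : Type) [Field k]
  (N N₂ : Type) [AddCommGroup N] [Module k N] [AddCommGroup N₂] [Module k N₂] (I : Set G)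
  (Γ : Subgroup G) (ι : Type) (D : ι → Subgroup G) (θ : G → k) (ρ : G → End k N)
  (ρ₂ : G → End k N₂) (i : k →ₗ[k] N) (π : N →ₗ[k] N₂) (j₀ : ι) (t u : G → k) (n : N),
  Rp I Γ (ch θ) → Rp I Γ ρ → Rp I Γ ρ₂ → Ses Γ (ch θ) ρ ρ₂ i π → (∀ j, D j ≤ Γ) →
  Ch (D j₀) t → (∀ d ∈ D j₀, ρ d n - n = i (u d)) →
  (∀ z ∈ Z2 I Γ (ch θ), (∀ j, j ≠ j₀ → z ∈ B2 ∅ (D j) (ch θ)) →
    z - cup u t ∉ B2 ∅ (D j₀) (ch θ)) →
  rq ((Zc I Γ D ρ).map (pc π)) (Bc I Γ D ρ₂) + 1 ≤ hc I Γ D ρ₂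

/-- the long exact sequence of an extension, one group -/
def LST : Prop := ∀ (G : Type) [Group G] [TopologicalSpace G] (k : Type) [Field k]
  (N₁ N N₂ : Type) [AddCommGroup N₁] [Module k N₁] [AddCommGroup N] [Module k N]
  [AddCommGroup N₂] [Module k N₂] (I : Set G) (A : Subgroup G)
  (ρ₁ : G → End k N₁) (ρ : G → End k N) (ρ₂ : G → End k N₂) (i : N₁ →ₗ[k] N) (π : N →ₗ[k] N₂),
  Rp I A ρ₁ → Rp I A ρ → Rp I A ρ₂ → Ses A ρ₁ ρ ρ₂ i π →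
  rk (Z1 I A ρ₁) + rk (Z1 I A ρ₂) ≤ rk (Z1 I A ρ) + h2 I A ρ₁ ∧
    ∀ r : N →ₗ[k] N₁, (∀ a, r (i a) = a) → (∀ g ∈ A, ∀ n, r (ρ g n) = ρ₁ g (r n)) →
      rk (Z1 I A ρ₁) + rk (Z1 I A ρ₂) ≤ rk (Z1 I A ρ)

/-- finiteness -/
def FINZ : Prop := ∀ (G : Type) [Group G] [TopologicalSpace G] (k : Type) [Field k] (N : Type)
  [AddCommGroup N] [Module k N] (I : Set G) (Γ U : Subgroup G) (ρ : G → End k N),
  Module.Finite k N → Rp I Γ ρ → Le I Γ U → (∀ u ∈ Γ, u ∈ U → ρ u = 1) →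
  rk (Z1 I (Γ ⊓ U) (tr G k)) < Cardinal.aleph0 → rk (Z1 I Γ ρ) < Cardinal.aleph0

end Vale.Agent.P022K.G2
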